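import Vale.Agent.P227.Rot.SymC

open MeasureTheory Set Matrix
open scoped Pointwise ENNReal

namespace Vale.Agent.P227.Rot

lemma sym_ex_add (a b : ℝ) : ex (a + b) = ex a * ex b := by
  unfold ex; rw [← Complex.exp_add]; congr 1; push_cast; ring

lemma sym_ex_zero : ex 0 = 1 := by simp [ex]

lemma sym_ex_two_pi : ex (2 * Real.pi) = 1 := by
  unfold ex
  rw [Complex.exp_eq_one_iff]
  exact ⟨1, by push_cast; ring⟩

lemma sym_ex_neg_two_pi : ex (-(2 * Real.pi)) = 1 := by
  unfold ex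
  rw [Complex.exp_eq_one_iff]
  exact ⟨-1, by push_cast; ring⟩

lemma sym_ex_pi : ex Real.pi = -1 := by
  unfold ex
  exact Complex.exp_pi_mul_I

lemma sym_ex_cont : Continuous ex := by
  unfold ex
  fun_prop

/-- Invariance under the rotation by `a` and its inverse. -/
def SymRot (S : Set (ℂ × ℝ)) (a : ℝ) : Prop :=
  (∀ x ∈ S, (ex a * x.1, x.2) ∈ S) ∧ ∀ x ∈ S, (ex (-a) * x.1, x.2) ∈ S

lemma SymRot.zero (S : Set (ℂ × ℝ)) : SymRot S 0 := by
  constructor <;> intro x hx <;> simpa [sym_ex_zero] using hx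

lemma SymRot.neg {S : Set (ℂ × ℝ)} {a : ℝ} (h : SymRot S a) : SymRot S (-a) :=
  ⟨h.2, by rw [neg_neg]; exact h.1⟩

lemma SymRot.add {S : Set (ℂ × ℝ)} {a b : ℝ} (h : SymRot S a) (h' : SymRot S b) :
    SymRot S (a + b) := by
  constructor
  · intro x hx
    have := h.1 _ (h'.1 x hx)
    rwa [← mul_assoc, ← sym_ex_add] at this
  · intro x hx
    have := h.2 _ (h'.2 x hx)
    rwa [← mul_assoc, ← sym_ex_add, ← neg_add] at this

/-- The group of common rotations. -/
def symGroup (S S' : Set (ℂ × ℝ)) : AddSubgroup ℝ where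
  carrier := {a | SymRot S a ∧ SymRot S' a}
  zero_mem' := ⟨SymRot.zero S, SymRot.zero S'⟩
  add_mem' h h' := ⟨h.1.add h'.1, h.2.add h'.2⟩
  neg_mem' h := ⟨h.1.neg, h.2.neg⟩

lemma mem_symGroup {S S' : Set (ℂ × ℝ)} {a : ℝ} :
    a ∈ symGroup S S' ↔ SymRot S a ∧ SymRot S' a := Iff.rfl

lemma SymRot.isClosed {S : Set (ℂ × ℝ)} (hS : IsClosed S) : IsClosed {a | SymRot S a} := by
  have : {a | SymRot S a} = (⋂ x ∈ S, {a : ℝ | (ex a * x.1, x.2) ∈ S}) ∩
      ⋂ x ∈ S, {a : ℝ | (ex (-a) * x.1, x.2) ∈ S} := by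
    ext a
    simp [SymRot]
  rw [this]
  refine IsClosed.inter (isClosed_biInter fun x _ => ?_) (isClosed_biInter fun x _ => ?_)
  · exact hS.preimage (by have := sym_ex_cont; fun_prop : Continuous fun a : ℝ =>
      (ex a * x.1, x.2))
  · exact hS.preimage (by have := sym_ex_cont; fun_prop : Continuous fun a : ℝ =>
      (ex (-a) * x.1, x.2))

lemma symGroup_cases {S S' : Set (ℂ × ℝ)} (hS : IsClosed S) (hS' : IsClosed S') {θ : ℝ}
    (hθ : ex θ ≠ 1) (h : θ ∈ symGroup S S') :
    Real.pi ∈ symGroup S S' ∨ ∃ m : ℕ, 3 ≤ m ∧ Odd m ∧ 2 * Real.pi / m ∈ symGroup S S' := by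
  have hcl : IsClosed (symGroup S S' : Set ℝ) := by
    have : (symGroup S S' : Set ℝ) = {a | SymRot S a} ∩ {a | SymRot S' a} := rfl
    rw [this]
    exact (SymRot.isClosed hS).inter (SymRot.isClosed hS')
  have h2pi : 2 * Real.pi ∈ symGroup S S' := by
    constructor <;> constructor <;> intro x hx <;>
      simpa [sym_ex_two_pi, sym_ex_neg_two_pi] using hx
  rcases AddSubgroup.dense_or_cyclic (symGroup S S') with hd | ⟨g, hg⟩
  · left
    have : (symGroup S S' : Set ℝ) = univ := by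
      rw [← hcl.closure_eq]
      exact hd.closure_eq
    have h3 : Real.pi ∈ (symGroup S S' : Set ℝ) := by rw [this]; exact mem_univ _
    exact h3
  · have hgm : g ∈ symGroup S S' := by
      rw [hg]
      exact AddSubgroup.subset_closure (mem_singleton g)
    rw [hg] at h2pi h
    obtain ⟨n, hn⟩ := AddSubgroup.mem_closure_singleton.1 h2pi
    obtain ⟨k, hk⟩ := AddSubgroup.mem_closure_singleton.1 h
    rw [zsmul_eq_mul] at hn hk
    have hpi := Real.pi_pos
    have hn0 : n ≠ 0 := by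
      rintro rfl
      simp at hn
    have hnr : (n : ℝ) ≠ 0 := by exact_mod_cast hn0
    have hgn : g = 2 * Real.pi / n := by
      field_simp
      linarith
    have habs : 2 * Real.pi / (n.natAbs : ℝ) ∈ symGroup S S' := by
      rcases Int.natAbs_eq n with h5 | h5
      · have h6 : (n.natAbs : ℝ) = (n : ℝ) := by
          rw [← Int.cast_natCast (R := ℝ) n.natAbs, ← h5]
        rw [h6, ← hgn]
        exact hgm
      · have h6 : (n.natAbs : ℝ) = -(n : ℝ) := by
          have h7 : ((n.natAbs : ℤ)) = -n := by omega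
          rw [← Int.cast_natCast (R := ℝ) n.natAbs, h7, Int.cast_neg]
        rw [h6, div_neg, ← hgn]
        exact (symGroup S S').neg_mem hgm
    set m := n.natAbs with hm
    have hm0 : m ≠ 0 := by
      rw [hm]
      exact Int.natAbs_ne_zero.2 hn0
    have hm1 : m ≠ 1 := by
      intro h5
      apply hθ
      have h6 : n = 1 ∨ n = -1 := Int.natAbs_eq_iff.1 h5
      rw [← hk, hgn]
      unfold ex
      rw [Complex.exp_eq_one_iff]
      rcases h6 with h6 | h6
      · refine ⟨k, ?_⟩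
        rw [h6]
        push_cast
        ring
      · refine ⟨-k, ?_⟩
        rw [h6]
        push_cast
        ring
    rcases Nat.even_or_odd m with he | ho
    · left
      obtain ⟨r, hr⟩ := he
      have hr0 : (r : ℝ) ≠ 0 := by
        have : r ≠ 0 := by omega
        exact_mod_cast this
      have : Real.pi = (r : ℕ) • (2 * Real.pi / (m : ℝ)) := by
        rw [nsmul_eq_mul, hr]
        push_cast
        field_simp
        ring
      rw [this]
      exact (symGroup S S').nsmul_mem habs r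
    · right
      refine ⟨m, ?_, ho, habs⟩
      obtain ⟨r, hr⟩ := ho
      omega

open Vale.Agent.P227.Final in
lemma sym_mem {S : Set (E 3)} (hS : ∀ x ∈ S, -x ∈ S) (A : E 3 →ₗ[ℝ] E 3) (hA : A '' S = S)
    (T : E 3 ≃L[ℝ] ℂ × ℝ) {θ ε : ℝ} (hε : ε = 1 ∨ ε = -1)
    (hT : ∀ x, T (ε • A x) = (ex θ * (T x).1, (T x).2)) : SymRot (T '' S) θ := by
  have hεS : ∀ x ∈ S, ε • x ∈ S := by
    intro x hx
    rcases hε with h | h
    · rw [h, one_smul]; exact hx
    · rw [h, neg_one_smul]; exact hS x hx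
  have hAS : ∀ x ∈ S, A x ∈ S := by
    intro x hx
    rw [← hA]
    exact ⟨x, hx, rfl⟩
  constructor
  · rintro _ ⟨x, hx, rfl⟩
    exact ⟨ε • A x, hεS _ (hAS x hx), hT x⟩
  · rintro _ ⟨x, hx, rfl⟩
    have h1 : ε • x ∈ A '' S := by rw [hA]; exact hεS x hx
    obtain ⟨y, hy, hyx⟩ := h1
    have h2 : ε • A y = x := by
      rw [hyx, smul_smul]
      rcases hε with h | h <;> simp [h]
    refine ⟨y, hy, ?_⟩
    have h3 := hT y
    rw [h2] at h3
    rw [h3]
    simp only
    rw [← mul_assoc, ← sym_ex_add, neg_add_cancel, sym_ex_zero, one_mul]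

open Vale.Agent.P227.Final in
/-- (P9a) Either a common reflection or a common rotation of odd order. -/
theorem symmetry_dichotomy {K L : Set (E 3)} (hK : SymConvexBody K) (hL : SymConvexBody L)
    (A : E 3 →ₗ[ℝ] E 3) (hAK : A '' K = K) (hAL : A '' L = L) (h1 : A ≠ LinearMap.id)
    (h2 : A ≠ -LinearMap.id) :
    (∃ v w : Fin 1 → E 3, Invariant v w K ∧ Invariant v w L) ∨
    (∃ (T : E 3 ≃L[ℝ] ℂ × ℝ) (m : ℕ), 3 ≤ m ∧ Odd m ∧
      (∀ x ∈ T '' K, (ex (2 * Real.pi / m) * x.1, x.2) ∈ T '' K) ∧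
      (∀ x ∈ T '' L, (ex (2 * Real.pi / m) * x.1, x.2) ∈ T '' L)) := by
  obtain ⟨T, θ, ε, hε, hθ, hT⟩ := exists_coords hK.isCompact hK.nonempty_interior A hAK h1 h2
  have hcK : IsClosed (T '' K) := (hK.isCompact.image T.continuous).isClosed
  have hcL : IsClosed (T '' L) := (hL.isCompact.image T.continuous).isClosed
  rcases symGroup_cases hcK hcL hθ
    ⟨sym_mem hK.symm A hAK T hε hT, sym_mem hL.symm A hAL T hε hT⟩ with hp | ⟨m, hm, ho, hr⟩
  · left
    have hw : ∀ x : E 3, ip x ((InnerProductSpace.toDual ℝ (E 3)).symm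
        ((ContinuousLinearMap.snd ℝ ℂ ℝ).comp (T : E 3 →L[ℝ] ℂ × ℝ))) = (T x).2 := by
      intro x
      unfold ip
      rw [real_inner_comm, InnerProductSpace.toDual_symm_apply]
      rfl
    have key : ∀ S : Set (E 3), (∀ x ∈ S, -x ∈ S) → SymRot (T '' S) Real.pi →
        Invariant (fun _ : Fin 1 => T.symm (0, 1)) (fun _ : Fin 1 =>
          (InnerProductSpace.toDual ℝ (E 3)).symm
            ((ContinuousLinearMap.snd ℝ ℂ ℝ).comp (T : E 3 →L[ℝ] ℂ × ℝ))) S := by
      intro S hS hrot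
      refine ⟨?_, ?_⟩
      · intro i j
        rw [hw, ContinuousLinearEquiv.apply_symm_apply, if_pos (Subsingleton.elim i j)]
      · intro i x hx
        unfold reflection
        rw [hw]
        have h3 := hrot.1 (T x) ⟨x, hx, rfl⟩
        obtain ⟨y, hy, hyx⟩ := h3
        have h4 : x - (2 * (T x).2) • T.symm (0, 1) = -y := by
          apply T.injective
          rw [map_sub, map_smul, ContinuousLinearEquiv.apply_symm_apply, map_neg, hyx,
            sym_ex_pi]
          ext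
          · simp
          · simp
            ring
        rw [h4]
        exact hS y hy
    exact ⟨_, _, key K hK.symm hp.1, key L hL.symm hp.2⟩
  · right
    exact ⟨T, m, hm, ho, hr.1.1, hr.2.1⟩

end Vale.Agent.P227.Rot
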