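import Vale.Agent.P227.Rot.Defs
import Vale.Agent.P227.PL

open MeasureTheory Set
open scoped Pointwise ENNReal

namespace Vale.Agent.P227.Rot

theorem CmBody.add {m : ℕ} {X Y : Set ℂ} (hX : CmBody m X) (hY : CmBody m Y) :
    CmBody m (X + Y) where
  convex := hX.convex.add hY.convex
  isCompact := hX.isCompact.add hY.isCompact
  nonempty := hX.nonempty.add hY.nonempty
  rot := by
    rintro _ ⟨x, hx, y, hy, rfl⟩
    exact ⟨_, hX.rot x hx, _, hY.rot y hy, by simp [mul_add]⟩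

theorem CmBody.smul {m : ℕ} {X : Set ℂ} (hX : CmBody m X) (r : ℝ) : CmBody m (r • X) where
  convex := hX.convex.smul r
  isCompact := hX.isCompact.smul r
  nonempty := hX.nonempty.smul_set
  rot := by
    rintro _ ⟨x, hx, rfl⟩
    exact ⟨_, hX.rot x hx, by simp; ring⟩

theorem continuous_dir (a : ℝ) : Continuous fun y : ℂ => (ex (-a) * y).re := by fun_prop

theorem hsup_bdd {X : Set ℂ} (hX : IsCompact X) (a : ℝ) :
    BddAbove ((fun y : ℂ => (ex (-a) * y).re) '' X) :=
  (hX.image (continuous_dir a)).bddAbove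

theorem le_hsup {X : Set ℂ} (hX : IsCompact X) (a : ℝ) {y : ℂ} (hy : y ∈ X) :
    (ex (-a) * y).re ≤ hsup X a :=
  le_csSup (hsup_bdd hX a) ⟨y, hy, rfl⟩

theorem exists_hsup {X : Set ℂ} (hX : IsCompact X) (nX : X.Nonempty) (a : ℝ) :
    ∃ y ∈ X, (ex (-a) * y).re = hsup X a := by
  obtain ⟨y, hy, h⟩ := hX.exists_isMaxOn nX (continuous_dir a).continuousOn
  refine ⟨y, hy, le_antisymm (le_hsup hX a hy) (csSup_le (nX.image _) ?_)⟩
  rintro _ ⟨z, hz, rfl⟩
  exact h hz

theorem hsup_add {X Y : Set ℂ} (hX : IsCompact X) (hY : IsCompact Y) (nX : X.Nonempty)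
    (nY : Y.Nonempty) (a : ℝ) : hsup (X + Y) a = hsup X a + hsup Y a := by
  unfold hsup
  rw [← csSup_add (nX.image _) (hsup_bdd hX a) (nY.image _) (hsup_bdd hY a)]
  congr 1
  ext z
  constructor
  · rintro ⟨_, ⟨x, hx, y, hy, rfl⟩, rfl⟩
    exact ⟨_, ⟨x, hx, rfl⟩, _, ⟨y, hy, rfl⟩, by simp [mul_add]⟩
  · rintro ⟨_, ⟨x, hx, rfl⟩, _, ⟨y, hy, rfl⟩, rfl⟩
    exact ⟨x + y, ⟨x, hx, y, hy, rfl⟩, by simp [mul_add]⟩

theorem hsup_smul {X : Set ℂ} (_hX : IsCompact X) (_nX : X.Nonempty) {r : ℝ} (hr : 0 ≤ r)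
    (a : ℝ) : hsup (r • X) a = r * hsup X a := by
  unfold hsup
  rw [← smul_eq_mul, ← Real.sSup_smul_of_nonneg hr]
  congr 1
  ext z
  constructor
  · rintro ⟨_, ⟨x, hx, rfl⟩, rfl⟩
    exact ⟨_, ⟨x, hx, rfl⟩, by simp; ring⟩
  · rintro ⟨_, ⟨x, hx, rfl⟩, rfl⟩
    exact ⟨r • x, ⟨x, hx, rfl⟩, by simp; ring⟩

theorem area_nonneg (X : Set ℂ) : 0 ≤ area X := ENNReal.toReal_nonneg

theorem area_mono {X Y : Set ℂ} (hY : IsCompact Y) (h : X ⊆ Y) : area X ≤ area Y :=
  ENNReal.toReal_mono hY.measure_lt_top.ne (measure_mono h)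

theorem area_smul (r : ℝ) (X : Set ℂ) : area (r • X) = r ^ 2 * area X := by
  unfold area
  rw [Measure.addHaar_smul, Complex.finrank_real_complex, ENNReal.toReal_mul,
    ENNReal.toReal_ofReal (abs_nonneg _), abs_of_nonneg (sq_nonneg r)]

theorem area_add_single (X : Set ℂ) (z : ℂ) : area (X + {z}) = area X := by
  unfold area
  rw [add_singleton, image_add_right, measure_preimage_add_right]

theorem area_le_add {X Y : Set ℂ} (hX : IsCompact X) (hY : IsCompact Y) (nY : Y.Nonempty) :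
    area X ≤ area (X + Y) := by
  obtain ⟨z, hz⟩ := nY
  rw [← area_add_single X z]
  exact area_mono (hX.add hY) (add_subset_add_left (singleton_subset_iff.2 hz))

theorem bm_mul_complex {s t : ℝ} (hs : 0 < s) (ht : 0 < t) (hst : s + t = 1) {X Y : Set ℂ}
    (hX : IsCompact X) (hY : IsCompact Y) :
    volume X ^ s * volume Y ^ t ≤ volume (s • X + t • Y) := by
  have hp := Complex.volume_preserving_equiv_pi
  have key : ∀ S : Set ℂ, volume (Complex.measurableEquivPi '' S) = volume S := by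
    intro S
    rw [MeasurableEquiv.image_eq_preimage_symm]
    exact hp.symm.measure_preimage_equiv S
  have hc : Continuous (Complex.measurableEquivPi : ℂ → (Fin 2 → ℝ)) := by
    refine continuous_pi fun i => ?_
    fin_cases i
    · simpa [Complex.measurableEquivPi_apply] using Complex.continuous_re
    · simpa [Complex.measurableEquivPi_apply] using Complex.continuous_im
  rw [← key X, ← key Y, ← key]
  refine Vale.Agent.P227.bm_mul hs ht hst (hX.image hc).measurableSet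
    (hY.image hc).measurableSet (((hX.smul s).add (hY.smul t)).image hc).measurableSet ?_
  rintro _ ⟨x, hx, rfl⟩ _ ⟨y, hy, rfl⟩
  refine ⟨s • x + t • y, ⟨s • x, ⟨x, hx, rfl⟩, t • y, ⟨y, hy, rfl⟩, rfl⟩, ?_⟩
  funext i
  fin_cases i <;> simp [Complex.measurableEquivPi_apply]

theorem bm_area {X Y : Set ℂ} (hX : IsCompact X) (hY : IsCompact Y) (nX : X.Nonempty)
    (nY : Y.Nonempty) : √(area X) + √(area Y) ≤ √(area (X + Y)) := by
  rcases (area_nonneg X).eq_or_lt with h0 | hXp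
  · rw [← h0, Real.sqrt_zero, zero_add, add_comm X Y]
    exact Real.sqrt_le_sqrt (area_le_add hY hX nX)
  rcases (area_nonneg Y).eq_or_lt with h0 | hYp
  · rw [← h0, Real.sqrt_zero, add_zero]
    exact Real.sqrt_le_sqrt (area_le_add hX hY nY)
  set a := √(area X) with ha
  set b := √(area Y) with hb
  have ha0 : 0 < a := Real.sqrt_pos.2 hXp
  have hb0 : 0 < b := Real.sqrt_pos.2 hYp
  have ha2 : a ^ 2 = area X := Real.sq_sqrt hXp.le
  have hb2 : b ^ 2 = area Y := Real.sq_sqrt hYp.le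
  have hs : 0 < a / (a + b) := by positivity
  have ht : 0 < b / (a + b) := by positivity
  have hst : a / (a + b) + b / (a + b) = 1 := by field_simp
  have h := bm_mul_complex hs ht hst (hX.smul a⁻¹) (hY.smul b⁻¹)
  have e1 : area (a⁻¹ • X) = 1 := by
    rw [area_smul, ← ha2]; field_simp
  have e2 : area (b⁻¹ • Y) = 1 := by
    rw [area_smul, ← hb2]; field_simp
  have v1 : volume (a⁻¹ • X) = 1 := by
    rw [← ENNReal.ofReal_toReal (hX.smul a⁻¹).measure_lt_top.ne]
    exact (congrArg ENNReal.ofReal e1).trans ENNReal.ofReal_one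
  have v2 : volume (b⁻¹ • Y) = 1 := by
    rw [← ENNReal.ofReal_toReal (hY.smul b⁻¹).measure_lt_top.ne]
    exact (congrArg ENNReal.ofReal e2).trans ENNReal.ofReal_one
  have e3 : (a / (a + b)) • a⁻¹ • X + (b / (a + b)) • b⁻¹ • Y = (a + b)⁻¹ • (X + Y) := by
    rw [smul_smul, smul_smul, smul_add]
    congr 2 <;> field_simp
  rw [v1, v2, e3] at h
  simp only [ENNReal.one_rpow, mul_one] at h
  have h2 : 1 ≤ area ((a + b)⁻¹ • (X + Y)) := by
    have := ENNReal.toReal_mono ((hX.add hY).smul (a + b)⁻¹).measure_lt_top.ne h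
    simpa [area] using this
  rw [area_smul] at h2
  refine Real.le_sqrt_of_sq_le ?_
  have hab : 0 < a + b := by positivity
  have h3 := mul_le_mul_of_nonneg_left h2 (sq_nonneg (a + b))
  have h4 : (a + b) ^ 2 * ((a + b)⁻¹ ^ 2 * area (X + Y)) = area (X + Y) := by
    field_simp
  rw [h4, mul_one] at h3
  exact h3

end Vale.Agent.P227.Rot
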