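import Vale.Agent.P227.Rot.Defs

namespace Vale.Agent.P227.Rot

theorem per_pos {m : ℕ} (hm : 3 ≤ m) : 0 < 2 * Real.pi / (m : ℝ) := by
  have : (0 : ℝ) < m := by exact_mod_cast (by omega : 0 < m)
  positivity

theorem dst_eq {m : ℕ} (hm : 3 ≤ m) (d : ℝ) :
    dst m d = 2 * Real.pi / m * min (Int.fract (d / (2 * Real.pi / m)))
      (1 - Int.fract (d / (2 * Real.pi / m))) := by
  have hT := per_pos hm
  rw [← abs_sub_round_eq_min, dst, ← abs_of_pos hT, ← abs_mul, abs_of_pos hT]
  congr 1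
  rw [mul_sub, mul_div_cancel₀ _ hT.ne']

theorem dst_nonneg (m : ℕ) (d : ℝ) : 0 ≤ dst m d := abs_nonneg _

theorem dst_le {m : ℕ} (hm : 3 ≤ m) (d : ℝ) : dst m d ≤ Real.pi / m := by
  have hT := per_pos hm
  rw [dst_eq hm, ← abs_sub_round_eq_min]
  have h := abs_sub_round (d / (2 * Real.pi / (m : ℝ)))
  calc _ ≤ 2 * Real.pi / (m : ℝ) * (1 / 2) := by gcongr
    _ = Real.pi / m := by ring

theorem dst_neg {m : ℕ} (hm : 3 ≤ m) (d : ℝ) : dst m (-d) = dst m d := by
  rw [dst_eq hm, dst_eq hm, neg_div]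
  congr 1
  by_cases h : Int.fract (d / (2 * Real.pi / (m : ℝ))) = 0
  · have h' : Int.fract (-(d / (2 * Real.pi / (m : ℝ)))) = 0 := by
      rwa [Int.fract_neg_eq_zero]
    rw [h, h']
  · rw [Int.fract_neg h, sub_sub_cancel, min_comm]

theorem dst_add_per {m : ℕ} (hm : 3 ≤ m) (d : ℝ) (k : ℤ) :
    dst m (d + 2 * Real.pi / m * k) = dst m d := by
  have hT := per_pos hm
  rw [dst_eq hm, dst_eq hm, add_div, mul_div_cancel_left₀ _ hT.ne', Int.fract_add_intCast]

theorem dst_add_half {m : ℕ} (hm : 3 ≤ m) (d : ℝ) :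
    dst m (d + Real.pi / m) = Real.pi / m - dst m d := by
  have hT := per_pos hm
  rw [dst_eq hm, dst_eq hm]
  have e : (d + Real.pi / m) / (2 * Real.pi / (m : ℝ)) = d / (2 * Real.pi / (m : ℝ)) + 1 / 2 := by
    rw [add_div]
    congr 1
    have : (0 : ℝ) < m := by exact_mod_cast (by omega : 0 < m)
    field_simp
  rw [e]
  set u := d / (2 * Real.pi / (m : ℝ)) with hu
  have h0 := Int.fract_nonneg u
  have h1 := Int.fract_lt_one u
  have key : min (Int.fract (u + 1 / 2)) (1 - Int.fract (u + 1 / 2)) =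
      1 / 2 - min (Int.fract u) (1 - Int.fract u) := by
    have hs : u + 1 / 2 = (Int.fract u + 1 / 2) + (⌊u⌋ : ℝ) := by
      have := Int.floor_add_fract u
      linarith
    rcases lt_or_ge (Int.fract u) (1 / 2) with h | h
    · have : Int.fract (u + 1 / 2) = Int.fract u + 1 / 2 := by
        rw [hs, Int.fract_add_intCast, Int.fract_eq_self]
        constructor <;> linarith
      rw [this, min_eq_right (by linarith), min_eq_left (by linarith)]
      ring
    · have : Int.fract (u + 1 / 2) = Int.fract u - 1 / 2 := by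
        have hs' : u + 1 / 2 = (Int.fract u - 1 / 2) + ((⌊u⌋ + 1 : ℤ) : ℝ) := by
          push_cast
          linarith
        rw [hs', Int.fract_add_intCast, Int.fract_eq_self]
        constructor <;> linarith
      rw [this, min_eq_left (by linarith), min_eq_right (by linarith)]
      ring
  rw [key]
  ring

theorem dst_add_pi {m : ℕ} (hm : 3 ≤ m) (ho : Odd m) (d : ℝ) :
    dst m (d + Real.pi) = Real.pi / m - dst m d := by
  obtain ⟨k, hk⟩ := ho
  have hm0 : (0 : ℝ) < m := by exact_mod_cast (by omega : 0 < m)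
  have e : d + Real.pi = (d + Real.pi / m) + 2 * Real.pi / m * ((k : ℤ) : ℝ) := by
    have : (m : ℝ) = 2 * k + 1 := by exact_mod_cast hk
    field_simp
    push_cast
    rw [this]
    ring
  rw [e, dst_add_per hm, dst_add_half hm]

theorem dst_add_two_pi {m : ℕ} (hm : 3 ≤ m) (d : ℝ) : dst m (d + 2 * Real.pi) = dst m d := by
  have hm0 : (0 : ℝ) < m := by exact_mod_cast (by omega : 0 < m)
  have e : d + 2 * Real.pi = d + 2 * Real.pi / m * ((m : ℤ) : ℝ) := by
    push_cast
    field_simp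
  rw [e, dst_add_per hm]

theorem dst_of_le {m : ℕ} (hm : 3 ≤ m) {d : ℝ} (h : |d| ≤ Real.pi / m) : dst m d = |d| := by
  have hT := per_pos hm
  have hm0 : (0 : ℝ) < m := by exact_mod_cast (by omega : 0 < m)
  have key : ∀ x : ℝ, 0 ≤ x → x ≤ Real.pi / m → dst m x = x := by
    intro x h0 h1
    have hx : Int.fract (x / (2 * Real.pi / (m : ℝ))) = x / (2 * Real.pi / (m : ℝ)) := by
      rw [Int.fract_eq_self]
      refine ⟨by positivity, ?_⟩
      rw [div_lt_one hT]
      have : Real.pi / m < 2 * Real.pi / m := by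
        gcongr
        linarith [Real.pi_pos]
      linarith
    have h2 : x / (2 * Real.pi / (m : ℝ)) ≤ 1 / 2 := by
      rw [div_le_iff₀ hT]
      calc x ≤ Real.pi / m := h1
        _ = 1 / 2 * (2 * Real.pi / m) := by ring
    rw [dst_eq hm, hx, min_eq_left (by linarith), mul_div_cancel₀ _ hT.ne']
  rcases le_total 0 d with h0 | h0
  · rw [abs_of_nonneg h0] at h ⊢
    exact key d h0 h
  · rw [abs_of_nonpos h0] at h ⊢
    rw [← dst_neg hm]
    exact key (-d) (by linarith) h

theorem cc_neg (m : ℕ) (hm : 3 ≤ m) (d : ℝ) : cc m (-d) = cc m d := by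
  rw [cc, cc, dst_neg hm]

theorem cc_le_one (m : ℕ) (d : ℝ) : cc m d ≤ 1 := Real.cos_le_one _

theorem pi_div_le {m : ℕ} (hm : 3 ≤ m) : Real.pi / m ≤ Real.pi / 3 := by
  have : (3 : ℝ) ≤ m := by exact_mod_cast hm
  have := Real.pi_pos
  gcongr

theorem cos_le_cc {m : ℕ} (hm : 3 ≤ m) (d : ℝ) : Real.cos (Real.pi / m) ≤ cc m d := by
  have h0 := dst_nonneg m d
  have h1 := dst_le hm d
  have h2 := pi_div_le hm
  have h3 := Real.pi_pos
  exact Real.cos_le_cos_of_nonneg_of_le_pi (by linarith) (by linarith) (by linarith)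

theorem cc_add_pi {m : ℕ} (hm : 3 ≤ m) (ho : Odd m) (d : ℝ) :
    1 + Real.cos (Real.pi / m) ≤ cc m d + cc m (d + Real.pi) := by
  have h0 := dst_nonneg m d
  have h1 := dst_le hm d
  have h2 := pi_div_le hm
  have h3 := Real.pi_pos
  rw [cc, cc, dst_add_pi hm ho, sub_sub_cancel]
  set b := Real.pi / (m : ℝ) with hb
  set x := dst m d with hx
  have e1 : Real.cos (b - x) + Real.cos x = 2 * Real.cos (b / 2) * Real.cos (b / 2 - x) := by
    rw [Real.cos_add_cos, show (b - x + x) / 2 = b / 2 by ring,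
      show (b - x - x) / 2 = b / 2 - x by ring]
  have e2 : 1 + Real.cos b = 2 * Real.cos (b / 2) * Real.cos (b / 2) := by
    have := Real.cos_sq (b / 2)
    have h : 2 * (b / 2) = b := by ring
    rw [h] at this
    nlinarith [this]
  have h4 : 0 ≤ Real.cos (b / 2) :=
    Real.cos_nonneg_of_mem_Icc ⟨by linarith, by linarith⟩
  have h5 : Real.cos (b / 2) ≤ Real.cos (b / 2 - x) := by
    rw [← Real.cos_abs (b / 2 - x)]
    refine Real.cos_le_cos_of_nonneg_of_le_pi (abs_nonneg _) (by linarith) ?_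
    rw [abs_le]
    constructor <;> linarith
  rw [e1, e2]
  gcongr

theorem kap_add_two_pi {m : ℕ} (hm : 3 ≤ m) (d : ℝ) : kap m (d + 2 * Real.pi) = kap m d := by
  rw [kap, kap, cc, cc, dst_add_two_pi hm]

theorem sin_pi_div_pos {m : ℕ} (hm : 3 ≤ m) : 0 < Real.sin (Real.pi / m) := by
  have h2 := pi_div_le hm
  have h3 := Real.pi_pos
  have hm0 : (0 : ℝ) < m := by exact_mod_cast (by omega : 0 < m)
  exact Real.sin_pos_of_pos_of_lt_pi (by positivity) (by linarith)

theorem half_le_cos {m : ℕ} (hm : 3 ≤ m) : 1 / 2 ≤ Real.cos (Real.pi / m) := by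
  have h2 := pi_div_le hm
  have h3 := Real.pi_pos
  have hm0 : (0 : ℝ) < m := by exact_mod_cast (by omega : 0 < m)
  rw [← Real.cos_pi_div_three]
  exact Real.cos_le_cos_of_nonneg_of_le_pi (by positivity) (by linarith) h2

theorem cc_pos {m : ℕ} (hm : 3 ≤ m) (d : ℝ) : 0 < cc m d := by
  have := half_le_cos hm
  have := cos_le_cc hm d
  linarith

theorem kap_pos {m : ℕ} (hm : 3 ≤ m) (d : ℝ) : 0 < kap m d :=
  div_pos (cc_pos hm d) (by have := sin_pi_div_pos hm; positivity)

theorem kap_neg {m : ℕ} (hm : 3 ≤ m) (d : ℝ) : kap m (-d) = kap m d := by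
  rw [kap, kap, cc_neg m hm]

end Vale.Agent.P227.Rot
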