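import Vale.Agent.P227.Rot.Geo
import Vale.Agent.P227.Rot.Basic
import Vale.Agent.P227.Rot.Kernel

open MeasureTheory Set
open scoped Pointwise ENNReal

namespace Vale.Agent.P227.Rot

theorem CmBody.zero (m : ℕ) : CmBody m (0 : Set ℂ) where
  convex := convex_singleton 0
  isCompact := isCompact_singleton
  nonempty := ⟨0, rfl⟩
  rot := by
    intro y hy
    have : y = 0 := hy
    subst this
    rw [mul_zero]
    rfl

theorem hsup_zero (a : ℝ) : hsup (0 : Set ℂ) a = 0 := by
  unfold hsup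
  rw [show (0 : Set ℂ) = {0} from rfl, image_singleton, csSup_singleton, mul_zero]
  rfl

theorem area_zero : area (0 : Set ℂ) = 0 := by
  unfold area
  rw [show (0 : Set ℂ) = {0} from rfl, measure_singleton]
  rfl

variable {ι : Type} [Fintype ι]

omit [Fintype ι] in
theorem sum_body {m : ℕ} (hm : 3 ≤ m) (θ x : ι → ℝ) (s : Finset ι) :
    CmBody m (∑ i ∈ s, x i • Rgon m (θ i)) := by
  classical
  induction s using Finset.induction_on with
  | empty => simpa using CmBody.zero m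
  | insert j s hj ih =>
    rw [Finset.sum_insert hj]
    exact ((Rgon_body hm (θ j)).smul (x j)).add ih

omit [Fintype ι] in
theorem hsup_sum {m : ℕ} (hm : 3 ≤ m) (θ : ι → ℝ) {x : ι → ℝ} (hx : ∀ i, 0 ≤ x i) (a : ℝ)
    (s : Finset ι) :
    hsup (∑ i ∈ s, x i • Rgon m (θ i)) a = ∑ i ∈ s, x i * kap m (a - θ i) := by
  classical
  induction s using Finset.induction_on with
  | empty => simpa using hsup_zero a
  | insert j s hj ih =>
    have hR := Rgon_body hm (θ j)
    have hR' := hR.smul (x j)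
    have hS := sum_body hm θ x s
    rw [Finset.sum_insert hj, Finset.sum_insert hj,
      hsup_add hR'.isCompact hS.isCompact hR'.nonempty hS.nonempty, ih,
      hsup_smul hR.isCompact hR.nonempty (hx j), hsup_Rgon hm]

omit [Fintype ι] in
theorem area_add_sum {m : ℕ} (hm : 3 ≤ m) {X : Set ℂ} (hX : CmBody m X) (θ : ι → ℝ) {x : ι → ℝ}
    (hx : ∀ i, 0 ≤ x i) (s : Finset ι) :
    area (X + ∑ i ∈ s, x i • Rgon m (θ i)) = area X + m * ∑ i ∈ s, x i * hsup X (θ i)
      + m / 2 * ∑ i ∈ s, ∑ k ∈ s, x i * x k * kap m (θ i - θ k) := by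
  classical
  induction s using Finset.induction_on with
  | empty => simp
  | insert j s hj ih =>
    have hS := sum_body hm θ x s
    have hXS := hX.add hS
    have e : X + ∑ i ∈ insert j s, x i • Rgon m (θ i) =
        (X + ∑ i ∈ s, x i • Rgon m (θ i)) + x j • Rgon m (θ j) := by
      rw [Finset.sum_insert hj, add_comm (x j • Rgon m (θ j)), add_assoc]
    rw [e, area_add_Rgon hm hXS (θ j) (hx j), ih,
      hsup_add hX.isCompact hS.isCompact hX.nonempty hS.nonempty, hsup_sum hm θ hx]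
    have e1 : ∑ i ∈ insert j s, ∑ k ∈ insert j s, x i * x k * kap m (θ i - θ k) =
        x j * x j * kap m 0 + 2 * (x j * ∑ k ∈ s, x k * kap m (θ j - θ k)) +
          ∑ i ∈ s, ∑ k ∈ s, x i * x k * kap m (θ i - θ k) := by
      rw [Finset.sum_insert hj, Finset.sum_insert hj, sub_self]
      have e2 : ∑ i ∈ s, ∑ k ∈ insert j s, x i * x k * kap m (θ i - θ k) =
          ∑ i ∈ s, x i * x j * kap m (θ i - θ j) +
            ∑ i ∈ s, ∑ k ∈ s, x i * x k * kap m (θ i - θ k) := by
        rw [← Finset.sum_add_distrib]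
        exact Finset.sum_congr rfl fun i _ => by rw [Finset.sum_insert hj]
      have e3 : ∑ i ∈ s, x i * x j * kap m (θ i - θ j) =
          x j * ∑ k ∈ s, x k * kap m (θ j - θ k) := by
        rw [Finset.mul_sum]
        refine Finset.sum_congr rfl fun i _ => ?_
        rw [← kap_neg hm (θ j - θ i), neg_sub]
        ring
      have e4 : ∑ k ∈ s, x j * x k * kap m (θ j - θ k) =
          x j * ∑ k ∈ s, x k * kap m (θ j - θ k) := by
        rw [Finset.mul_sum]
        exact Finset.sum_congr rfl fun i _ => by ring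
      rw [e2, e3, e4]
      ring
    rw [e1, Finset.sum_insert hj]
    ring

theorem QQ_body {m : ℕ} (hm : 3 ≤ m) (θ x : ι → ℝ) : CmBody m (QQ m θ x) :=
  sum_body hm θ x Finset.univ

theorem hsup_QQ {m : ℕ} (hm : 3 ≤ m) (θ : ι → ℝ) {x : ι → ℝ} (hx : ∀ i, 0 ≤ x i) (a : ℝ) :
    hsup (QQ m θ x) a = HH m θ x a :=
  hsup_sum hm θ hx a Finset.univ

theorem area_add_QQ {m : ℕ} (hm : 3 ≤ m) {X : Set ℂ} (hX : CmBody m X) (θ : ι → ℝ) {x : ι → ℝ}
    (hx : ∀ i, 0 ≤ x i) :
    area (X + QQ m θ x) = area X + m * ∑ i, x i * hsup X (θ i) + m / 2 * BB m θ x x :=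
  area_add_sum hm hX θ hx Finset.univ

theorem area_QQ {m : ℕ} (hm : 3 ≤ m) (θ : ι → ℝ) {x : ι → ℝ} (hx : ∀ i, 0 ≤ x i) :
    area (QQ m θ x) = m / 2 * BB m θ x x := by
  have h := area_add_QQ hm (CmBody.zero m) θ hx
  rw [zero_add, area_zero] at h
  rw [h]
  simp [hsup_zero]

/-- Minkowski's first inequality. -/
theorem mink_X {m : ℕ} (hm : 3 ≤ m) {X : Set ℂ} (hX : CmBody m X) (θ : ι → ℝ) {x : ι → ℝ}
    (hx : ∀ i, 0 ≤ x i) :
    area X * (m / 2 * BB m θ x x) ≤ (m / 2 * ∑ i, x i * hsup X (θ i)) ^ 2 := by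
  have hQ := QQ_body hm θ x
  have h1 := bm_area hX.isCompact hQ.isCompact hX.nonempty hQ.nonempty
  have h2 := area_add_QQ hm hX θ hx
  have h3 := area_QQ hm θ hx
  have hA := area_nonneg X
  have hB := area_nonneg (QQ m θ x)
  have hC := area_nonneg (X + QQ m θ x)
  set A := area X
  set Q := area (QQ m θ x)
  set Z := area (X + QQ m θ x)
  rw [← h3] at h2 ⊢
  set V := m / 2 * ∑ i, x i * hsup X (θ i) with hV
  have h4 : Z = A + 2 * V + Q := by rw [h2, hV]; ring
  have sA := Real.sq_sqrt hA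
  have sQ := Real.sq_sqrt hB
  have sZ := Real.sq_sqrt hC
  have nA := Real.sqrt_nonneg A
  have nQ := Real.sqrt_nonneg Q
  have h5 : (√A + √Q) ^ 2 ≤ Z := by
    rw [← sZ]
    gcongr
  have h6 : √A * √Q ≤ V := by nlinarith
  calc A * Q = (√A * √Q) ^ 2 := by rw [mul_pow, sA, sQ]
    _ ≤ V ^ 2 := by gcongr

theorem mink_BB {m : ℕ} (hm : 3 ≤ m) (θ : ι → ℝ) {x y : ι → ℝ} (hx : ∀ i, 0 ≤ x i)
    (hy : ∀ i, 0 ≤ y i) : BB m θ x x * BB m θ y y ≤ BB m θ x y ^ 2 := by
  have h := mink_X hm (QQ_body hm θ y) θ hx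
  rw [area_QQ hm θ hy] at h
  have e : ∑ i, x i * hsup (QQ m θ y) (θ i) = BB m θ x y := by
    unfold BB
    refine Finset.sum_congr rfl fun i _ => ?_
    rw [hsup_QQ hm θ hy, HH, Finset.mul_sum]
    exact Finset.sum_congr rfl fun k _ => by ring
  rw [e] at h
  have hm0 : (0 : ℝ) < m := by exact_mod_cast (by omega : 0 < m)
  have hp : (0 : ℝ) < (m / 2) ^ 2 := by positivity
  have h' : (m / 2 : ℝ) ^ 2 * (BB m θ x x * BB m θ y y) ≤ (m / 2 : ℝ) ^ 2 * BB m θ x y ^ 2 := by
    calc _ = m / 2 * BB m θ y y * (m / 2 * BB m θ x x) := by ring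
      _ ≤ _ := h
      _ = _ := by ring
  exact le_of_mul_le_mul_left h' hp

theorem BB_nonneg {m : ℕ} (hm : 3 ≤ m) (θ : ι → ℝ) {x y : ι → ℝ} (hx : ∀ i, 0 ≤ x i)
    (hy : ∀ i, 0 ≤ y i) : 0 ≤ BB m θ x y :=
  Finset.sum_nonneg fun i _ => Finset.sum_nonneg fun k _ =>
    mul_nonneg (mul_nonneg (hx i) (hy k)) (kap_pos hm _).le

/-- The kernel `kap (d + π) - kap d` is positive semidefinite. -/
theorem psd {m : ℕ} (hm : 3 ≤ m) (ho : Odd m) (θ : ι → ℝ) (x : ι → ℝ) :
    0 ≤ ∑ i, ∑ k, x i * x k * (kap m (θ i - θ k + Real.pi) - kap m (θ i - θ k)) := by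
  have hper : ∀ d, kap m (d - Real.pi) = kap m (d + Real.pi) := by
    intro d
    rw [← kap_add_two_pi hm (d - Real.pi)]
    congr 1
    ring
  let T : ι ⊕ ι → ℝ := Sum.elim θ fun i => θ i + Real.pi
  let A : ι ⊕ ι → ℝ := Sum.elim (fun i => max (x i) 0) fun i => max (-x i) 0
  let B : ι ⊕ ι → ℝ := Sum.elim (fun i => max (-x i) 0) fun i => max (x i) 0
  have hA : ∀ i, 0 ≤ A i := by
    rintro (i | i)
    · exact le_max_right _ _
    · exact le_max_right _ _
  have hB : ∀ i, 0 ≤ B i := by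
    rintro (i | i)
    · exact le_max_right _ _
    · exact le_max_right _ _
  have hx : ∀ i, x i = max (x i) 0 - max (-x i) 0 := by
    intro i
    rcases le_total 0 (x i) with h | h
    · rw [max_eq_left h, max_eq_right (by linarith)]
      ring
    · rw [max_eq_right h, max_eq_left (by linarith)]
      ring
  have exp : ∀ u v : ι ⊕ ι → ℝ, BB m T u v = ∑ i, ∑ k,
      ((u (.inl i) * v (.inl k) + u (.inr i) * v (.inr k)) * kap m (θ i - θ k) +
        (u (.inl i) * v (.inr k) + u (.inr i) * v (.inl k)) * kap m (θ i - θ k + Real.pi)) := by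
    intro u v
    unfold BB
    rw [Fintype.sum_sum_type, ← Finset.sum_add_distrib]
    refine Finset.sum_congr rfl fun i _ => ?_
    rw [Fintype.sum_sum_type, Fintype.sum_sum_type, ← Finset.sum_add_distrib,
      ← Finset.sum_add_distrib, ← Finset.sum_add_distrib]
    refine Finset.sum_congr rfl fun k _ => ?_
    have e1 : T (.inl i) - T (.inl k) = θ i - θ k := rfl
    have e2 : T (.inl i) - T (.inr k) = θ i - θ k - Real.pi := by
      change θ i - (θ k + Real.pi) = _
      ring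
    have e3 : T (.inr i) - T (.inl k) = θ i - θ k + Real.pi := by
      change θ i + Real.pi - θ k = _
      ring
    have e4 : T (.inr i) - T (.inr k) = θ i - θ k := by
      change θ i + Real.pi - (θ k + Real.pi) = _
      ring
    rw [e1, e2, e3, e4, hper]
    ring
  have hAA : BB m T A A = BB m T B B := by
    rw [exp, exp]
    refine Finset.sum_congr rfl fun i _ => Finset.sum_congr rfl fun k _ => ?_
    simp only [A, B, Sum.elim_inl, Sum.elim_inr]
    ring
  have h1 := mink_BB hm T hA hB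
  rw [← hAA] at h1
  have h2 := BB_nonneg hm T hA hA
  have h3 := BB_nonneg hm T hA hB
  have h4 : BB m T A A ≤ BB m T A B := by
    by_contra hc
    push Not at hc
    nlinarith
  have h5 : BB m T A B - BB m T A A =
      ∑ i, ∑ k, x i * x k * (kap m (θ i - θ k + Real.pi) - kap m (θ i - θ k)) := by
    rw [exp, exp, ← Finset.sum_sub_distrib]
    refine Finset.sum_congr rfl fun i _ => ?_
    rw [← Finset.sum_sub_distrib]
    refine Finset.sum_congr rfl fun k _ => ?_
    simp only [A, B, Sum.elim_inl, Sum.elim_inr]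
    have h6 : x i * x k = (max (x i) 0 - max (-x i) 0) * (max (x k) 0 - max (-x k) 0) := by
      rw [← hx i, ← hx k]
    rw [h6]
    ring
  rw [← h5]
  linarith

end Vale.Agent.P227.Rot
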