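import Vale.Agent.P227.Rot.Kernel
import Vale.Agent.P227.Rot.Sums

open MeasureTheory Set
open scoped Pointwise

namespace Vale.Agent.P227.Rot

variable {ι : Type} [Fintype ι]

private theorem alg_pt {γ u c c' x y : ℝ} (hγ : 1 / 3 ≤ γ) (h1 : γ * u ≤ c) (h2 : c ≤ u)
    (h1' : γ * u ≤ c') (_h2' : c' ≤ u) (_h3 : (1 + γ) * u ≤ c + c') (hu : 0 ≤ u) :
    0 ≤ (c + c') * (x ^ 2 + y ^ 2) / 2 + (3 * c - c') * (x * y) - (1 + γ) * u * (x * y) := by
  have hg : (2 - 2 * γ) * u ≤ (1 + γ) * u := mul_le_mul_of_nonneg_right (by linarith) hu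
  have hA : 0 ≤ (c + c') + (3 * c - c' - (1 + γ) * u) := by nlinarith
  have hB : 0 ≤ (c + c') - (3 * c - c' - (1 + γ) * u) := by nlinarith
  have h4 := mul_nonneg hA (sq_nonneg (x + y))
  have h5 := mul_nonneg hB (sq_nonneg (x - y))
  nlinarith

private theorem alg_core {γ u : ℝ} (hγ : 1 / 3 ≤ γ) (hu : 0 ≤ u) {c c' : ι → ι → ℝ}
    (sym : ∀ i k, c i k = c k i) (sym' : ∀ i k, c' i k = c' k i)
    (h1 : ∀ i k, γ * u ≤ c i k) (h2 : ∀ i k, c i k ≤ u)
    (h1' : ∀ i k, γ * u ≤ c' i k) (h2' : ∀ i k, c' i k ≤ u)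
    (h3 : ∀ i k, (1 + γ) * u ≤ c i k + c' i k)
    (hpsd : ∀ x : ι → ℝ, 0 ≤ ∑ i, ∑ k, x i * x k * (c' i k - c i k))
    {l : ι → ℝ} (hl : ∀ i, 0 ≤ l i) (b : ι → ℝ) (t : ℝ) :
    8 * t * (∑ i, ∑ k, l i * (l k * b k) * c i k) - 4 * t ^ 2 * (∑ i, ∑ k, l i * l k * c i k) ≤
      (∑ i, l i * b i ^ 2 * ((∑ k, l k * c i k) + ∑ k, l k * c' i k)) +
        2 * ∑ i, ∑ k, (l i * b i) * (l k * b k) * c i k := by
  have e1 : ∑ i, ∑ k, l i * (l k * b k) * c i k = ∑ i, ∑ k, l i * l k * c i k * b i := by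
    rw [Finset.sum_comm]
    refine Finset.sum_congr rfl fun i _ => Finset.sum_congr rfl fun k _ => ?_
    rw [sym k i]; ring
  have e2 : (∑ i, l i * b i ^ 2 * ((∑ k, l k * c i k) + ∑ k, l k * c' i k)) =
      ∑ i, ∑ k, l i * l k * ((c i k + c' i k) * b i ^ 2) := by
    refine Finset.sum_congr rfl fun i _ => ?_
    rw [← Finset.sum_add_distrib, Finset.mul_sum]
    exact Finset.sum_congr rfl fun k _ => by ring
  have e3 : ∑ i, ∑ k, l i * l k * ((c i k + c' i k) * b i ^ 2) =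
      ∑ i, ∑ k, l i * l k * ((c i k + c' i k) * b k ^ 2) := by
    rw [Finset.sum_comm]
    refine Finset.sum_congr rfl fun i _ => Finset.sum_congr rfl fun k _ => ?_
    rw [sym k i, sym' k i]; ring
  have e4 : (1 + γ) * u * (∑ i, l i * (b i - t)) ^ 2 =
      ∑ i, ∑ k, l i * l k * ((1 + γ) * u * ((b i - t) * (b k - t))) := by
    rw [sq, Finset.sum_mul_sum, Finset.mul_sum]
    refine Finset.sum_congr rfl fun i _ => ?_
    rw [Finset.mul_sum]
    exact Finset.sum_congr rfl fun k _ => by ring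
  have e5 := hpsd (fun i => l i * b i)
  have e6 : 0 ≤ (1 + γ) * u * (∑ i, l i * (b i - t)) ^ 2 := by
    have : 0 ≤ (1 + γ) * u := mul_nonneg (by linarith) hu
    positivity
  have e7 : 0 ≤ ∑ i, ∑ k, l i * l k * ((c i k + c' i k) * ((b i - t) ^ 2 + (b k - t) ^ 2) / 2 +
      (3 * c i k - c' i k) * ((b i - t) * (b k - t)) - (1 + γ) * u * ((b i - t) * (b k - t))) :=
    Finset.sum_nonneg fun i _ => Finset.sum_nonneg fun k _ =>
      mul_nonneg (mul_nonneg (hl i) (hl k))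
        (alg_pt hγ (h1 i k) (h2 i k) (h1' i k) (h2' i k) (h3 i k) hu)
  have e8 : ∑ i, ∑ k, l i * l k * ((c i k + c' i k) * ((b i - t) ^ 2 + (b k - t) ^ 2) / 2 +
      (3 * c i k - c' i k) * ((b i - t) * (b k - t)) - (1 + γ) * u * ((b i - t) * (b k - t))) =
      (1 / 2) * (∑ i, ∑ k, l i * l k * ((c i k + c' i k) * b i ^ 2)) +
      (1 / 2) * (∑ i, ∑ k, l i * l k * ((c i k + c' i k) * b k ^ 2)) +
      2 * (∑ i, ∑ k, (l i * b i) * (l k * b k) * c i k) -
      (∑ i, ∑ k, (l i * b i) * (l k * b k) * (c' i k - c i k)) -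
      4 * t * (∑ i, ∑ k, l i * (l k * b k) * c i k) -
      4 * t * (∑ i, ∑ k, l i * l k * c i k * b i) +
      4 * t ^ 2 * (∑ i, ∑ k, l i * l k * c i k) -
      ∑ i, ∑ k, l i * l k * ((1 + γ) * u * ((b i - t) * (b k - t))) := by
    simp only [Finset.mul_sum, ← Finset.sum_add_distrib, ← Finset.sum_sub_distrib]
    exact Finset.sum_congr rfl fun i _ => Finset.sum_congr rfl fun k _ => by ring
  rw [e8, ← e4, ← e1, ← e3, ← e2] at e7
  nlinarith [e5, e6, e7]

private theorem kap_symm {m : ℕ} (hm : 3 ≤ m) (a b : ℝ) : kap m (a - b) = kap m (b - a) := by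
  rw [← kap_neg hm, neg_sub]

private theorem kap_symm' {m : ℕ} (hm : 3 ≤ m) (a b : ℝ) :
    kap m (a - b + Real.pi) = kap m (b - a + Real.pi) := by
  rw [← kap_neg hm, ← kap_add_two_pi hm]
  congr 1
  ring

private theorem BB_comm {m : ℕ} (hm : 3 ≤ m) (θ x y : ι → ℝ) : BB m θ x y = BB m θ y x := by
  unfold BB
  rw [Finset.sum_comm]
  refine Finset.sum_congr rfl fun i _ => Finset.sum_congr rfl fun k _ => ?_
  rw [kap_symm hm]; ring

private theorem BB_add_right (m : ℕ) (θ x y z : ι → ℝ) :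
    BB m θ x (y + z) = BB m θ x y + BB m θ x z := by
  unfold BB
  simp only [← Finset.sum_add_distrib, Pi.add_apply]
  exact Finset.sum_congr rfl fun i _ => Finset.sum_congr rfl fun k _ => by ring

private theorem BB_add_left (m : ℕ) (θ x y z : ι → ℝ) :
    BB m θ (x + y) z = BB m θ x z + BB m θ y z := by
  unfold BB
  simp only [← Finset.sum_add_distrib, Pi.add_apply]
  exact Finset.sum_congr rfl fun i _ => Finset.sum_congr rfl fun k _ => by ring

private theorem BB_smul_right (m : ℕ) (θ : ι → ℝ) (a : ℝ) (x y : ι → ℝ) :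
    BB m θ x (a • y) = a * BB m θ x y := by
  unfold BB
  simp only [Finset.mul_sum, Pi.smul_apply, smul_eq_mul]
  exact Finset.sum_congr rfl fun i _ => Finset.sum_congr rfl fun k _ => by ring

private theorem BB_smul_left (m : ℕ) (θ : ι → ℝ) (a : ℝ) (x y : ι → ℝ) :
    BB m θ (a • x) y = a * BB m θ x y := by
  unfold BB
  simp only [Finset.mul_sum, Pi.smul_apply, smul_eq_mul]
  exact Finset.sum_congr rfl fun i _ => Finset.sum_congr rfl fun k _ => by ring

private theorem BB_add_smul_self {m : ℕ} (hm : 3 ≤ m) (θ x l : ι → ℝ) (C : ℝ) :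
    BB m θ (x + C • l) (x + C • l) =
      BB m θ x x + 2 * C * BB m θ l x + C ^ 2 * BB m θ l l := by
  rw [BB_add_left, BB_add_right, BB_add_right, BB_smul_left, BB_smul_right, BB_smul_left,
    BB_smul_right, BB_comm hm θ x l]
  ring

private theorem BB_eq_HH {m : ℕ} (_hm : 3 ≤ m) (θ x y : ι → ℝ) :
    BB m θ x y = ∑ i, x i * HH m θ y (θ i) := by
  unfold BB HH
  refine Finset.sum_congr rfl fun i _ => ?_
  rw [Finset.mul_sum]
  exact Finset.sum_congr rfl fun k _ => by ring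

private theorem BB_pos {m : ℕ} (hm : 3 ≤ m) (θ : ι → ℝ) {l : ι → ℝ} (hl : ∀ i, 0 ≤ l i)
    (hl0 : ∃ i, 0 < l i) : 0 < BB m θ l l := by
  obtain ⟨i, hi⟩ := hl0
  unfold BB
  refine Finset.sum_pos' (fun i _ => Finset.sum_nonneg fun k _ =>
    mul_nonneg (mul_nonneg (hl i) (hl k)) (kap_pos hm _).le) ⟨i, Finset.mem_univ _, ?_⟩
  exact Finset.sum_pos' (fun k _ => mul_nonneg (mul_nonneg (hl i) (hl k)) (kap_pos hm _).le)
    ⟨i, Finset.mem_univ _, mul_pos (mul_pos hi hi) (kap_pos hm _)⟩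

theorem p4_of {m : ℕ} (hm : 3 ≤ m) (ho : Odd m) (θ : ι → ℝ)
    (hpsd : ∀ x : ι → ℝ,
      0 ≤ ∑ i, ∑ k, x i * x k * (kap m (θ i - θ k + Real.pi) - kap m (θ i - θ k)))
    {l : ι → ℝ} (hl : ∀ i, 0 ≤ l i) (hl0 : ∃ i, 0 < l i) (b : ι → ℝ) :
    4 * BB m θ l (fun i => l i * b i) ^ 2 / BB m θ l l
        - 2 * BB m θ (fun i => l i * b i) (fun i => l i * b i) ≤
      ∑ i, l i * b i ^ 2 * (HH m θ l (θ i) + HH m θ l (θ i + Real.pi)) := by
  have hs : 0 < 2 * Real.sin (Real.pi / m) := by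
    have := sin_pi_div_pos hm
    linarith
  set u : ℝ := 1 / (2 * Real.sin (Real.pi / m)) with hu
  have hu0 : 0 ≤ u := by positivity
  have hk : ∀ d, kap m d = cc m d * u := by
    intro d
    rw [kap, hu, mul_one_div]
  have hcc : ∀ d, kap m d ≤ u := by
    intro d
    rw [hk]
    nlinarith [cc_le_one m d]
  have hcc' : ∀ d, Real.cos (Real.pi / m) * u ≤ kap m d := by
    intro d
    rw [hk]
    exact mul_le_mul_of_nonneg_right (cos_le_cc hm d) hu0
  have hcc2 : ∀ d, (1 + Real.cos (Real.pi / m)) * u ≤ kap m d + kap m (d + Real.pi) := by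
    intro d
    rw [hk, hk, ← add_mul]
    exact mul_le_mul_of_nonneg_right (cc_add_pi hm ho d) hu0
  have hE := BB_pos hm θ hl hl0
  have key := alg_core (γ := Real.cos (Real.pi / m)) (u := u)
    (c := fun i k => kap m (θ i - θ k)) (c' := fun i k => kap m (θ i - θ k + Real.pi))
    (by linarith [half_le_cos hm]) hu0 (fun i k => kap_symm hm _ _) (fun i k => kap_symm' hm _ _)
    (fun i k => hcc' _) (fun i k => hcc _) (fun i k => hcc' _) (fun i k => hcc _)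
    (fun i k => hcc2 _) hpsd hl b
    (BB m θ l (fun i => l i * b i) / BB m θ l l)
  have e1 : (∑ i, l i * b i ^ 2 * ((∑ k, l k * kap m (θ i - θ k)) +
      ∑ k, l k * kap m (θ i - θ k + Real.pi))) =
      ∑ i, l i * b i ^ 2 * (HH m θ l (θ i) + HH m θ l (θ i + Real.pi)) := by
    refine Finset.sum_congr rfl fun i _ => ?_
    unfold HH
    congr 2
    exact Finset.sum_congr rfl fun k _ => by congr 2; ring
  rw [e1] at key
  change 8 * (BB m θ l (fun i => l i * b i) / BB m θ l l) * BB m θ l (fun i => l i * b i) -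
    4 * (BB m θ l (fun i => l i * b i) / BB m θ l l) ^ 2 * BB m θ l l ≤
    _ + 2 * BB m θ (fun i => l i * b i) (fun i => l i * b i) at key
  have e2 : 8 * (BB m θ l (fun i => l i * b i) / BB m θ l l) * BB m θ l (fun i => l i * b i) -
    4 * (BB m θ l (fun i => l i * b i) / BB m θ l l) ^ 2 * BB m θ l l =
    4 * BB m θ l (fun i => l i * b i) ^ 2 / BB m θ l l := by
    field_simp
    ring
  rw [e2] at key
  linarith

theorem p5_of {m : ℕ} (hm : 3 ≤ m) (ho : Odd m) (θ : ι → ℝ)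
    (hpsd : ∀ x : ι → ℝ,
      0 ≤ ∑ i, ∑ k, x i * x k * (kap m (θ i - θ k + Real.pi) - kap m (θ i - θ k)))
    (hmink : ∀ x y : ι → ℝ, (∀ i, 0 ≤ x i) → (∀ i, 0 ≤ y i) →
      BB m θ x x * BB m θ y y ≤ BB m θ x y ^ 2)
    {l l' r : ι → ℝ} (hl : ∀ i, 0 ≤ l i)
    (hl' : ∀ i, 0 ≤ l' i) (hl0 : ∃ i, 0 < l i) (hr : ∀ i, 0 < r i)
    (hw : ∀ i, 0 < l i → HH m θ l (θ i) + HH m θ l (θ i + Real.pi) ≤ 2 * r i)
    {g : ι → ℝ} (hg : ∀ i, g i = HH m θ l' (θ i) - HH m θ l (θ i)) :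
    BB m θ l' l' ≤ BB m θ l l + 2 * (∑ i, l i * g i)
      + 2 * (∑ i, l i * g i) ^ 2 / BB m θ l l - ∑ i, l i * g i ^ 2 / r i := by
  have hE := BB_pos hm θ hl hl0
  set z : ι → ℝ := fun i => l i * (g i / r i) with hz
  -- `p4` for `z`
  have h4 := p4_of hm ho θ hpsd hl hl0 (fun i => g i / r i)
  have h4' : ∑ i, l i * (g i / r i) ^ 2 * (HH m θ l (θ i) + HH m θ l (θ i + Real.pi)) ≤
      2 * ∑ i, l i * g i ^ 2 / r i := by
    rw [Finset.mul_sum]
    refine Finset.sum_le_sum fun i _ => ?_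
    rcases (hl i).eq_or_lt with h | h
    · rw [← h]; simp
    · have h5 := hw i h
      have h6 : l i * (g i / r i) ^ 2 * (HH m θ l (θ i) + HH m θ l (θ i + Real.pi)) ≤
          l i * (g i / r i) ^ 2 * (2 * r i) :=
        mul_le_mul_of_nonneg_left h5 (mul_nonneg h.le (sq_nonneg _))
      have h7 : l i * (g i / r i) ^ 2 * (2 * r i) = 2 * (l i * g i ^ 2 / r i) := by
        have := (hr i).ne'
        field_simp
      linarith
  -- Minkowski for `l' - l + z`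
  set C : ℝ := 1 + ∑ i, |g i / r i| with hC
  have hC1 : ∀ i, |g i / r i| ≤ C - 1 := by
    intro i
    rw [hC, add_sub_cancel_left]
    exact Finset.single_le_sum (f := fun i => |g i / r i|) (fun j _ => abs_nonneg _)
      (Finset.mem_univ i)
  have hy : ∀ i, 0 ≤ ((l' + (-1 : ℝ) • l + z) + C • l) i := by
    intro i
    simp only [Pi.add_apply, Pi.smul_apply, smul_eq_mul, hz]
    have h1 := neg_le_of_abs_le (hC1 i)
    have h2 := mul_le_mul_of_nonneg_left h1 (hl i)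
    nlinarith [hl' i]
  have h8 := hmink l _ hl hy
  set x : ι → ℝ := l' + (-1 : ℝ) • l + z with hx
  have h9 : BB m θ l l * BB m θ x x ≤ BB m θ l x ^ 2 := by
    have e1 := BB_add_smul_self hm θ x l C
    have e2 : BB m θ l (x + C • l) = BB m θ l x + C * BB m θ l l := by
      rw [BB_add_right, BB_smul_right]
    rw [e1, e2] at h8
    nlinarith
  -- expansion
  have hlg : BB m θ l l' - BB m θ l l = ∑ i, l i * g i := by
    rw [BB_eq_HH hm, BB_eq_HH hm, ← Finset.sum_sub_distrib]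
    exact Finset.sum_congr rfl fun i _ => by rw [hg i]; ring
  have hzg : BB m θ z l' - BB m θ z l = ∑ i, l i * g i ^ 2 / r i := by
    rw [BB_eq_HH hm, BB_eq_HH hm, ← Finset.sum_sub_distrib]
    refine Finset.sum_congr rfl fun i _ => ?_
    rw [hz, ← mul_sub, ← hg i]
    ring
  have e3 : BB m θ x x = BB m θ l' l' + BB m θ l l + BB m θ z z - 2 * BB m θ l l' +
      2 * BB m θ z l' - 2 * BB m θ z l := by
    rw [hx]
    simp only [BB_add_left, BB_add_right, BB_smul_left, BB_smul_right]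
    rw [BB_comm hm θ l' l, BB_comm hm θ l' z, BB_comm hm θ l z]
    ring
  have e4 : BB m θ l x = BB m θ l l' - BB m θ l l + BB m θ l z := by
    rw [hx]
    simp only [BB_add_right, BB_smul_right]
    ring
  rw [e3, e4, hlg] at h9
  set a := ∑ i, l i * g i with ha
  set q := ∑ i, l i * g i ^ 2 / r i with hq
  set Bz := BB m θ l z with hBz
  set E := BB m θ l l with hEdef
  change 4 * Bz ^ 2 / E - 2 * BB m θ z z ≤ _ at h4
  have h10 : 4 * Bz ^ 2 / E - 2 * BB m θ z z ≤ 2 * q := h4.trans h4'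
  have h11 : 4 * Bz ^ 2 ≤ E * (2 * q + 2 * BB m θ z z) := by
    have : 4 * Bz ^ 2 / E ≤ 2 * q + 2 * BB m θ z z := by linarith
    rw [div_le_iff₀ hE] at this
    linarith
  have h12 : E * BB m θ l' l' ≤ E * (E + 2 * a + 2 * a ^ 2 / E - q) := by
    have e5 : E * (E + 2 * a + 2 * a ^ 2 / E - q) = E * (E + 2 * a - q) + 2 * a ^ 2 := by
      field_simp
      ring
    rw [e5]
    have e6 : BB m θ l l' = E + a := by linarith
    have e7 : BB m θ z l' = BB m θ z l + q := by linarith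
    rw [e6, e7] at h9
    nlinarith [sq_nonneg (a - Bz)]
  exact le_of_mul_le_mul_left h12 hE

/-- (P4) -/
theorem p4 {m : ℕ} (hm : 3 ≤ m) (ho : Odd m) (θ : ι → ℝ) {l : ι → ℝ} (hl : ∀ i, 0 ≤ l i)
    (hl0 : ∃ i, 0 < l i) (b : ι → ℝ) :
    4 * BB m θ l (fun i => l i * b i) ^ 2 / BB m θ l l
        - 2 * BB m θ (fun i => l i * b i) (fun i => l i * b i) ≤
      ∑ i, l i * b i ^ 2 * (HH m θ l (θ i) + HH m θ l (θ i + Real.pi)) :=
  p4_of hm ho θ (psd hm ho θ) hl hl0 b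

/-- (P5) -/
theorem p5 {m : ℕ} (hm : 3 ≤ m) (ho : Odd m) (θ : ι → ℝ) {l l' r : ι → ℝ} (hl : ∀ i, 0 ≤ l i)
    (hl' : ∀ i, 0 ≤ l' i) (hl0 : ∃ i, 0 < l i) (hr : ∀ i, 0 < r i)
    (hw : ∀ i, 0 < l i → HH m θ l (θ i) + HH m θ l (θ i + Real.pi) ≤ 2 * r i)
    {g : ι → ℝ} (hg : ∀ i, g i = HH m θ l' (θ i) - HH m θ l (θ i)) :
    BB m θ l' l' ≤ BB m θ l l + 2 * (∑ i, l i * g i)
      + 2 * (∑ i, l i * g i) ^ 2 / BB m θ l l - ∑ i, l i * g i ^ 2 / r i :=
  p5_of hm ho θ (psd hm ho θ) (fun _ _ hx hy => mink_BB hm θ hx hy) hl hl' hl0 hr hw hg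

end Vale.Agent.P227.Rot
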