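import Mathlib

open MeasureTheory Set
open scoped Pointwise

namespace Vale.Agent.P227.Rot

/-- The rotation by the angle `a`. -/
noncomputable def ex (a : ℝ) : ℂ := Complex.exp ((a : ℂ) * Complex.I)

/-- Compact convex subset of the plane, invariant under the rotation of order `m`. -/
structure CmBody (m : ℕ) (X : Set ℂ) : Prop where
  convex : Convex ℝ X
  isCompact : IsCompact X
  nonempty : X.Nonempty
  rot : ∀ y ∈ X, ex (2 * Real.pi / m) * y ∈ X

/-- Area. -/
noncomputable def area (X : Set ℂ) : ℝ := (volume X).toReal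

/-- Support function in the direction of angle `a`. -/
noncomputable def hsup (X : Set ℂ) (a : ℝ) : ℝ := sSup ((fun y : ℂ => (ex (-a) * y).re) '' X)

/-- Distance of `d` to the nearest multiple of `2 π / m`. -/
noncomputable def dst (m : ℕ) (d : ℝ) : ℝ :=
  |d - 2 * Real.pi / m * (round (d / (2 * Real.pi / m)) : ℝ)|

/-- Normalised kernel. -/
noncomputable def cc (m : ℕ) (d : ℝ) : ℝ := Real.cos (Real.pi / m - dst m d)

/-- Support function of the regular `m`-gon with unit edges and a normal at angle `0`. -/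
noncomputable def kap (m : ℕ) (d : ℝ) : ℝ := cc m d / (2 * Real.sin (Real.pi / m))

/-- The regular `m`-gon with unit edges, centre `0`, and an edge normal at angle `a`. -/
noncomputable def Rgon (m : ℕ) (a : ℝ) : Set ℂ :=
  {y | ∀ j : ℕ, (ex (-(a + 2 * Real.pi * j / m)) * y).re ≤ 1 / (2 * Real.tan (Real.pi / m))}

/-- The bilinear form of the kernel. -/
noncomputable def BB {ι : Type} [Fintype ι] (m : ℕ) (θ : ι → ℝ) (x y : ι → ℝ) : ℝ :=
  ∑ i, ∑ k, x i * y k * kap m (θ i - θ k)

/-- Support values of `∑ x i • Rgon m (θ i)`. -/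
noncomputable def HH {ι : Type} [Fintype ι] (m : ℕ) (θ : ι → ℝ) (x : ι → ℝ) (a : ℝ) : ℝ :=
  ∑ i, x i * kap m (a - θ i)

/-- The sum `∑ x i • Rgon m (θ i)`. -/
noncomputable def QQ {ι : Type} [Fintype ι] (m : ℕ) (θ : ι → ℝ) (x : ι → ℝ) : Set ℂ :=
  ∑ i, x i • Rgon m (θ i)

/-- Intersection of the rotated half planes with normals `θ i + 2 π j / m`. -/
noncomputable def FF {ι : Type} (m : ℕ) (θ : ι → ℝ) (H : ι → ℝ) : Set ℂ :=
  {y | ∀ i, ∀ j : ℕ, (ex (-(θ i + 2 * Real.pi * j / m)) * y).re ≤ H i}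

end Vale.Agent.P227.Rot
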