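import Vale.Agent.P227.Rot.GeoB

/-!
Addition formula for the area: adding `r` times the regular `m`-gon to a body invariant under the
rotation of order `m`. `Rgon_body` and `hsup_Rgon` are in `GeoA`.
-/

open MeasureTheory Set
open scoped Pointwise

namespace Vale.Agent.P227.Rot

namespace Geo

theorem hsup_max {X : Set ℂ} (hX : IsCompact X) (hne : X.Nonempty) :
    ∃ P ∈ X, P.re = hsup X 0 ∧ ∀ y ∈ X, y.re ≤ hsup X 0 := by
  obtain ⟨P, hP, hmax⟩ := hX.exists_isMaxOn hne Complex.continuous_re.continuousOn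
  have h1 : hsup X 0 = P.re := by
    refine IsGreatest.csSup_eq ⟨⟨P, hP, by simp [ex_zero]⟩, ?_⟩
    rintro _ ⟨y, hy, rfl⟩
    simpa [ex_zero] using hmax hy
  exact ⟨P, hP, h1.symm, fun y hy => by rw [h1]; exact hmax hy⟩

theorem tri_int {a τ : ℝ} (ha : 0 ≤ a) (hτ : 0 ≤ τ) :
    ∫⁻ t : ℝ, (Ico (-a) 0).indicator (fun t => ENNReal.ofReal (2 * (a + t) * τ)) t =
      ENNReal.ofReal (a ^ 2 * τ) := by
  have hcont : Continuous fun t : ℝ => 2 * (a + t) * τ := by fun_prop
  rw [lintegral_indicator measurableSet_Ico, ← ofReal_integral_eq_lintegral_ofReal]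
  · congr 1
    rw [integral_Ico_eq_integral_Ioo, ← integral_Ioc_eq_integral_Ioo,
      ← intervalIntegral.integral_of_le (by linarith)]
    have hd : ∀ t ∈ Set.uIcc (-a) 0,
        HasDerivAt (fun t : ℝ => (a + t) ^ 2 * τ) (2 * (a + t) * τ) t := by
      intro t _
      have h1 : HasDerivAt (fun t : ℝ => a + t) 1 t := (hasDerivAt_id t).const_add a
      have h2 := (h1.pow 2).mul_const τ
      refine h2.congr_deriv ?_
      norm_num
    rw [intervalIntegral.integral_eq_sub_of_hasDerivAt hd (hcont.intervalIntegrable _ _)]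
    ring
  · exact (hcont.integrableOn_Icc (a := -a) (b := 0)).mono_set Ico_subset_Icc_self
  · refine (ae_restrict_iff' measurableSet_Ico).2 (ae_of_all _ fun t ht => ?_)
    have := ht.1
    change 0 ≤ 2 * (a + t) * τ
    have h2 : 0 ≤ a + t := by linarith
    positivity

theorem sec_sect {m : ℕ} (hm : 3 ≤ m) (x : ℝ) :
    volume {y : ℝ | (⟨x, y⟩ : ℂ) ∈ Sec m} =
      ENNReal.ofReal (2 * x * (Real.sin (Real.pi / m) / Real.cos (Real.pi / m))) := by
  have hc := cos_pos hm
  have : {y : ℝ | (⟨x, y⟩ : ℂ) ∈ Sec m} =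
      Icc (-(x * (Real.sin (Real.pi / m) / Real.cos (Real.pi / m))))
        (x * (Real.sin (Real.pi / m) / Real.cos (Real.pi / m))) := by
    ext y
    change |y| * Real.cos (Real.pi / m) ≤ x * Real.sin (Real.pi / m) ↔ _
    rw [← le_div_iff₀ hc, mul_div_assoc, abs_le]
    rfl
  rw [this, Real.volume_Icc]
  congr 1
  ring

theorem vol_add {m : ℕ} (hm : 3 ≤ m) {X : Set ℂ} (hX : CmBody m X) {r : ℝ} (hr : 0 < r) :
    volume ((X + r • Rgon m 0) ∩ Sec m) =
      ENNReal.ofReal ((r * rho m) ^ 2 * (Real.sin (Real.pi / m) / Real.cos (Real.pi / m))) +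
        (volume (X ∩ Sec m) + ENNReal.ofReal (r * hsup X 0)) := by
  have hs := sin_pos hm
  have hc := cos_pos hm
  have hρ := rho_pos hm
  have hYk : IsCompact (X + r • Rgon m 0) := hX.isCompact.add ((R0_compact hm).smul r)
  have hYm : MeasurableSet ((X + r • Rgon m 0) ∩ Sec m) :=
    (hYk.isClosed.inter (sec_closed m)).measurableSet
  have hKm : MeasurableSet (X ∩ Sec m) :=
    (hX.isCompact.isClosed.inter (sec_closed m)).measurableSet
  obtain ⟨P, hP, hPh, hmax⟩ := hsup_max hX.isCompact hX.nonempty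
  set h := hsup X 0 with hh
  have h0X := zero_mem hm hX
  have hh0 : 0 ≤ h := by simpa using hmax 0 h0X
  have hPS : P ∈ Sec m := by
    refine mem_sec_of hm ?_ ?_
    · rw [hPh]; exact hmax _ (hX.rot _ hP)
    · rw [hPh]; exact hmax _ (inv_neg hX.rot hm hP)
  have h0S : (0 : ℂ) ∈ Sec m := by
    change |(0 : ℂ).im| * _ ≤ (0 : ℂ).re * _
    simp
  have hKc : Convex ℝ (X ∩ Sec m) := hX.convex.inter (sec_convex hm)
  have hsecpt : ∀ t : ℝ, 0 ≤ t → t ≤ h → ∃ y0 : ℝ, (⟨t, y0⟩ : ℂ) ∈ X ∩ Sec m := by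
    intro t ht0 hth
    rcases hh0.eq_or_lt with h00 | hpos
    · have : t = 0 := by linarith
      subst this
      exact ⟨0, h0X, h0S⟩
    · have hmem := hKc ⟨h0X, h0S⟩ ⟨hP, hPS⟩ (a := 1 - t / h) (b := t / h)
        (by rw [sub_nonneg, div_le_one hpos]; exact hth) (by positivity) (by ring)
      refine ⟨((1 - t / h) • (0 : ℂ) + (t / h) • P).im, ?_⟩
      convert hmem using 1
      apply Complex.ext
      · simp only [Complex.add_re, Complex.smul_re, smul_eq_mul, Complex.zero_re, mul_zero,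
          zero_add, hPh]
        field_simp
      · rfl
  have hempty : ∀ t : ℝ, (t < 0 ∨ h < t) → {y : ℝ | (⟨t, y⟩ : ℂ) ∈ X ∩ Sec m} = ∅ := by
    intro t ht
    ext y
    simp only [Set.mem_ofPred_eq, Set.mem_empty_iff_false, iff_false]
    rintro ⟨h1, h2⟩
    have h3 := sec_re hm h2
    have h4 := hmax _ h1
    simp only at h3 h4
    rcases ht with ht | ht <;> linarith
  have hre : ∀ z ∈ X + r • Rgon m 0, z.re ≤ h + r * rho m := by
    rintro z ⟨p, hp, q, ⟨q0, hq0, hq⟩, hpq⟩
    have hq' : r • q0 = q := hq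
    have hpq' : p + q = z := hpq
    rw [← hpq', Complex.add_re, ← hq', Complex.smul_re, smul_eq_mul]
    exact add_le_add (hmax _ hp) (mul_le_mul_of_nonneg_left (R0_re hm hq0) hr.le)
  rw [vol_sec hYm, vol_sec hKm, ← lintegral_add_left_eq_self _ (r * rho m)]
  have hmain : ∀ t : ℝ,
      volume {y : ℝ | (⟨r * rho m + t, y⟩ : ℂ) ∈ (X + r • Rgon m 0) ∩ Sec m} =
      (Ico (-(r * rho m)) 0).indicator (fun t => ENNReal.ofReal (2 * (r * rho m + t) *
        (Real.sin (Real.pi / m) / Real.cos (Real.pi / m)))) t +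
      ((Icc 0 h).indicator (fun _ => ENNReal.ofReal r) t +
        volume {y : ℝ | (⟨t, y⟩ : ℂ) ∈ X ∩ Sec m}) := by
    intro t
    rcases lt_or_ge t 0 with ht | ht
    · rw [hempty t (Or.inl ht), Set.indicator_of_notMem (s := Icc 0 h) (by
        intro h1; linarith [h1.1])]
      simp only [measure_empty, add_zero]
      rcases lt_or_ge t (-(r * rho m)) with ht2 | ht2
      · rw [Set.indicator_of_notMem (by intro h1; linarith [h1.1])]
        have : {y : ℝ | (⟨r * rho m + t, y⟩ : ℂ) ∈ (X + r • Rgon m 0) ∩ Sec m} = ∅ := by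
          ext y
          simp only [Set.mem_ofPred_eq, Set.mem_empty_iff_false, iff_false]
          rintro ⟨-, h2⟩
          have h3 := sec_re hm h2
          simp only at h3
          linarith
        rw [this, measure_empty]
      · rw [Set.indicator_of_mem (show t ∈ Ico (-(r * rho m)) 0 from ⟨ht2, ht⟩),
          ← sec_sect hm]
        congr 1
        ext y
        simp only [Set.mem_ofPred_eq]
        constructor
        · exact fun hy => hy.2
        · intro hy
          refine ⟨?_, hy⟩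
          have h1 : (⟨r * rho m + t, y⟩ : ℂ) = 0 + r • ((1 / r) • (⟨r * rho m + t, y⟩ : ℂ)) := by
            rw [zero_add, smul_smul, mul_one_div_cancel hr.ne', one_smul]
          rw [h1]
          refine Set.add_mem_add h0X ⟨_, sec_R0 hm (sec_smul hy (by positivity)) ?_, rfl⟩
          rw [Complex.smul_re, smul_eq_mul, one_div, inv_mul_le_iff₀ hr]
          simp only
          linarith
    · rw [Set.indicator_of_notMem (s := Ico _ _) (by intro h1; linarith [h1.2]), zero_add]
      rcases le_or_gt t h with hth | hth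
      · obtain ⟨y0, hy0⟩ := hsecpt t ht hth
        rw [sect_eq hm hX hr ht hy0, Set.indicator_of_mem (show t ∈ Icc 0 h from ⟨ht, hth⟩),
          add_comm]
      · rw [hempty t (Or.inr hth), Set.indicator_of_notMem (by intro h1; linarith [h1.2])]
        have : {y : ℝ | (⟨r * rho m + t, y⟩ : ℂ) ∈ (X + r • Rgon m 0) ∩ Sec m} = ∅ := by
          ext y
          simp only [Set.mem_ofPred_eq, Set.mem_empty_iff_false, iff_false]
          rintro ⟨h2, -⟩
          have h3 := hre _ h2
          simp only at h3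
          linarith
        rw [this, measure_empty, add_zero]
  simp only [hmain]
  rw [lintegral_add_left, lintegral_add_left, tri_int (by positivity) (by positivity)]
  · congr 1
    rw [add_comm]
    congr 1
    rw [lintegral_indicator measurableSet_Icc, lintegral_const, Measure.restrict_apply_univ,
      Real.volume_Icc, sub_zero, ← ENNReal.ofReal_mul hr.le]
  · exact measurable_const.indicator measurableSet_Icc
  · refine Measurable.indicator ?_ measurableSet_Ico
    fun_prop

theorem body_add {m : ℕ} {X Y : Set ℂ} (hX : CmBody m X) (hY : CmBody m Y) (r : ℝ) :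
    CmBody m (X + r • Y) where
  convex := hX.convex.add (hY.convex.smul r)
  isCompact := hX.isCompact.add (hY.isCompact.smul r)
  nonempty := hX.nonempty.add (hY.nonempty.smul_set)
  rot := by
    rintro z ⟨p, hp, q, ⟨q0, hq0, hq⟩, hpq⟩
    have hq' : r • q0 = q := hq
    have hpq' : p + q = z := hpq
    rw [← hpq', ← hq', mul_add, mul_smul_comm]
    exact Set.add_mem_add (hX.rot _ hp) ⟨_, hY.rot _ hq0, rfl⟩

theorem kap_zero (m : ℕ) : kap m 0 = rho m := by
  have : dst m 0 = 0 := by simp [dst]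
  rw [kap, cc, this, sub_zero, rho]

theorem area_add0 {m : ℕ} (hm : 3 ≤ m) {X : Set ℂ} (hX : CmBody m X) {r : ℝ} (hr : 0 < r) :
    area (X + r • Rgon m 0) = area X + r * m * hsup X 0 + r ^ 2 * (m / 2) * kap m 0 := by
  have hs := sin_pos hm
  have hc := cos_pos hm
  have hρ := rho_pos hm
  have hmp := m_pos hm
  have hY := body_add hX (R0_body hm) r
  obtain ⟨P, hP, hPh, hmax⟩ := hsup_max hX.isCompact hX.nonempty
  have hh0 : 0 ≤ hsup X 0 := by simpa using hmax 0 (zero_mem hm hX)
  have hfin : volume (X ∩ Sec m) ≠ ⊤ :=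
    (measure_mono Set.inter_subset_left |>.trans_lt hX.isCompact.measure_lt_top).ne
  rw [area, area, sector_formula hm hY.isCompact.isClosed.measurableSet hY.rot,
    sector_formula hm hX.isCompact.isClosed.measurableSet hX.rot, vol_add hm hX hr, kap_zero,
    ENNReal.toReal_mul, ENNReal.toReal_mul, ENNReal.toReal_add ENNReal.ofReal_ne_top
      (ENNReal.add_ne_top.2 ⟨hfin, ENNReal.ofReal_ne_top⟩),
    ENNReal.toReal_add hfin ENNReal.ofReal_ne_top, ENNReal.toReal_ofReal (by positivity),
    ENNReal.toReal_ofReal (by positivity), ENNReal.toReal_natCast]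
  have h1 : rho m ^ 2 * (Real.sin (Real.pi / m) / Real.cos (Real.pi / m)) = rho m / 2 := by
    have := rho_sin hm
    calc rho m ^ 2 * (Real.sin (Real.pi / m) / Real.cos (Real.pi / m)) =
        rho m * (rho m * Real.sin (Real.pi / m)) / Real.cos (Real.pi / m) := by ring
      _ = rho m / 2 := by rw [this]; field_simp
  have h2 : (r * rho m) ^ 2 * (Real.sin (Real.pi / m) / Real.cos (Real.pi / m)) =
      r ^ 2 * (rho m / 2) := by rw [← h1]; ring
  rw [h2]
  ring

theorem image_add_smul (a r : ℝ) (X Y : Set ℂ) :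
    rot a '' (X + r • Y) = rot a '' X + r • (rot a '' Y) := by
  have h : rot a '' (r • Y) = r • (rot a '' Y) := by
    ext y
    constructor
    · rintro ⟨_, ⟨x, hx, rfl⟩, rfl⟩
      exact ⟨rot a x, ⟨x, hx, rfl⟩, by simp only [map_smul]⟩
    · rintro ⟨_, ⟨x, hx, rfl⟩, rfl⟩
      exact ⟨r • x, ⟨x, hx, rfl⟩, by simp only [map_smul]⟩
  rw [Set.image_add, h]

theorem area_rot_image (a : ℝ) {S : Set ℂ} (hS : MeasurableSet S) :
    area (rot a '' S) = area S := by
  rw [area, area, vol_rot_image a hS]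

theorem hsup_rot (X : Set ℂ) (a : ℝ) : hsup (rot (-a) '' X) 0 = hsup X a := by
  rw [hsup, hsup, Set.image_image]
  simp [ex_zero]

end Geo

theorem area_add_Rgon {m : ℕ} (hm : 3 ≤ m) {X : Set ℂ} (hX : CmBody m X) (a : ℝ) {r : ℝ}
    (hr : 0 ≤ r) :
    area (X + r • Rgon m a) = area X + r * m * hsup X a + r ^ 2 * (m / 2) * kap m 0 := by
  rcases hr.eq_or_lt with h0 | hpos
  · rw [← h0, Set.zero_smul_set (Rgon_body hm a).nonempty, add_zero]
    ring
  have h1 := Geo.area_add0 hm (Geo.body_rot hX (-a)) hpos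
  have hcm : MeasurableSet X := hX.isCompact.isClosed.measurableSet
  have h2 : X + r • Rgon m a = Geo.rot a '' (Geo.rot (-a) '' X + r • Rgon m 0) := by
    rw [Geo.image_add_smul, ← Geo.Ra_eq hm a, Set.image_image]
    congr 1
    ext y
    simp only [Geo.rot_apply, Geo.ex_mul_neg_cancel, Set.image_id']
  have hY := Geo.body_add (Geo.body_rot hX (-a)) (Geo.R0_body hm) r
  rw [h2, Geo.area_rot_image a hY.isCompact.isClosed.measurableSet, h1,
    Geo.area_rot_image (-a) hcm, Geo.hsup_rot]

end Vale.Agent.P227.Rot
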