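import Vale.Agent.P227.Rot.Defs

/-!
Planar geometry: regular polygons and the addition formula for the area.
-/

open MeasureTheory Set
open scoped Pointwise

namespace Vale.Agent.P227.Rot

namespace Geo

theorem ex_add (a b : ℝ) : ex (a + b) = ex a * ex b := by
  simp [ex, add_mul, Complex.exp_add]

theorem ex_zero : ex 0 = 1 := by simp [ex]

theorem ex_re (a : ℝ) : (ex a).re = Real.cos a := by
  rw [ex, Complex.exp_ofReal_mul_I_re]

theorem ex_im (a : ℝ) : (ex a).im = Real.sin a := by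
  rw [ex, Complex.exp_ofReal_mul_I_im]

theorem mul_re (a : ℝ) (y : ℂ) : (ex a * y).re = Real.cos a * y.re - Real.sin a * y.im := by
  rw [Complex.mul_re, ex_re, ex_im]

theorem mul_im (a : ℝ) (y : ℂ) : (ex a * y).im = Real.sin a * y.re + Real.cos a * y.im := by
  rw [Complex.mul_im, ex_re, ex_im]; ring

theorem neg_mul_re (a : ℝ) (y : ℂ) :
    (ex (-a) * y).re = Real.cos a * y.re + Real.sin a * y.im := by
  rw [mul_re, Real.cos_neg, Real.sin_neg]; ring

theorem ex_neg_mul_cancel (a : ℝ) (y : ℂ) : ex (-a) * (ex a * y) = y := by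
  rw [← mul_assoc, ← ex_add, neg_add_cancel, ex_zero, one_mul]

theorem ex_mul_neg_cancel (a : ℝ) (y : ℂ) : ex a * (ex (-a) * y) = y := by
  rw [← mul_assoc, ← ex_add, add_neg_cancel, ex_zero, one_mul]

theorem ex_two_pi : ex (2 * Real.pi) = 1 := by
  simp [ex]

theorem ex_norm (a : ℝ) : ‖ex a‖ = 1 := by
  rw [ex, Complex.norm_exp_ofReal_mul_I]

/-- rotation as a linear isometry -/
noncomputable def rot (a : ℝ) : ℂ ≃ₗᵢ[ℝ] ℂ where
  toFun y := ex a * y
  invFun y := ex (-a) * y
  map_add' x y := mul_add _ _ _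
  map_smul' c x := by
    simp only [Complex.real_smul, RingHom.id_apply]
    ring
  left_inv y := ex_neg_mul_cancel a y
  right_inv y := ex_mul_neg_cancel a y
  norm_map' y := by simp [ex_norm]

@[simp] theorem rot_apply (a : ℝ) (y : ℂ) : rot a y = ex a * y := rfl

section Angle

variable {m : ℕ} (hm : 3 ≤ m)
include hm

theorem m_pos : (0 : ℝ) < m := by
  have : 0 < m := by omega
  exact_mod_cast this

theorem beta_pos : 0 < Real.pi / m := div_pos Real.pi_pos (m_pos hm)

theorem beta_le : Real.pi / m ≤ Real.pi / 3 := by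
  have h3 : (3 : ℝ) ≤ m := by exact_mod_cast hm
  exact div_le_div_of_nonneg_left Real.pi_pos.le (by norm_num) h3

theorem m_beta : m * (Real.pi / m) = Real.pi := by
  have := m_pos hm
  field_simp

theorem sin_pos : 0 < Real.sin (Real.pi / m) :=
  Real.sin_pos_of_pos_of_lt_pi (beta_pos hm) (by linarith [beta_le hm, Real.pi_pos])

theorem cos_pos : 0 < Real.cos (Real.pi / m) :=
  Real.cos_pos_of_mem_Ioo ⟨by linarith [beta_pos hm, Real.pi_pos],
    by linarith [beta_le hm, Real.pi_pos]⟩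

theorem sin2_pos : 0 < Real.sin (2 * (Real.pi / m)) := by
  rw [Real.sin_two_mul]
  have := sin_pos hm
  have := cos_pos hm
  positivity

theorem tan_pos : 0 < Real.tan (Real.pi / m) := by
  rw [Real.tan_eq_sin_div_cos]
  exact div_pos (sin_pos hm) (cos_pos hm)

theorem rho_eq : 1 / (2 * Real.tan (Real.pi / m)) =
    Real.cos (Real.pi / m) / (2 * Real.sin (Real.pi / m)) := by
  have h1 := sin_pos hm
  have h2 := cos_pos hm
  rw [Real.tan_eq_sin_div_cos]
  field_simp

theorem cos2_eq : Real.cos (2 * (Real.pi / m)) = 1 - 2 * Real.sin (Real.pi / m) ^ 2 := by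
  rw [Real.cos_two_mul, Real.cos_sq']; ring

theorem ex_m : ex (m * (2 * Real.pi / m)) = 1 := by
  have h : (m : ℝ) * (2 * Real.pi / m) = 2 * Real.pi := by
    have := m_pos hm
    field_simp
  rw [h, ex_two_pi]

theorem ex_period (k q : ℕ) : ex (-((k + m * q : ℕ) * (2 * Real.pi / m))) =
    ex (-(k * (2 * Real.pi / m))) := by
  induction q with
  | zero => simp
  | succ q ih =>
    have h1 : ex (-(m * (2 * Real.pi / m))) = 1 := by
      have h2 : ex (-(m * (2 * Real.pi / m))) * ex (m * (2 * Real.pi / m)) = 1 := by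
        rw [← ex_add, neg_add_cancel, ex_zero]
      rwa [ex_m hm, mul_one] at h2
    have h3 : -((k + m * (q + 1) : ℕ) * (2 * Real.pi / m)) =
        -((k + m * q : ℕ) * (2 * Real.pi / m)) + -(m * (2 * Real.pi / m)) := by
      push_cast
      ring
    rw [h3, ex_add, h1, mul_one, ih]

theorem ex_neg_eq : ex (-(2 * Real.pi / m)) = ex ((m - 1 : ℕ) * (2 * Real.pi / m)) := by
  have h1 : ((m - 1 : ℕ) : ℝ) = m - 1 := by
    rw [Nat.cast_sub (by omega)]; simp
  have h2 : (m - 1 : ℕ) * (2 * Real.pi / m) = m * (2 * Real.pi / m) + -(2 * Real.pi / m) := by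
    rw [h1]; ring
  rw [h2, ex_add, ex_m hm, one_mul]

end Angle

section Inv

variable {m : ℕ} {S : Set ℂ} (hinv : ∀ y ∈ S, ex (2 * Real.pi / m) * y ∈ S)
include hinv

theorem inv_nat (k : ℕ) {y : ℂ} (hy : y ∈ S) : ex (k * (2 * Real.pi / m)) * y ∈ S := by
  induction k with
  | zero => simpa [ex_zero] using hy
  | succ k ih =>
    have h : ((k + 1 : ℕ) : ℝ) * (2 * Real.pi / m) =
        2 * Real.pi / m + k * (2 * Real.pi / m) := by push_cast; ring
    rw [h, ex_add, mul_assoc]
    exact hinv _ ih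

theorem inv_neg (hm : 3 ≤ m) {y : ℂ} (hy : y ∈ S) : ex (-(2 * Real.pi / m)) * y ∈ S := by
  rw [ex_neg_eq hm]
  exact inv_nat hinv _ hy

theorem inv_neg_nat (hm : 3 ≤ m) (k : ℕ) {y : ℂ} (hy : y ∈ S) :
    ex (-(k * (2 * Real.pi / m))) * y ∈ S := by
  induction k with
  | zero => simpa [ex_zero] using hy
  | succ k ih =>
    have h : -(((k + 1 : ℕ) : ℝ) * (2 * Real.pi / m)) =
        -(2 * Real.pi / m) + -(k * (2 * Real.pi / m)) := by push_cast; ring
    rw [h, ex_add, mul_assoc]
    exact inv_neg hinv hm ih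

end Inv

section Body

variable {m : ℕ} (hm : 3 ≤ m)
include hm

theorem sum_ex : ∑ j ∈ Finset.range m, ex (j * (2 * Real.pi / m)) = 0 := by
  have h1 : ∀ j : ℕ, ex (j * (2 * Real.pi / m)) = ex (2 * Real.pi / m) ^ j := by
    intro j
    induction j with
    | zero => simp [ex_zero]
    | succ j ih =>
      rw [pow_succ, ← ih, ← ex_add]
      congr 1
      push_cast
      ring
  have hne : ex (2 * Real.pi / m) ≠ 1 := by
    intro h
    have h2 := congrArg Complex.re h
    rw [ex_re, Complex.one_re, mul_div_assoc, cos2_eq hm] at h2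
    have h3 := sin_pos hm
    nlinarith
  simp only [h1]
  rw [geom_sum_eq hne, ← h1, ex_m hm, sub_self, zero_div]

theorem zero_mem {X : Set ℂ} (hX : CmBody m X) : (0 : ℂ) ∈ X := by
  obtain ⟨y, hy⟩ := hX.nonempty
  have h := hX.convex.sum_mem (t := Finset.range m) (w := fun _ => (1 : ℝ) / m)
    (z := fun j => ex (j * (2 * Real.pi / m)) * y) (fun _ _ => by positivity)
    (by
      have := m_pos hm
      simp only [Finset.sum_const, Finset.card_range, nsmul_eq_mul]
      field_simp) (fun j _ => inv_nat hX.rot j hy)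
  have h2 : ∑ j ∈ Finset.range m, (1 / (m : ℝ)) • (ex (j * (2 * Real.pi / m)) * y) = 0 := by
    rw [← Finset.smul_sum, ← Finset.sum_mul, sum_ex hm, zero_mul, smul_zero]
  rwa [h2] at h

end Body

/-- closed sector -/
def Sec (m : ℕ) : Set ℂ :=
  {z | |z.im| * Real.cos (Real.pi / m) ≤ z.re * Real.sin (Real.pi / m)}

section Sector

variable {m : ℕ} (hm : 3 ≤ m)
include hm

/-- characterisation by two rotations -/
theorem mem_sec_of {w : ℂ} (h1 : (ex (2 * Real.pi / m) * w).re ≤ w.re)
    (h2 : (ex (-(2 * Real.pi / m)) * w).re ≤ w.re) : w ∈ Sec m := by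
  have hs := sin_pos hm
  rw [mul_re, mul_div_assoc, cos2_eq hm, Real.sin_two_mul] at h1
  rw [neg_mul_re, mul_div_assoc, cos2_eq hm, Real.sin_two_mul] at h2
  set s := Real.sin (Real.pi / m)
  set c := Real.cos (Real.pi / m)
  have e1 : 0 ≤ w.re * s + w.im * c := by
    by_contra hcon
    push Not at hcon
    nlinarith
  have e2 : 0 ≤ w.re * s - w.im * c := by
    by_contra hcon
    push Not at hcon
    nlinarith
  have hc : 0 < c := cos_pos hm
  change |w.im| * c ≤ w.re * s
  rcases abs_cases w.im with ⟨h, _⟩ | ⟨h, _⟩ <;> rw [h] <;> linarith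

theorem sec_cover (z : ℂ) : ∃ j < m, ex (-(j * (2 * Real.pi / m))) * z ∈ Sec m := by
  obtain ⟨j, hj, hmax⟩ := Finset.exists_max_image (Finset.range m)
    (fun k : ℕ => (ex (-(k * (2 * Real.pi / m))) * z).re) ⟨0, by simp; omega⟩
  rw [Finset.mem_range] at hj
  have hall : ∀ k : ℕ, (ex (-(k * (2 * Real.pi / m))) * z).re ≤
      (ex (-(j * (2 * Real.pi / m))) * z).re := by
    intro k
    have h1 := hmax (k % m) (Finset.mem_range.2 (Nat.mod_lt _ (by omega)))
    have h2 := ex_period hm (k % m) (k / m)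
    rw [Nat.mod_add_div] at h2
    rw [h2]
    exact h1
  refine ⟨j, hj, mem_sec_of hm ?_ ?_⟩
  · have h1 : ex (2 * Real.pi / m) * (ex (-(j * (2 * Real.pi / m))) * z) =
        ex (-((j + (m - 1) : ℕ) * (2 * Real.pi / m))) * z := by
      have h2 : ((j + (m - 1) : ℕ) : ℝ) = j + m - 1 := by
        rw [Nat.cast_add, Nat.cast_sub (by omega)]; push_cast; ring
      have h3 : 2 * Real.pi / m + -(j * (2 * Real.pi / m)) =
          m * (2 * Real.pi / m) + -((j + (m - 1) : ℕ) * (2 * Real.pi / m)) := by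
        rw [h2]; ring
      rw [← mul_assoc, ← ex_add, h3, ex_add, ex_m hm, one_mul]
    rw [h1]
    exact hall _
  · have h1 : ex (-(2 * Real.pi / m)) * (ex (-(j * (2 * Real.pi / m))) * z) =
        ex (-((j + 1 : ℕ) * (2 * Real.pi / m))) * z := by
      rw [← mul_assoc, ← ex_add]
      congr 2
      push_cast
      ring
    rw [h1]
    exact hall _

theorem sec_re {z : ℂ} (hz : z ∈ Sec m) : 0 ≤ z.re := by
  have h1 := sin_pos hm
  have h2 := cos_pos hm
  have h3 : 0 ≤ z.re * Real.sin (Real.pi / m) := le_trans (by positivity) hz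
  exact nonneg_of_mul_nonneg_left h3 h1

end Sector

section Max

variable {m : ℕ} (hm : 3 ≤ m)
include hm

theorem sec_max {z : ℂ} (hz : z ∈ Sec m) (k : ℕ) :
    (ex (-(k * (2 * Real.pi / m))) * z).re ≤ z.re := by
  have h2 := ex_period hm (k % m) (k / m)
  rw [Nat.mod_add_div] at h2
  rw [h2]
  have hk : k % m < m := Nat.mod_lt _ (by omega)
  generalize k % m = n at hk
  rcases Nat.eq_zero_or_pos n with rfl | hn
  · simp [ex_zero]
  have hb := beta_pos hm
  have hs := sin_pos hm
  have hc := cos_pos hm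
  have hmb := m_beta hm
  have hn1 : (1 : ℝ) ≤ n := by exact_mod_cast hn
  have hn2 : (n : ℝ) + 1 ≤ m := by exact_mod_cast hk
  set β := Real.pi / m with hβ
  have e0 : 0 ≤ Real.sin (n * β) :=
    Real.sin_nonneg_of_nonneg_of_le_pi (by positivity) (by nlinarith)
  have e1 : 0 ≤ Real.sin (n * β) * Real.cos β - Real.cos (n * β) * Real.sin β := by
    rw [← Real.sin_sub]
    exact Real.sin_nonneg_of_nonneg_of_le_pi (by nlinarith) (by nlinarith)
  have e2 : 0 ≤ Real.sin (n * β) * Real.cos β + Real.cos (n * β) * Real.sin β := by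
    rw [← Real.sin_add]
    exact Real.sin_nonneg_of_nonneg_of_le_pi (by nlinarith) (by nlinarith)
  have hx := sec_re hm hz
  have hz' : |z.im| * Real.cos β ≤ z.re * Real.sin β := hz
  have e3 : 0 ≤ Real.sin (n * β) * z.re - Real.cos (n * β) * z.im := by
    have h4 : |Real.cos (n * β)| * Real.sin β ≤ Real.sin (n * β) * Real.cos β := by
      rcases abs_cases (Real.cos (n * β)) with ⟨h, _⟩ | ⟨h, _⟩ <;> rw [h] <;> linarith
    have h5 : Real.cos (n * β) * z.im ≤ |Real.cos (n * β)| * |z.im| := by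
      rw [← abs_mul]; exact le_abs_self _
    have h6 : |Real.cos (n * β)| * |z.im| * Real.cos β ≤
        Real.sin (n * β) * z.re * Real.cos β := by
      calc |Real.cos (n * β)| * |z.im| * Real.cos β
          = |Real.cos (n * β)| * (|z.im| * Real.cos β) := by ring
        _ ≤ |Real.cos (n * β)| * (z.re * Real.sin β) :=
          mul_le_mul_of_nonneg_left hz' (abs_nonneg _)
        _ = z.re * (|Real.cos (n * β)| * Real.sin β) := by ring
        _ ≤ z.re * (Real.sin (n * β) * Real.cos β) := mul_le_mul_of_nonneg_left h4 hx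
        _ = Real.sin (n * β) * z.re * Real.cos β := by ring
    have h7 := le_of_mul_le_mul_right h6 hc
    linarith
  have e4 : n * (2 * Real.pi / m) = 2 * (n * β) := by rw [hβ]; ring
  rw [neg_mul_re, e4, Real.cos_two_mul, Real.cos_sq', Real.sin_two_mul]
  nlinarith [mul_nonneg e0 e3]

end Max

section Poly

variable {m : ℕ} (hm : 3 ≤ m)
include hm

/-- inradius -/
noncomputable def rho (m : ℕ) : ℝ := Real.cos (Real.pi / m) / (2 * Real.sin (Real.pi / m))

theorem rho_pos : 0 < rho m := div_pos (cos_pos hm) (by have := sin_pos hm; positivity)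

theorem rho_sin : rho m * Real.sin (Real.pi / m) = Real.cos (Real.pi / m) / 2 := by
  have := sin_pos hm
  rw [rho]; field_simp

theorem mem_R0 {y : ℂ} : y ∈ Rgon m 0 ↔
    ∀ j : ℕ, (ex (-(j * (2 * Real.pi / m))) * y).re ≤ rho m := by
  have h : ∀ j : ℕ, -(0 + 2 * Real.pi * (j : ℝ) / m) = -(j * (2 * Real.pi / m)) := by
    intro j; ring
  simp only [Rgon, Set.mem_ofPred_eq, h, rho_eq hm, rho]

theorem mem_Ra {y : ℂ} (a : ℝ) : y ∈ Rgon m a ↔ ex (-a) * y ∈ Rgon m 0 := by
  have h : ∀ j : ℕ, ex (-(a + 2 * Real.pi * (j : ℝ) / m)) =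
      ex (-(0 + 2 * Real.pi * (j : ℝ) / m)) * ex (-a) := by
    intro j; rw [← ex_add]; congr 1; ring
  constructor
  · intro H j
    have := H j
    rw [h j, mul_assoc] at this
    exact this
  · intro H j
    have := H j
    rw [h j, mul_assoc]
    exact this

theorem R0_inv : ∀ y ∈ Rgon m 0, ex (2 * Real.pi / m) * y ∈ Rgon m 0 := by
  intro y hy
  rw [mem_R0 hm] at hy ⊢
  intro j
  rcases Nat.eq_zero_or_pos j with rfl | hj
  · have h1 := hy (m - 1)
    have h2 : ex (-(((0 : ℕ) : ℝ) * (2 * Real.pi / m))) * (ex (2 * Real.pi / m) * y) =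
        ex (-((m - 1 : ℕ) * (2 * Real.pi / m))) * y := by
      have h3 : ((m - 1 : ℕ) : ℝ) = m - 1 := by rw [Nat.cast_sub (by omega)]; simp
      have h4 : -(((0 : ℕ) : ℝ) * (2 * Real.pi / m)) + 2 * Real.pi / m =
          m * (2 * Real.pi / m) + -((m - 1 : ℕ) * (2 * Real.pi / m)) := by
        rw [h3]; push_cast; ring
      rw [← mul_assoc, ← ex_add, h4, ex_add, ex_m hm, one_mul]
    rw [h2]
    exact h1
  · obtain ⟨k, rfl⟩ : ∃ k, j = k + 1 := ⟨j - 1, by omega⟩
    have h2 : ex (-((k + 1 : ℕ) * (2 * Real.pi / m))) * (ex (2 * Real.pi / m) * y) =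
        ex (-(k * (2 * Real.pi / m))) * y := by
      rw [← mul_assoc, ← ex_add]
      congr 2
      push_cast
      ring
    rw [h2]
    exact hy k

theorem sec_R0 {z : ℂ} (hz : z ∈ Sec m) (h : z.re ≤ rho m) : z ∈ Rgon m 0 := by
  rw [mem_R0 hm]
  exact fun j => (sec_max hm hz j).trans h

theorem R0_re {y : ℂ} (hy : y ∈ Rgon m 0) : y.re ≤ rho m := by
  have := (mem_R0 hm).1 hy 0
  simpa [ex_zero] using this

theorem R0_convex : Convex ℝ (Rgon m 0) := by
  intro x hx y hy a b ha hb hab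
  rw [mem_R0 hm] at *
  intro j
  have h1 : (ex (-(j * (2 * Real.pi / m))) * (a • x + b • y)).re =
      a * (ex (-(j * (2 * Real.pi / m))) * x).re + b * (ex (-(j * (2 * Real.pi / m))) * y).re := by
    rw [neg_mul_re, neg_mul_re, neg_mul_re]
    simp
    ring
  rw [h1]
  have h2 := mul_le_mul_of_nonneg_left (hx j) ha
  have h3 := mul_le_mul_of_nonneg_left (hy j) hb
  calc _ ≤ a * rho m + b * rho m := add_le_add h2 h3
    _ = rho m := by rw [← add_mul, hab, one_mul]

theorem R0_compact : IsCompact (Rgon m 0) := by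
  have hclosed : IsClosed (Rgon m 0) := by
    have h : Rgon m 0 = ⋂ j : ℕ, {y | (ex (-(j * (2 * Real.pi / m))) * y).re ≤ rho m} := by
      ext y
      rw [mem_R0 hm]
      simp
    rw [h]
    refine isClosed_iInter fun j => isClosed_le ?_ continuous_const
    exact Complex.continuous_re.comp (continuous_const.mul continuous_id)
  refine Metric.isCompact_of_isClosed_isBounded hclosed ?_
  have hs := sin_pos hm
  have hc := cos_pos hm
  refine Metric.isBounded_closedBall (x := (0 : ℂ))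
    (r := rho m + rho m * Real.sin (Real.pi / m) / Real.cos (Real.pi / m)) |>.subset ?_
  intro y hy
  obtain ⟨j, -, hj⟩ := sec_cover hm y
  have h1 := (mem_R0 hm).1 hy j
  set w := ex (-(j * (2 * Real.pi / m))) * y with hw
  have hn : ‖y‖ = ‖w‖ := by rw [hw, norm_mul, ex_norm, one_mul]
  have hw0 := sec_re hm hj
  have h2 : |w.im| ≤ rho m * Real.sin (Real.pi / m) / Real.cos (Real.pi / m) := by
    rw [le_div_iff₀ hc]
    exact le_trans hj (mul_le_mul_of_nonneg_right h1 hs.le)
  rw [mem_closedBall_zero_iff, hn]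
  calc ‖w‖ ≤ |w.re| + |w.im| := Complex.norm_le_abs_re_add_abs_im w
    _ ≤ _ := add_le_add (by rwa [abs_of_nonneg hw0]) h2

theorem R0_zero : (0 : ℂ) ∈ Rgon m 0 := by
  rw [mem_R0 hm]
  intro j
  simp [(rho_pos hm).le]

theorem R0_body : CmBody m (Rgon m 0) :=
  ⟨R0_convex hm, R0_compact hm, ⟨0, R0_zero hm⟩, R0_inv hm⟩

theorem Ra_eq (a : ℝ) : Rgon m a = rot a '' Rgon m 0 := by
  ext y
  rw [mem_Ra hm a]
  constructor
  · intro h
    exact ⟨_, h, by rw [rot_apply, ex_mul_neg_cancel]⟩
  · rintro ⟨x, hx, rfl⟩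
    rwa [rot_apply, ex_neg_mul_cancel]

end Poly

theorem body_rot {m : ℕ} {X : Set ℂ} (hX : CmBody m X) (a : ℝ) : CmBody m (rot a '' X) where
  convex := hX.convex.linear_image (rot a).toLinearEquiv.toLinearMap
  isCompact := hX.isCompact.image (rot a).continuous
  nonempty := hX.nonempty.image _
  rot := by
    rintro y ⟨x, hx, rfl⟩
    refine ⟨_, hX.rot x hx, ?_⟩
    simp only [rot_apply]
    ring

end Geo

theorem Rgon_body {m : ℕ} (hm : 3 ≤ m) (a : ℝ) : CmBody m (Rgon m a) := by
  rw [Geo.Ra_eq hm a]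
  exact Geo.body_rot (Geo.R0_body hm) a

namespace Geo

section Supp

variable {m : ℕ} (hm : 3 ≤ m)
include hm

theorem R0_int (k : ℤ) {y : ℂ} (hy : y ∈ Rgon m 0) :
    ex (k * (2 * Real.pi / m)) * y ∈ Rgon m 0 := by
  rcases Int.eq_nat_or_neg k with ⟨n, rfl | rfl⟩
  · simpa using inv_nat (R0_inv hm) n hy
  · have := inv_neg_nat (R0_inv hm) hm n hy
    simpa using this

theorem supp_aux {x y e : ℝ} (h0 : 0 ≤ e) (h1 : e ≤ Real.pi / m) (hx : x ≤ rho m)
    (hxy : Real.cos (2 * (Real.pi / m)) * x + Real.sin (2 * (Real.pi / m)) * y ≤ rho m) :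
    Real.cos e * x + Real.sin e * y ≤
      Real.cos (Real.pi / m - e) / (2 * Real.sin (Real.pi / m)) := by
  have hb := beta_pos hm
  have hbl := beta_le hm
  have hs := sin_pos hm
  have hc := cos_pos hm
  have hs2 := sin2_pos hm
  have hr := rho_sin hm
  have hpi := Real.pi_pos
  set β := Real.pi / m with hβ
  have e1 : 0 ≤ Real.sin e := Real.sin_nonneg_of_nonneg_of_le_pi h0 (by linarith)
  have e2 : 0 ≤ Real.sin (2 * β - e) :=
    Real.sin_nonneg_of_nonneg_of_le_pi (by linarith) (by linarith)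
  rw [le_div_iff₀ (by positivity)]
  have key : Real.sin (2 * β) * (Real.cos e * x + Real.sin e * y) ≤
      rho m * (Real.sin (2 * β - e) + Real.sin e) := by
    have e3 : Real.sin (2 * β) * (Real.cos e * x + Real.sin e * y) =
        Real.sin (2 * β - e) * x +
          Real.sin e * (Real.cos (2 * β) * x + Real.sin (2 * β) * y) := by
      rw [Real.sin_sub]; ring
    rw [e3]
    nlinarith [mul_le_mul_of_nonneg_left hx e2, mul_le_mul_of_nonneg_left hxy e1]
  have e4 : Real.sin (2 * β - e) + Real.sin e =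
      2 * Real.sin β * Real.cos (β - e) := by
    rw [Real.sin_sub, Real.cos_sub, Real.sin_two_mul, Real.cos_two_mul, Real.cos_sq']; ring
  rw [e4, Real.sin_two_mul] at key
  have e5 : rho m * (2 * Real.sin β * Real.cos (β - e)) = Real.cos β * Real.cos (β - e) := by
    calc _ = 2 * (rho m * Real.sin β) * Real.cos (β - e) := by ring
      _ = _ := by rw [hr]; ring
  rw [e5] at key
  have e6 : Real.cos β * ((Real.cos e * x + Real.sin e * y) * (2 * Real.sin β)) ≤
      Real.cos β * Real.cos (β - e) := by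
    calc _ = 2 * Real.sin β * Real.cos β * (Real.cos e * x + Real.sin e * y) := by ring
      _ ≤ _ := key
  exact le_of_mul_le_mul_left e6 hc

theorem R0_up {y : ℂ} (hy : y ∈ Rgon m 0) :
    Real.cos (2 * (Real.pi / m)) * y.re + Real.sin (2 * (Real.pi / m)) * y.im ≤ rho m := by
  have h := (mem_R0 hm).1 hy 1
  rw [neg_mul_re, Nat.cast_one, one_mul, mul_div_assoc] at h
  exact h

theorem R0_down {y : ℂ} (hy : y ∈ Rgon m 0) :
    Real.cos (2 * (Real.pi / m)) * y.re - Real.sin (2 * (Real.pi / m)) * y.im ≤ rho m := by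
  have h := R0_re hm (R0_inv hm y hy)
  rw [mul_re, mul_div_assoc] at h
  exact h

/-- the vertices next to the edge with normal angle `0` -/
theorem vert_mem {s : ℝ} (hs : |s| ≤ 1 / 2) : (⟨rho m, s⟩ : ℂ) ∈ Rgon m 0 := by
  refine sec_R0 hm ?_ le_rfl
  change |s| * Real.cos (Real.pi / m) ≤ rho m * Real.sin (Real.pi / m)
  rw [rho_sin hm]
  have := cos_pos hm
  nlinarith

theorem hsup_R (a b : ℝ) : hsup (Rgon m a) b = kap m (b - a) := by
  have hb := beta_pos hm
  have hs := sin_pos hm
  set al := 2 * Real.pi / m with hal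
  have hal0 : 0 < al := by rw [hal, mul_div_assoc]; linarith
  set k : ℤ := round ((b - a) / al) with hk
  set d' := (b - a) - al * k with hd'
  have hd1 : |d'| ≤ Real.pi / m := by
    have h1 := abs_sub_round ((b - a) / al)
    have h2 : d' = al * ((b - a) / al - k) := by rw [hd']; field_simp
    rw [h2, abs_mul, abs_of_pos hal0]
    calc al * |(b - a) / al - k| ≤ al * (1 / 2) := mul_le_mul_of_nonneg_left h1 hal0.le
      _ = Real.pi / m := by rw [hal]; ring
  have hkap : kap m (b - a) =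
      Real.cos (Real.pi / m - |d'|) / (2 * Real.sin (Real.pi / m)) := rfl
  rw [hkap]
  have hval : ∀ y : ℂ, (ex (-b) * y).re = (ex (-d') * (ex (-(k * al)) * (ex (-a) * y))).re := by
    intro y
    rw [← mul_assoc, ← mul_assoc, ← ex_add, ← ex_add]
    congr 3
    rw [hd']; ring
  clear_value d'
  have hcs : Real.cos (Real.pi / m - |d'|) =
      Real.cos (Real.pi / m) * Real.cos |d'| + Real.sin (Real.pi / m) * Real.sin |d'| :=
    Real.cos_sub _ _
  refine IsGreatest.csSup_eq ⟨?_, ?_⟩
  · obtain ⟨s, hsabs, hsd⟩ : ∃ s : ℝ, |s| ≤ 1 / 2 ∧ Real.sin d' * s = Real.sin |d'| / 2 := by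
      by_cases h0 : 0 ≤ d'
      · exact ⟨1 / 2, by norm_num, by rw [abs_of_nonneg h0]; ring⟩
      · refine ⟨-(1 / 2), by rw [abs_neg]; norm_num, ?_⟩
        rw [abs_of_neg (not_le.1 h0), Real.sin_neg]; ring
    have hv := vert_mem hm hsabs
    refine ⟨ex a * (ex (k * al) * ⟨rho m, s⟩), ?_, ?_⟩
    · rw [mem_Ra hm a, ex_neg_mul_cancel]
      exact R0_int hm k hv
    · change (ex (-b) * _).re = _
      rw [hval, ex_neg_mul_cancel, ex_neg_mul_cancel, neg_mul_re]
      have hr := rho_sin hm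
      rw [hcs, eq_div_iff (by positivity), Real.cos_abs]
      change (Real.cos d' * rho m + Real.sin d' * s) * (2 * Real.sin (Real.pi / m)) = _
      rw [hsd]
      linear_combination (2 * Real.cos d') * hr
  · rintro _ ⟨y, hy, rfl⟩
    rw [mem_Ra hm a] at hy
    have hy1 : ex (-(k * al)) * (ex (-a) * y) ∈ Rgon m 0 := by
      have := R0_int hm (-k) hy
      have h2 : ((-k : ℤ) : ℝ) * (2 * Real.pi / m) = -(k * al) := by push_cast; ring
      rwa [h2] at this
    change (ex (-b) * y).re ≤ _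
    rw [hval, neg_mul_re]
    by_cases h0 : 0 ≤ d'
    · have := supp_aux hm h0 (by rwa [abs_of_nonneg h0] at hd1) (R0_re hm hy1) (R0_up hm hy1)
      rw [abs_of_nonneg h0]
      exact this
    · have h0' := not_le.1 h0
      have hdn := R0_down hm hy1
      have := supp_aux hm (e := -d') (y := -(ex (-(k * al)) * (ex (-a) * y)).im) (by linarith)
        (by rwa [abs_of_neg h0'] at hd1) (R0_re hm hy1) (by linarith)
      rw [abs_of_neg h0']
      rw [Real.cos_neg, Real.sin_neg] at this
      linarith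

end Supp

end Geo

theorem hsup_Rgon {m : ℕ} (hm : 3 ≤ m) (a b : ℝ) : hsup (Rgon m a) b = kap m (b - a) :=
  Geo.hsup_R hm a b

end Vale.Agent.P227.Rot
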