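import Vale.Agent.P227.Rot.GeoA

/-!
Areas by vertical sections, the sector formula and the neighbours of a vertical section.
-/

open MeasureTheory Set
open scoped Pointwise

namespace Vale.Agent.P227.Rot

namespace Geo

/-- area by vertical sections -/
theorem vol_sec {S : Set ℂ} (hS : MeasurableSet S) :
    volume S = ∫⁻ t : ℝ, volume {y : ℝ | (⟨t, y⟩ : ℂ) ∈ S} := by
  have h1 : MeasurePreserving (⇑Complex.measurableEquivRealProd.symm) volume volume :=
    MeasurePreserving.symm _ Complex.volume_preserving_equiv_real_prod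
  rw [← h1.measure_preimage hS.nullMeasurableSet, Measure.volume_eq_prod,
    Measure.prod_apply (Complex.measurableEquivRealProd.symm.measurable hS)]
  rfl

theorem vol_rot (a : ℝ) {S : Set ℂ} (hS : MeasurableSet S) :
    volume ((fun z => ex a * z) ⁻¹' S) = volume S :=
  (rot a).measurePreserving.measure_preimage hS.nullMeasurableSet

theorem rot_image (a : ℝ) (S : Set ℂ) : rot a '' S = (fun z => ex (-a) * z) ⁻¹' S := by
  ext y
  constructor
  · rintro ⟨x, hx, rfl⟩
    change ex (-a) * (rot a x) ∈ S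
    rwa [rot_apply, ex_neg_mul_cancel]
  · intro h
    exact ⟨_, h, by rw [rot_apply, ex_mul_neg_cancel]⟩

theorem vol_rot_image (a : ℝ) {S : Set ℂ} (hS : MeasurableSet S) :
    volume (rot a '' S) = volume S := by
  rw [rot_image]
  exact vol_rot _ hS

theorem sec_closed (m : ℕ) : IsClosed (Sec m) :=
  isClosed_le ((continuous_abs.comp Complex.continuous_im).mul continuous_const)
    (Complex.continuous_re.mul continuous_const)

/-- the boundary lines of the sector -/
def Lin (m : ℕ) : Set ℂ :=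
  {z | |z.im| * Real.cos (Real.pi / m) = z.re * Real.sin (Real.pi / m)}

theorem lin_null {m : ℕ} (hm : 3 ≤ m) : volume (Lin m) = 0 := by
  have hc := cos_pos hm
  have hcl : IsClosed (Lin m) :=
    isClosed_eq ((continuous_abs.comp Complex.continuous_im).mul continuous_const)
      (Complex.continuous_re.mul continuous_const)
  rw [vol_sec hcl.measurableSet]
  have : ∀ t : ℝ, volume {y : ℝ | (⟨t, y⟩ : ℂ) ∈ Lin m} = 0 := by
    intro t
    refine measure_mono_null (t := {t * Real.sin (Real.pi / m) / Real.cos (Real.pi / m),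
      -(t * Real.sin (Real.pi / m) / Real.cos (Real.pi / m))}) ?_
      (Set.Finite.measure_zero (by simp) _)
    intro y hy
    have hy' : |y| * Real.cos (Real.pi / m) = t * Real.sin (Real.pi / m) := hy
    have h2 : |y| = t * Real.sin (Real.pi / m) / Real.cos (Real.pi / m) := by
      rw [eq_div_iff hc.ne', hy']
    rw [← h2]
    rcases abs_choice y with h | h
    · left; rw [h]
    · right; rw [h]; simp
  simp [this]

theorem sec_max_strict {m : ℕ} (hm : 3 ≤ m) {z : ℂ} (hz : z ∈ Sec m) (hz2 : z ∉ Lin m)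
    {n : ℕ} (hn : 0 < n) (hk : n < m) :
    (ex (-(n * (2 * Real.pi / m))) * z).re < z.re := by
  have hb := beta_pos hm
  have hs := sin_pos hm
  have hc := cos_pos hm
  have hmb := m_beta hm
  have hn1 : (1 : ℝ) ≤ n := by exact_mod_cast hn
  have hn2 : (n : ℝ) + 1 ≤ m := by exact_mod_cast hk
  set β := Real.pi / m with hβ
  have e0 : 0 < Real.sin (n * β) :=
    Real.sin_pos_of_pos_of_lt_pi (by positivity) (by nlinarith)
  have e1 : 0 ≤ Real.sin (n * β) * Real.cos β - Real.cos (n * β) * Real.sin β := by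
    rw [← Real.sin_sub]
    exact Real.sin_nonneg_of_nonneg_of_le_pi (by nlinarith) (by nlinarith)
  have e2 : 0 ≤ Real.sin (n * β) * Real.cos β + Real.cos (n * β) * Real.sin β := by
    rw [← Real.sin_add]
    exact Real.sin_nonneg_of_nonneg_of_le_pi (by nlinarith) (by nlinarith)
  have hz' : |z.im| * Real.cos β < z.re * Real.sin β := lt_of_le_of_ne hz hz2
  have hx : 0 < z.re := by
    have : 0 < z.re * Real.sin β := lt_of_le_of_lt (by positivity) hz'
    by_contra hcon
    push Not at hcon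
    nlinarith
  have e3 : 0 < Real.sin (n * β) * z.re - Real.cos (n * β) * z.im := by
    by_cases h0 : Real.cos (n * β) = 0
    · rw [h0]; simp; positivity
    have h0' : 0 < |Real.cos (n * β)| := abs_pos.2 h0
    have h4 : |Real.cos (n * β)| * Real.sin β ≤ Real.sin (n * β) * Real.cos β := by
      rcases abs_cases (Real.cos (n * β)) with ⟨h, _⟩ | ⟨h, _⟩ <;> rw [h] <;> linarith
    have h5 : Real.cos (n * β) * z.im ≤ |Real.cos (n * β)| * |z.im| := by
      rw [← abs_mul]; exact le_abs_self _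
    have h6 : |Real.cos (n * β)| * |z.im| * Real.cos β <
        Real.sin (n * β) * z.re * Real.cos β := by
      calc |Real.cos (n * β)| * |z.im| * Real.cos β
          = |Real.cos (n * β)| * (|z.im| * Real.cos β) := by ring
        _ < |Real.cos (n * β)| * (z.re * Real.sin β) :=
          mul_lt_mul_of_pos_left hz' h0'
        _ = z.re * (|Real.cos (n * β)| * Real.sin β) := by ring
        _ ≤ z.re * (Real.sin (n * β) * Real.cos β) := mul_le_mul_of_nonneg_left h4 hx.le
        _ = Real.sin (n * β) * z.re * Real.cos β := by ring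
    have h7 := lt_of_mul_lt_mul_right h6 hc.le
    linarith
  have e4 : n * (2 * Real.pi / m) = 2 * (n * β) := by rw [hβ]; ring
  rw [neg_mul_re, e4, Real.cos_two_mul, Real.cos_sq', Real.sin_two_mul]
  nlinarith [mul_pos e0 e3]

theorem sector_formula {m : ℕ} (hm : 3 ≤ m) {S : Set ℂ} (hS : MeasurableSet S)
    (hinv : ∀ y ∈ S, ex (2 * Real.pi / m) * y ∈ S) :
    volume S = m * volume (S ∩ Sec m) := by
  set al := 2 * Real.pi / m with hal
  have hK : MeasurableSet (S ∩ Sec m) := hS.inter (sec_closed m).measurableSet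
  have hcover : S = ⋃ j ∈ Finset.range m, (fun z => ex (-(j * al)) * z) ⁻¹' (S ∩ Sec m) := by
    ext z
    simp only [Set.mem_iUnion, Finset.mem_range, Set.mem_preimage, exists_prop]
    constructor
    · intro hz
      obtain ⟨j, hj, hjz⟩ := sec_cover hm z
      exact ⟨j, hj, inv_neg_nat hinv hm j hz, hjz⟩
    · rintro ⟨j, -, hz, -⟩
      have := inv_nat hinv j hz
      rwa [ex_mul_neg_cancel] at this
  have hmeas : ∀ j ∈ Finset.range m,
      NullMeasurableSet ((fun z => ex (-(j * al)) * z) ⁻¹' (S ∩ Sec m)) volume := by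
    intro j _
    exact (hK.preimage (continuous_const.mul continuous_id).measurable).nullMeasurableSet
  have hdisj : ((Finset.range m : Finset ℕ) : Set ℕ).Pairwise
      (Function.onFun (AEDisjoint volume)
        (fun j : ℕ => (fun z => ex (-(j * al)) * z) ⁻¹' (S ∩ Sec m))) := by
    have main : ∀ i j : ℕ, i < j → j < m → volume
        (((fun z => ex (-(i * al)) * z) ⁻¹' (S ∩ Sec m)) ∩
          ((fun z => ex (-(j * al)) * z) ⁻¹' (S ∩ Sec m))) = 0 := by
      intro i j hij hjm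
      refine measure_mono_null (t := (fun z => ex (-(i * al)) * z) ⁻¹' (Lin m)) ?_ ?_
      · rintro z ⟨⟨-, h1⟩, ⟨-, h2⟩⟩
        by_contra hcon
        change ex (-(i * al)) * z ∉ Lin m at hcon
        have h3 := sec_max_strict hm h1 hcon (n := j - i) (by omega) (by omega)
        have h4 : ex (-((j - i : ℕ) * al)) * (ex (-(i * al)) * z) = ex (-(j * al)) * z := by
          rw [← mul_assoc, ← ex_add, Nat.cast_sub hij.le]
          congr 2
          ring
        rw [h4] at h3
        have h5 := sec_max hm h2 (m - (j - i))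
        have h6 : ex (-((m - (j - i) : ℕ) * al)) * (ex (-(j * al)) * z) =
            ex (-(i * al)) * z := by
          have h8 : ex ((m : ℝ) * al) = 1 := ex_m hm
          have h7 : -((i : ℝ) * al) =
              m * al + (-(((m - (j - i) : ℕ) : ℝ) * al) + -(j * al)) := by
            rw [Nat.cast_sub (by omega), Nat.cast_sub hij.le]; ring
          rw [← mul_assoc, ← ex_add, h7, ex_add (m * al), h8, one_mul]
        rw [h6] at h5
        linarith
      · have hcl : IsClosed (Lin m) :=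
          isClosed_eq ((continuous_abs.comp Complex.continuous_im).mul continuous_const)
            (Complex.continuous_re.mul continuous_const)
        rw [vol_rot _ hcl.measurableSet, lin_null hm]
    intro i hi j hj hij
    simp only [Finset.coe_range, Set.mem_Iio] at hi hj
    rcases lt_or_gt_of_ne hij with h | h
    · exact main i j h hj
    · change volume (_ ∩ _) = 0
      rw [Set.inter_comm]
      exact main j i h hi
  conv_lhs => rw [hcover]
  rw [measure_biUnion_finset₀ hdisj hmeas]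
  have : ∀ j ∈ Finset.range m, volume ((fun z => ex (-(j * al)) * z) ⁻¹' (S ∩ Sec m)) =
      volume (S ∩ Sec m) := fun j _ => vol_rot _ hK
  rw [Finset.sum_congr rfl this]
  simp

theorem key_up {m : ℕ} (hm : 3 ≤ m) {X : Set ℂ} (hc : Convex ℝ X) {p P : ℂ} {r t q1 q2 : ℝ}
    (ht : 0 < t) (hp : p ∈ X)
    (hPw : ex (2 * Real.pi / m) * P ∈ X) (hPre : P.re = t)
    (h1 : P.im * Real.cos (Real.pi / m) ≤ t * Real.sin (Real.pi / m))
    (h2 : -(P.im * Real.cos (Real.pi / m)) ≤ t * Real.sin (Real.pi / m))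
    (hmax : ∀ w ∈ X, w.re = t → w.im ≤ P.im) (hq1 : q1 ≤ r * rho m)
    (hq2 : Real.cos (2 * (Real.pi / m)) * q1 + Real.sin (2 * (Real.pi / m)) * q2 ≤ r * rho m)
    (hre : p.re + q1 = r * rho m + t) : p.im + q2 ≤ P.im + r / 2 := by
  by_contra hcon
  push Not at hcon
  have hs := sin_pos hm
  have hcp := cos_pos hm
  have hs2 := sin2_pos hm
  have hr := rho_sin hm
  have hW1 : (ex (2 * Real.pi / m) * P).re = Real.cos (2 * (Real.pi / m)) * P.re -
      Real.sin (2 * (Real.pi / m)) * P.im := by rw [mul_re, mul_div_assoc]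
  have hW2 : (ex (2 * Real.pi / m) * P).im = Real.sin (2 * (Real.pi / m)) * P.re +
      Real.cos (2 * (Real.pi / m)) * P.im := by rw [mul_im, mul_div_assoc]
  rw [hPre] at hW1 hW2
  have hc2 := cos2_eq hm
  have hs2e : Real.sin (2 * (Real.pi / m)) = 2 * Real.sin (Real.pi / m) * Real.cos (Real.pi / m) :=
    Real.sin_two_mul _
  have hsc : Real.cos (Real.pi / m) ^ 2 = 1 - Real.sin (Real.pi / m) ^ 2 := Real.cos_sq' _
  set W := ex (2 * Real.pi / m) * P with hWdef
  clear_value W
  generalize Real.sin (2 * (Real.pi / m)) = S2 at *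
  generalize Real.cos (2 * (Real.pi / m)) = C2 at *
  generalize Real.sin (Real.pi / m) = s at *
  generalize Real.cos (Real.pi / m) = c at *
  generalize rho m = ρ at *
  set A := p.re - t with hA
  set B := p.im - P.im with hB
  have hA0 : 0 ≤ A := by rw [hA]; linarith
  have hstar : 0 < C2 * A + S2 * B := by
    have e1 : A = r * ρ - q1 := by rw [hA]; linarith
    have e2 : r / 2 - q2 < B := by rw [hB]; linarith
    have e3 : C2 * ρ + S2 / 2 = ρ := by
      rw [hc2, hs2e]; linear_combination (-2 * s) * hr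
    have e4 : S2 * (r / 2 - q2) < S2 * B := mul_lt_mul_of_pos_left e2 hs2
    rw [e1]
    have e5 : C2 * (r * ρ - q1) + S2 * (r / 2 - q2) =
        r * (C2 * ρ + S2 / 2) - (C2 * q1 + S2 * q2) := by ring
    rw [e3] at e5
    linarith
  rcases hA0.eq_or_lt with h0 | hApos
  · have hB0 : B ≤ 0 := by
      have := hmax p hp (by rw [hA] at h0; linarith)
      rw [hB]; linarith
    rw [← h0, mul_zero, zero_add] at hstar
    nlinarith
  set e := s * t + c * P.im with he
  have he0 : 0 ≤ e := by rw [he]; linarith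
  set D := A + 2 * s * e with hD
  have hDpos : 0 < D := by rw [hD]; positivity
  have hw : (A / D) • W + (2 * s * e / D) • p ∈ X :=
    hc hPw hp (by positivity) (by positivity) (by rw [← add_div, hD]; field_simp)
  have hwre : ((A / D) • W + (2 * s * e / D) • p).re = t := by
    have : ((A / D) • W + (2 * s * e / D) • p).re = (A * W.re + 2 * s * e * p.re) / D := by
      simp; ring
    rw [this, div_eq_iff hDpos.ne', hW1, hc2, hs2e, hD, he]
    have : p.re = A + t := by rw [hA]; ring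
    rw [this]
    ring
  have hwim := hmax _ hw hwre
  have : ((A / D) • W + (2 * s * e / D) • p).im = (A * W.im + 2 * s * e * p.im) / D := by
    simp; ring
  rw [this, div_le_iff₀ hDpos, hW2] at hwim
  have hpim : p.im = B + P.im := by rw [hB]; ring
  have e6 : A * (S2 * t + C2 * P.im - P.im) + 2 * s * e * B ≤ 0 := by
    rw [hpim, hD] at hwim
    linarith
  have e7 : A * (c * t - s * P.im) + e * B ≤ 0 := by
    have : A * (S2 * t + C2 * P.im - P.im) + 2 * s * e * B =
        2 * s * (A * (c * t - s * P.im) + e * B) := by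
      rw [hc2, hs2e]; ring
    rw [this] at e6
    by_contra hcon2
    push Not at hcon2
    have := mul_pos (mul_pos two_pos hs) hcon2
    linarith
  have e8 : S2 * (A * (c * t - s * P.im) + e * B) =
      A * (t * s - P.im * c) + e * (C2 * A + S2 * B) := by
    rw [hc2, hs2e, he]
    linear_combination (2 * s * t * A) * hsc
  have e9 : 0 < A * (t * s - P.im * c) + e * (C2 * A + S2 * B) := by
    rcases he0.eq_or_lt with h0 | hepos
    · have : 0 < t * s - P.im * c := by
        have h3 : s * t + c * P.im = 0 := by rw [← he]; exact h0.symm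
        have := mul_pos ht hs
        nlinarith
      rw [← h0, zero_mul, add_zero]
      exact mul_pos hApos this
    · have := mul_pos hepos hstar
      have h4 : 0 ≤ A * (t * s - P.im * c) := mul_nonneg hApos.le (by linarith)
      linarith
  rw [← e8] at e9
  have := mul_nonpos_of_nonneg_of_nonpos hs2.le e7
  linarith

theorem seg_mem {X : Set ℂ} (hX : Convex ℝ X) {t y0 y1 y : ℝ} (h0 : (⟨t, y0⟩ : ℂ) ∈ X)
    (h1 : (⟨t, y1⟩ : ℂ) ∈ X) (hy0 : y0 ≤ y) (hy1 : y ≤ y1) : (⟨t, y⟩ : ℂ) ∈ X := by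
  rcases (hy0.trans hy1).eq_or_lt with h | h
  · have : y = y0 := by linarith
    rwa [this]
  have hd : 0 < y1 - y0 := by linarith
  have := hX h0 h1 (a := (y1 - y) / (y1 - y0)) (b := (y - y0) / (y1 - y0))
    (div_nonneg (by linarith) hd.le) (div_nonneg (by linarith) hd.le)
    (by field_simp; ring)
  convert this using 1
  apply Complex.ext
  · simp only [Complex.add_re, Complex.smul_re, smul_eq_mul]
    field_simp
    ring
  · simp only [Complex.add_im, Complex.smul_im, smul_eq_mul]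
    field_simp
    ring

/-- upper neighbour -/
theorem sect_up {m : ℕ} (hm : 3 ≤ m) {X : Set ℂ} (hX : CmBody m X) {r t y0 y : ℝ}
    (hr : 0 < r) (ht : 0 ≤ t) (h0 : (⟨t, y0⟩ : ℂ) ∈ X) (h0s : (⟨t, y0⟩ : ℂ) ∈ Sec m)
    (hY : (⟨r * rho m + t, y⟩ : ℂ) ∈ X + r • Rgon m 0)
    (hYs : (⟨r * rho m + t, y⟩ : ℂ) ∈ Sec m) :
    ∃ y1 : ℝ, (⟨t, y1⟩ : ℂ) ∈ X ∧ (⟨t, y1⟩ : ℂ) ∈ Sec m ∧ y ≤ y1 + r / 2 := by
  have hs := sin_pos hm
  have hc := cos_pos hm
  -- top of the vertical section
  have hsec : IsCompact (X ∩ {w : ℂ | w.re = t}) :=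
    hX.isCompact.inter_right (isClosed_eq Complex.continuous_re continuous_const)
  obtain ⟨P, ⟨hPX, hPt⟩, hPm⟩ := hsec.exists_isMaxOn ⟨_, h0, rfl⟩
    (Complex.continuous_im.continuousOn)
  have hPt' : P.re = t := hPt
  have hmax : ∀ w ∈ X, w.re = t → w.im ≤ P.im := fun w hw hwt => hPm ⟨hw, hwt⟩
  have hy0 : y0 ≤ P.im := hmax _ h0 rfl
  have h0s' : |y0| * Real.cos (Real.pi / m) ≤ t * Real.sin (Real.pi / m) := h0s
  have hYs' : |y| * Real.cos (Real.pi / m) ≤ (r * rho m + t) * Real.sin (Real.pi / m) := hYs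
  have hrs := rho_sin hm
  have hbig : y ≤ t * Real.sin (Real.pi / m) / Real.cos (Real.pi / m) + r / 2 := by
    have h1 : y * Real.cos (Real.pi / m) ≤
        t * Real.sin (Real.pi / m) + r * (Real.cos (Real.pi / m) / 2) := by
      have := mul_le_mul_of_nonneg_right (le_abs_self y) hc.le
      calc _ ≤ (r * rho m + t) * Real.sin (Real.pi / m) := this.trans hYs'
        _ = t * Real.sin (Real.pi / m) + r * (rho m * Real.sin (Real.pi / m)) := by ring
        _ = _ := by rw [hrs]
    have h2 : t * Real.sin (Real.pi / m) / Real.cos (Real.pi / m) + r / 2 =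
        (t * Real.sin (Real.pi / m) + r * (Real.cos (Real.pi / m) / 2)) /
          Real.cos (Real.pi / m) := by field_simp
    rw [h2, le_div_iff₀ hc]
    exact h1
  by_cases hcase : P.im * Real.cos (Real.pi / m) ≤ t * Real.sin (Real.pi / m)
  · have hneg : -(P.im * Real.cos (Real.pi / m)) ≤ t * Real.sin (Real.pi / m) := by
      have h3 := mul_le_mul_of_nonneg_right hy0 hc.le
      have h4 := mul_le_mul_of_nonneg_right (neg_abs_le y0) hc.le
      linarith
    have hPsec : P ∈ Sec m := by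
      change |P.im| * Real.cos (Real.pi / m) ≤ P.re * Real.sin (Real.pi / m)
      rw [hPt']
      rcases abs_cases P.im with ⟨h, _⟩ | ⟨h, _⟩ <;> rw [h] <;> linarith
    have hPeta : (⟨t, P.im⟩ : ℂ) = P := by rw [← hPt']
    rcases ht.eq_or_lt with h00 | htpos
    · -- t = 0
      refine ⟨P.im, by rwa [hPeta], by rwa [hPeta], ?_⟩
      rw [← h00, zero_mul] at h0s' hneg
      rw [← h00, zero_mul, zero_div, zero_add] at hbig
      have : 0 ≤ P.im := by
        by_contra hcon
        push Not at hcon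
        nlinarith
      linarith
    · refine ⟨P.im, by rwa [hPeta], by rwa [hPeta], ?_⟩
      obtain ⟨p, hp, q, ⟨q0, hq0, hq⟩, hpq⟩ := hY
      have hq' : r • q0 = q := hq
      have hre := congrArg Complex.re hpq
      have him := congrArg Complex.im hpq
      simp only [Complex.add_re, Complex.add_im] at hre him
      have := key_up hm hX.convex (p := p) (P := P) (r := r) (t := t) (q1 := q.re) (q2 := q.im)
        htpos hp (hX.rot _ hPX) hPt' hcase hneg hmax ?_ ?_ hre
      · linarith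
      · rw [← hq']
        simp only [Complex.smul_re, smul_eq_mul]
        exact mul_le_mul_of_nonneg_left (R0_re hm hq0) hr.le
      · rw [← hq']
        simp only [Complex.smul_re, Complex.smul_im, smul_eq_mul]
        have := mul_le_mul_of_nonneg_left (R0_up hm hq0) hr.le
        linarith
  · push Not at hcase
    set y1 := t * Real.sin (Real.pi / m) / Real.cos (Real.pi / m) with hy1
    have hy1c : y1 * Real.cos (Real.pi / m) = t * Real.sin (Real.pi / m) := by
      rw [hy1]; field_simp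
    have hy1n : 0 ≤ y1 := by rw [hy1]; positivity
    have hle1 : y0 ≤ y1 := by
      rw [hy1, le_div_iff₀ hc]
      exact (mul_le_mul_of_nonneg_right (le_abs_self y0) hc.le).trans h0s'
    have hlt2 : y1 < P.im := by
      rw [hy1, div_lt_iff₀ hc]
      exact hcase
    refine ⟨y1, ?_, ?_, hbig⟩
    · have hPeta : (⟨t, P.im⟩ : ℂ) = P := by rw [← hPt']
      exact seg_mem hX.convex h0 (by rwa [hPeta]) hle1 hlt2.le
    · change |y1| * Real.cos (Real.pi / m) ≤ t * Real.sin (Real.pi / m)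
      rw [abs_of_nonneg hy1n, hy1c]

theorem conj_mul_ex (a : ℝ) (z : ℂ) :
    Complex.conjLIE (ex a * z) = ex (-a) * Complex.conjLIE z := by
  apply Complex.ext
  · simp [Complex.conjLIE_apply, Complex.mul_re, ex_re, ex_im]
  · simp [Complex.conjLIE_apply, Complex.mul_im, ex_re, ex_im]

theorem conj_conj (z : ℂ) : Complex.conjLIE (Complex.conjLIE z) = z := by
  simp [Complex.conjLIE_apply]

theorem conj_body {m : ℕ} (hm : 3 ≤ m) {X : Set ℂ} (hX : CmBody m X) :
    CmBody m (Complex.conjLIE '' X) where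
  convex := hX.convex.linear_image Complex.conjLIE.toLinearEquiv.toLinearMap
  isCompact := hX.isCompact.image Complex.conjLIE.continuous
  nonempty := hX.nonempty.image _
  rot := by
    rintro y ⟨x, hx, rfl⟩
    refine ⟨_, inv_neg hX.rot hm hx, ?_⟩
    rw [conj_mul_ex, neg_neg]

theorem conj_R0 {m : ℕ} (hm : 3 ≤ m) {y : ℂ} (hy : y ∈ Rgon m 0) :
    Complex.conjLIE y ∈ Rgon m 0 := by
  rw [mem_R0 hm]
  intro j
  have h := R0_re hm (R0_int hm j hy)
  have h2 : ex (-(j * (2 * Real.pi / m))) * Complex.conjLIE y =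
      Complex.conjLIE (ex (j * (2 * Real.pi / m)) * y) := (conj_mul_ex _ _).symm
  rw [h2]
  simpa [Complex.conjLIE_apply] using h

theorem conj_mk (t y : ℝ) : Complex.conjLIE ⟨t, y⟩ = ⟨t, -y⟩ := by
  apply Complex.ext <;> simp [Complex.conjLIE_apply]

theorem conj_sec {m : ℕ} {t y : ℝ} (h : (⟨t, y⟩ : ℂ) ∈ Sec m) : (⟨t, -y⟩ : ℂ) ∈ Sec m := by
  change |(-y)| * _ ≤ _
  rw [abs_neg]
  exact h

/-- lower neighbour -/
theorem sect_down {m : ℕ} (hm : 3 ≤ m) {X : Set ℂ} (hX : CmBody m X) {r t y0 y : ℝ}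
    (hr : 0 < r) (ht : 0 ≤ t) (h0 : (⟨t, y0⟩ : ℂ) ∈ X) (h0s : (⟨t, y0⟩ : ℂ) ∈ Sec m)
    (hY : (⟨r * rho m + t, y⟩ : ℂ) ∈ X + r • Rgon m 0)
    (hYs : (⟨r * rho m + t, y⟩ : ℂ) ∈ Sec m) :
    ∃ y1 : ℝ, (⟨t, y1⟩ : ℂ) ∈ X ∧ (⟨t, y1⟩ : ℂ) ∈ Sec m ∧ y1 - r / 2 ≤ y := by
  have h1 : (⟨r * rho m + t, -y⟩ : ℂ) ∈ Complex.conjLIE '' X + r • Rgon m 0 := by
    obtain ⟨p, hp, q, ⟨q0, hq0, hq⟩, hpq⟩ := hY
    have hq' : r • q0 = q := hq
    refine ⟨Complex.conjLIE p, ⟨p, hp, rfl⟩, Complex.conjLIE q,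
      ⟨Complex.conjLIE q0, conj_R0 hm hq0, ?_⟩, ?_⟩
    · change r • Complex.conjLIE q0 = Complex.conjLIE q
      rw [← hq', map_smul]
    · change Complex.conjLIE p + Complex.conjLIE q = _
      have hpq' : p + q = _ := hpq
      rw [← map_add, hpq', conj_mk]
  obtain ⟨y1, ha, hb, hc⟩ := sect_up hm (conj_body hm hX) hr ht (y0 := -y0) (y := -y)
    ⟨_, h0, conj_mk _ _⟩ (conj_sec h0s) h1 (conj_sec hYs)
  refine ⟨-y1, ?_, conj_sec hb, by linarith⟩
  obtain ⟨x, hx, hxe⟩ := ha
  have : x = ⟨t, -y1⟩ := by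
    rw [← conj_conj x, hxe, conj_mk]
  rwa [← this]

theorem sec_add {m : ℕ} (hm : 3 ≤ m) {z w : ℂ} (hz : z ∈ Sec m) (hw : w ∈ Sec m) :
    z + w ∈ Sec m := by
  have hc := cos_pos hm
  have hz' : |z.im| * Real.cos (Real.pi / m) ≤ z.re * Real.sin (Real.pi / m) := hz
  have hw' : |w.im| * Real.cos (Real.pi / m) ≤ w.re * Real.sin (Real.pi / m) := hw
  change |(z + w).im| * Real.cos (Real.pi / m) ≤ (z + w).re * Real.sin (Real.pi / m)
  rw [Complex.add_im, Complex.add_re]
  have := mul_le_mul_of_nonneg_right (abs_add_le z.im w.im) hc.le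
  linarith

theorem sec_smul {m : ℕ} {z : ℂ} (hz : z ∈ Sec m) {r : ℝ} (hr : 0 ≤ r) : r • z ∈ Sec m := by
  have hz' : |z.im| * Real.cos (Real.pi / m) ≤ z.re * Real.sin (Real.pi / m) := hz
  change |(r • z).im| * Real.cos (Real.pi / m) ≤ (r • z).re * Real.sin (Real.pi / m)
  rw [Complex.smul_im, Complex.smul_re, smul_eq_mul, smul_eq_mul, abs_mul, abs_of_nonneg hr]
  have := mul_le_mul_of_nonneg_left hz' hr
  linarith

theorem sec_convex {m : ℕ} (hm : 3 ≤ m) : Convex ℝ (Sec m) := by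
  intro x hx y hy a b ha hb _
  exact sec_add hm (sec_smul hx ha) (sec_smul hy hb)

/-- the point `(r rho, s)` with `|s| ≤ r / 2` -/
theorem vert_smul {m : ℕ} (hm : 3 ≤ m) {r s : ℝ} (hr : 0 < r) (hs : |s| ≤ r / 2) :
    (⟨r * rho m, s⟩ : ℂ) ∈ r • Rgon m 0 ∧ (⟨r * rho m, s⟩ : ℂ) ∈ Sec m := by
  have h1 : |s / r| ≤ 1 / 2 := by
    rw [abs_div, abs_of_pos hr, div_le_iff₀ hr]; linarith
  have h2 : (⟨r * rho m, s⟩ : ℂ) = r • (⟨rho m, s / r⟩ : ℂ) := by
    apply Complex.ext
    · simp
    · simp; field_simp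
  have h3 : (⟨rho m, s / r⟩ : ℂ) ∈ Sec m := by
    change |s / r| * Real.cos (Real.pi / m) ≤ rho m * Real.sin (Real.pi / m)
    rw [rho_sin hm]
    have := cos_pos hm
    nlinarith
  rw [h2]
  exact ⟨⟨_, vert_mem hm h1, rfl⟩, sec_smul h3 hr.le⟩

/-- sections of the parallel body inside the sector, right part -/
theorem sect_eq {m : ℕ} (hm : 3 ≤ m) {X : Set ℂ} (hX : CmBody m X) {r t y0 : ℝ}
    (hr : 0 < r) (ht : 0 ≤ t) (h0 : (⟨t, y0⟩ : ℂ) ∈ X ∩ Sec m) :
    volume {y : ℝ | (⟨r * rho m + t, y⟩ : ℂ) ∈ (X + r • Rgon m 0) ∩ Sec m} =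
      volume {y : ℝ | (⟨t, y⟩ : ℂ) ∈ X ∩ Sec m} + ENNReal.ofReal r := by
  have hKc : Convex ℝ (X ∩ Sec m) := hX.convex.inter (sec_convex hm)
  have hKk : IsCompact (X ∩ Sec m) := hX.isCompact.inter_right (sec_closed m)
  have hsec : IsCompact ((X ∩ Sec m) ∩ {w : ℂ | w.re = t}) :=
    hKk.inter_right (isClosed_eq Complex.continuous_re continuous_const)
  obtain ⟨P, ⟨hPX, hPt⟩, hPm⟩ := hsec.exists_isMaxOn ⟨_, h0, rfl⟩
    (Complex.continuous_im.continuousOn)
  obtain ⟨Q, ⟨hQX, hQt⟩, hQm⟩ := hsec.exists_isMinOn ⟨_, h0, rfl⟩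
    (Complex.continuous_im.continuousOn)
  have hPt' : P.re = t := hPt
  have hQt' : Q.re = t := hQt
  have hPe : (⟨t, P.im⟩ : ℂ) = P := by rw [← hPt']
  have hQe : (⟨t, Q.im⟩ : ℂ) = Q := by rw [← hQt']
  have hmax : ∀ y : ℝ, (⟨t, y⟩ : ℂ) ∈ X ∩ Sec m → y ≤ P.im := fun y hy => hPm ⟨hy, rfl⟩
  have hmin : ∀ y : ℝ, (⟨t, y⟩ : ℂ) ∈ X ∩ Sec m → Q.im ≤ y := fun y hy => hQm ⟨hy, rfl⟩
  have hQP : Q.im ≤ P.im := hmax _ (by rw [hQe]; exact hQX)
  have e1 : {y : ℝ | (⟨t, y⟩ : ℂ) ∈ X ∩ Sec m} = Icc Q.im P.im := by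
    ext y
    constructor
    · intro hy
      exact ⟨hmin _ hy, hmax _ hy⟩
    · rintro ⟨h1, h2⟩
      exact seg_mem hKc (by rw [hQe]; exact hQX) (by rw [hPe]; exact hPX) h1 h2
  have e2 : {y : ℝ | (⟨r * rho m + t, y⟩ : ℂ) ∈ (X + r • Rgon m 0) ∩ Sec m} =
      Icc (Q.im - r / 2) (P.im + r / 2) := by
    ext y
    constructor
    · rintro ⟨h1, h2⟩
      obtain ⟨y1, ha, hb, hc⟩ := sect_up hm hX hr ht h0.1 h0.2 h1 h2
      obtain ⟨y2, ha', hb', hc'⟩ := sect_down hm hX hr ht h0.1 h0.2 h1 h2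
      have := hmax y1 ⟨ha, hb⟩
      have := hmin y2 ⟨ha', hb'⟩
      constructor <;> linarith
    · rintro ⟨h1, h2⟩
      obtain ⟨y', hy1, hy2, hy3⟩ : ∃ y' : ℝ, Q.im ≤ y' ∧ y' ≤ P.im ∧ |y - y'| ≤ r / 2 := by
        by_cases h3 : P.im ≤ y
        · refine ⟨P.im, hQP, le_rfl, ?_⟩
          rw [abs_of_nonneg (by linarith)]; linarith
        by_cases h4 : y ≤ Q.im
        · refine ⟨Q.im, le_rfl, hQP, ?_⟩
          rw [abs_of_nonpos (by linarith)]; linarith
        · push Not at h3 h4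
          refine ⟨y, h4.le, h3.le, ?_⟩
          simp; linarith
      have hy : (⟨t, y'⟩ : ℂ) ∈ X ∩ Sec m :=
        seg_mem hKc (by rw [hQe]; exact hQX) (by rw [hPe]; exact hPX) hy1 hy2
      have hv := vert_smul hm hr hy3
      have hsum : (⟨r * rho m + t, y⟩ : ℂ) = (⟨t, y'⟩ : ℂ) + ⟨r * rho m, y - y'⟩ := by
        apply Complex.ext
        · simp; ring
        · simp
      change (⟨r * rho m + t, y⟩ : ℂ) ∈ (X + r • Rgon m 0) ∩ Sec m
      rw [hsum]
      exact ⟨Set.add_mem_add hy.1 hv.1, sec_add hm hy.2 hv.2⟩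
  rw [e1, e2, Real.volume_Icc, Real.volume_Icc, ← ENNReal.ofReal_add (by linarith) hr.le]
  congr 1
  ring

end Geo

end Vale.Agent.P227.Rot
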