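import Vale.Agent.P227.Rot.Sums

open MeasureTheory Set
open scoped Pointwise ENNReal

namespace Vale.Agent.P227.Rot

section kernelF

lemma f_pim {m : ℕ} (hm : 3 ≤ m) : 0 < Real.pi / m ∧ Real.pi / m ≤ Real.pi / 3 := by
  have h3 : (3 : ℝ) ≤ m := by exact_mod_cast hm
  refine ⟨by positivity, ?_⟩
  exact div_le_div_of_nonneg_left Real.pi_pos.le (by norm_num) h3

lemma f_sin {m : ℕ} (hm : 3 ≤ m) : 0 < Real.sin (Real.pi / m) := by
  obtain ⟨h1, h2⟩ := f_pim hm
  refine Real.sin_pos_of_pos_of_lt_pi h1 ?_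
  linarith [Real.pi_pos]

lemma f_cos {m : ℕ} (hm : 3 ≤ m) : 0 < Real.cos (Real.pi / m) := by
  obtain ⟨h1, h2⟩ := f_pim hm
  refine Real.cos_pos_of_mem_Ioo ⟨?_, ?_⟩ <;> linarith [Real.pi_pos]

lemma f_kap_pos {m : ℕ} (hm : 3 ≤ m) (d : ℝ) : 0 < kap m d := by
  unfold kap
  exact div_pos ((f_cos hm).trans_le (cos_le_cc hm d)) (by have := f_sin hm; positivity)

lemma f_kap_neg {m : ℕ} (hm : 3 ≤ m) (d : ℝ) : kap m (-d) = kap m d := by
  unfold kap
  rw [cc_neg m hm]

lemma f_kap_per {m : ℕ} (hm : 3 ≤ m) (d : ℝ) (j : ℕ) :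
    kap m (d + 2 * Real.pi * j / m) = kap m d := by
  have h3 : (0 : ℝ) < m := by
    have : (3 : ℝ) ≤ m := by exact_mod_cast hm
    linarith
  have hp : (0 : ℝ) < 2 * Real.pi / m := by positivity
  have h1 : (d + 2 * Real.pi * j / m) / (2 * Real.pi / m) = d / (2 * Real.pi / m) + (j : ℝ) := by
    field_simp
  have h2 : dst m (d + 2 * Real.pi * j / m) = dst m d := by
    unfold dst
    rw [h1, round_add_natCast]
    congr 1
    push_cast
    ring
  unfold kap cc
  rw [h2]

end kernelF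

section formF

variable {ι : Type} [Fintype ι]

lemma f_BB_HH {m : ℕ} (hm : 3 ≤ m) (θ x y : ι → ℝ) :
    BB m θ x y = ∑ i, x i * HH m θ y (θ i) := by
  unfold BB HH
  refine Finset.sum_congr rfl fun i _ => ?_
  rw [Finset.mul_sum]
  exact Finset.sum_congr rfl fun k _ => by ring

lemma f_BB_comm {m : ℕ} (hm : 3 ≤ m) (θ x y : ι → ℝ) : BB m θ x y = BB m θ y x := by
  unfold BB
  rw [Finset.sum_comm]
  refine Finset.sum_congr rfl fun i _ => Finset.sum_congr rfl fun k _ => ?_
  rw [← f_kap_neg hm, neg_sub]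
  ring

lemma f_BB_add (m : ℕ) (θ x y z : ι → ℝ) (a b : ℝ) :
    BB m θ (fun i => a * x i + b * y i) z = a * BB m θ x z + b * BB m θ y z := by
  unfold BB
  simp only [Finset.mul_sum, ← Finset.sum_add_distrib]
  exact Finset.sum_congr rfl fun i _ => Finset.sum_congr rfl fun k _ => by ring

lemma f_BB_cont (m : ℕ) (θ : ι → ℝ) : Continuous fun x : ι → ℝ => BB m θ x x := by
  unfold BB
  fun_prop

lemma f_BB_pos {m : ℕ} (hm : 3 ≤ m) (θ : ι → ℝ) {x : ι → ℝ} (hx : ∀ i, 0 ≤ x i)
    (h0 : ∃ i, 0 < x i) : 0 < BB m θ x x := by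
  obtain ⟨i, hi⟩ := h0
  unfold BB
  refine Finset.sum_pos' (fun i _ => Finset.sum_nonneg fun k _ => ?_) ⟨i, Finset.mem_univ i, ?_⟩
  · exact mul_nonneg (mul_nonneg (hx _) (hx _)) (f_kap_pos hm _).le
  · refine Finset.sum_pos' (fun k _ => ?_) ⟨i, Finset.mem_univ i, ?_⟩
    · exact mul_nonneg (mul_nonneg (hx _) (hx _)) (f_kap_pos hm _).le
    · exact mul_pos (mul_pos hi hi) (f_kap_pos hm _)

/-- the maximiser -/
lemma f_max [Nonempty ι] {m : ℕ} (hm : 3 ≤ m) (θ : ι → ℝ) {H : ι → ℝ} (hH : ∀ i, 0 < H i) :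
    ∃ l : ι → ℝ, (∀ i, 0 ≤ l i) ∧ (∃ i, 0 < l i) ∧ (∀ i, HH m θ l (θ i) ≤ H i) ∧
      (∀ i, 0 < l i → HH m θ l (θ i) = H i) ∧ BB m θ l l = ∑ i, l i * H i := by
  classical
  set S : Set (ι → ℝ) := {l | (∀ i, 0 ≤ l i) ∧ ∑ i, l i * H i = 1} with hS
  have hclosed : IsClosed S := by
    have h1 : IsClosed {l : ι → ℝ | ∀ i, 0 ≤ l i} := by
      simp only [Set.setOf_forall]
      exact isClosed_iInter fun i => isClosed_le continuous_const (continuous_apply i)
    have h2 : IsClosed {l : ι → ℝ | ∑ i, l i * H i = 1} :=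
      isClosed_eq (by fun_prop) continuous_const
    exact h1.inter h2
  have hbd : S ⊆ Set.pi Set.univ fun i => Set.Icc 0 (1 / H i) := by
    intro l hl i _
    refine ⟨hl.1 i, ?_⟩
    rw [le_div_iff₀ (hH i), ← hl.2]
    exact Finset.single_le_sum (f := fun i => l i * H i)
      (fun i _ => mul_nonneg (hl.1 i) (hH i).le) (Finset.mem_univ i)
  have hcomp : IsCompact S :=
    (isCompact_univ_pi fun i => isCompact_Icc).of_isClosed_subset hclosed hbd
  have hek : ∀ k, (fun i => if i = k then 1 / H k else 0) ∈ S := by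
    intro k
    refine ⟨fun i => ?_, ?_⟩
    · simp only
      split_ifs
      · exact (one_div_pos.2 (hH k)).le
      · exact le_rfl
    · simp only [ite_mul, zero_mul, Finset.sum_ite_eq', Finset.mem_univ, if_true]
      rw [one_div, inv_mul_cancel₀ (hH k).ne']
  obtain ⟨k0⟩ := (inferInstance : Nonempty ι)
  obtain ⟨l, hl, hmax⟩ := hcomp.exists_isMaxOn ⟨_, hek k0⟩ (f_BB_cont m θ).continuousOn
  have hl0 : ∃ i, 0 < l i := by
    by_contra hcon
    push Not at hcon
    have h1 : ∑ i, l i * H i = 0 := Finset.sum_eq_zero fun i _ => by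
      rw [le_antisymm (hcon i) (hl.1 i), zero_mul]
    have := hl.2
    rw [h1] at this
    exact zero_ne_one this
  have hM : 0 < BB m θ l l := f_BB_pos hm θ hl.1 hl0
  -- first order condition
  have hfoc : ∀ k, HH m θ l (θ k) ≤ BB m θ l l * H k := by
    intro k
    set e : ι → ℝ := fun i => if i = k then 1 / H k else 0 with he
    have h1 : BB m θ e l = HH m θ l (θ k) / H k := by
      rw [f_BB_HH hm, he]
      simp only [ite_mul, zero_mul, Finset.sum_ite_eq', Finset.mem_univ, if_true]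
      ring
    have h2 : ∀ s : ℝ, 0 < s → s ≤ 1 →
        2 * BB m θ e l - 2 * BB m θ l l ≤
          s * (2 * BB m θ e l - BB m θ l l - BB m θ e e) := by
      intro s hs hs1
      have h3 : (fun i => (1 - s) * l i + s * e i) ∈ S := by
        refine ⟨fun i => ?_, ?_⟩
        · have := hl.1 i
          have := (hek k).1 i
          have h5 : 0 ≤ 1 - s := by linarith
          simp only at this ⊢
          positivity
        · have h4 : ∑ i, ((1 - s) * l i + s * e i) * H i =
              (1 - s) * ∑ i, l i * H i + s * ∑ i, e i * H i := by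
            rw [Finset.mul_sum, Finset.mul_sum, ← Finset.sum_add_distrib]
            exact Finset.sum_congr rfl fun i _ => by ring
          rw [h4, hl.2, (hek k).2]
          ring
      have h6 : BB m θ (fun i => (1 - s) * l i + s * e i) (fun i => (1 - s) * l i + s * e i) ≤
          BB m θ l l := hmax h3
      rw [f_BB_add, f_BB_comm hm θ l, f_BB_comm hm θ e (fun i => (1 - s) * l i + s * e i),
        f_BB_add, f_BB_add, f_BB_comm hm θ l e] at h6
      have h7 : s * (2 * BB m θ e l - 2 * BB m θ l l) ≤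
          s * (s * (2 * BB m θ e l - BB m θ l l - BB m θ e e)) := by nlinarith
      exact le_of_mul_le_mul_left h7 hs
    have h3 : 2 * BB m θ e l - 2 * BB m θ l l ≤ 0 := by
      by_contra hcon
      push Not at hcon
      set c := 2 * BB m θ e l - 2 * BB m θ l l with hc
      set C := 2 * BB m θ e l - BB m θ l l - BB m θ e e with hC
      have hC0 : 0 < C := by
        have := h2 1 one_pos le_rfl
        linarith
      have h4 := h2 (min 1 (c / (2 * C))) (lt_min one_pos (by positivity)) (min_le_left _ _)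
      have h5 : min 1 (c / (2 * C)) * C ≤ c / (2 * C) * C :=
        mul_le_mul_of_nonneg_right (min_le_right _ _) hC0.le
      have h6 : c / (2 * C) * C = c / 2 := by field_simp
      linarith
    rw [h1] at h3
    have h4 : HH m θ l (θ k) / H k ≤ BB m θ l l := by linarith
    rwa [div_le_iff₀ (hH k)] at h4
  have hsum : ∑ k, l k * (BB m θ l l * H k - HH m θ l (θ k)) = 0 := by
    have h1 : ∑ k, l k * (BB m θ l l * H k - HH m θ l (θ k)) =
        BB m θ l l * ∑ k, l k * H k - ∑ k, l k * HH m θ l (θ k) := by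
      rw [Finset.mul_sum, ← Finset.sum_sub_distrib]
      exact Finset.sum_congr rfl fun i _ => by ring
    rw [h1, hl.2, ← f_BB_HH hm]
    ring
  have heq : ∀ k, 0 < l k → HH m θ l (θ k) = BB m θ l l * H k := by
    intro k hk
    have h1 := (Finset.sum_eq_zero_iff_of_nonneg fun k _ => mul_nonneg (hl.1 k)
      (sub_nonneg.2 (hfoc k))).1 hsum k (Finset.mem_univ k)
    rcases mul_eq_zero.1 h1 with h2 | h2
    · exact absurd h2 hk.ne'
    · linarith
  have hHH : ∀ a, HH m θ (fun i => l i / BB m θ l l) a = HH m θ l a / BB m θ l l := by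
    intro a
    unfold HH
    rw [Finset.sum_div]
    exact Finset.sum_congr rfl fun i _ => by ring
  refine ⟨fun i => l i / BB m θ l l, fun i => div_nonneg (hl.1 i) hM.le, ?_, ?_, ?_, ?_⟩
  · obtain ⟨i, hi⟩ := hl0
    exact ⟨i, div_pos hi hM⟩
  · intro i
    rw [hHH, div_le_iff₀ hM, mul_comm]
    exact hfoc i
  · intro i hi
    have hi' : 0 < l i := by
      by_contra hcon
      have : l i / BB m θ l l ≤ 0 := div_nonpos_of_nonpos_of_nonneg (by linarith) hM.le
      linarith
    rw [hHH, heq i hi', mul_div_cancel_left₀ _ hM.ne']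
  · have h1 : ∑ i, l i / BB m θ l l * H i = 1 / BB m θ l l := by
      rw [← hl.2, Finset.sum_div]
      exact Finset.sum_congr rfl fun i _ => by ring
    rw [h1, f_BB_HH hm]
    have h2 : ∑ i, l i / BB m θ l l * HH m θ (fun i => l i / BB m θ l l) (θ i) =
        (∑ i, l i * HH m θ l (θ i)) / BB m θ l l ^ 2 := by
      rw [Finset.sum_div]
      refine Finset.sum_congr rfl fun i _ => ?_
      rw [hHH]
      field_simp
    rw [h2, ← f_BB_HH hm]
    field_simp

end formF

section wulffF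

lemma f_ex_add (a b : ℝ) : ex (a + b) = ex a * ex b := by
  unfold ex
  rw [← Complex.exp_add]
  congr 1
  push_cast
  ring

lemma f_ex_zero : ex 0 = 1 := by
  unfold ex
  simp

lemma f_norm_ex (a : ℝ) : ‖ex a‖ = 1 := by
  unfold ex
  exact Complex.norm_exp_ofReal_mul_I a

lemma f_ex_two_pi (a : ℝ) : ex (a - 2 * Real.pi) = ex a := by
  unfold ex
  push_cast
  rw [sub_mul, Complex.exp_sub, Complex.exp_two_pi_mul_I, div_one]

variable {ι : Type}

lemma f_FF_closed (m : ℕ) (θ H : ι → ℝ) : IsClosed (FF m θ H) := by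
  unfold FF
  simp only [Set.setOf_forall]
  refine isClosed_iInter fun i => isClosed_iInter fun j => isClosed_le ?_ continuous_const
  fun_prop

lemma f_FF_convex (m : ℕ) (θ H : ι → ℝ) : Convex ℝ (FF m θ H) := by
  intro x hx y hy a b ha hb hab i j
  have h1 := hx i j
  have h2 := hy i j
  have h3 : (ex (-(θ i + 2 * Real.pi * j / m)) * (a • x + b • y)).re =
      a * (ex (-(θ i + 2 * Real.pi * j / m)) * x).re +
      b * (ex (-(θ i + 2 * Real.pi * j / m)) * y).re := by
    rw [mul_add, mul_smul_comm, mul_smul_comm, Complex.add_re, Complex.smul_re, Complex.smul_re,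
      smul_eq_mul, smul_eq_mul]
  show (ex (-(θ i + 2 * Real.pi * j / m)) * (a • x + b • y)).re ≤ H i
  rw [h3]
  have h4 := mul_le_mul_of_nonneg_left h1 ha
  have h5 := mul_le_mul_of_nonneg_left h2 hb
  have h6 : a * H i + b * H i = H i := by rw [← add_mul, hab, one_mul]
  linarith

lemma f_FF_rot {m : ℕ} (hm : 3 ≤ m) (θ H : ι → ℝ) (y : ℂ) (hy : y ∈ FF m θ H) :
    ex (2 * Real.pi / m) * y ∈ FF m θ H := by
  have h3 : (0 : ℝ) < m := by
    have : (3 : ℝ) ≤ m := by exact_mod_cast hm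
    linarith
  intro i j
  rw [← mul_assoc, ← f_ex_add]
  rcases j with _ | j
  · have h1 := hy i (m - 1)
    have h2 : -(θ i + 2 * Real.pi * ((0 : ℕ) : ℝ) / m) + 2 * Real.pi / m =
        -(θ i + 2 * Real.pi * ((m - 1 : ℕ) : ℝ) / m) + 2 * Real.pi := by
      rw [Nat.cast_sub (by omega)]
      push_cast
      field_simp
      ring
    rw [h2]
    have h4 := f_ex_two_pi (-(θ i + 2 * Real.pi * ((m - 1 : ℕ) : ℝ) / m) + 2 * Real.pi)
    rw [add_sub_cancel_right] at h4
    rw [← h4]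
    exact h1
  · have h1 := hy i j
    have h2 : -(θ i + 2 * Real.pi * ((j + 1 : ℕ) : ℝ) / m) + 2 * Real.pi / m =
        -(θ i + 2 * Real.pi * (j : ℝ) / m) := by
      push_cast
      field_simp
      ring
    rw [h2]
    exact h1

lemma f_FF_sub [Nonempty ι] {m : ℕ} (hm : 3 ≤ m) (θ : ι → ℝ) {H : ι → ℝ} (hH : ∀ i, 0 < H i) :
    ∃ (r a : ℝ), FF m θ H ⊆ r • Rgon m a := by
  obtain ⟨i⟩ := (inferInstance : Nonempty ι)
  have ht : 0 < Real.tan (Real.pi / m) := by
    rw [Real.tan_eq_sin_div_cos]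
    exact div_pos (f_sin hm) (f_cos hm)
  have hr : 0 < 2 * Real.tan (Real.pi / m) * H i := by
    have := hH i
    positivity
  refine ⟨2 * Real.tan (Real.pi / m) * H i, θ i, fun y hy => ?_⟩
  rw [Set.mem_smul_set_iff_inv_smul_mem₀ hr.ne']
  intro j
  have h1 := hy i j
  rw [mul_smul_comm, Complex.smul_re, smul_eq_mul, inv_mul_le_iff₀ hr]
  have h2 : 2 * Real.tan (Real.pi / m) * H i * (1 / (2 * Real.tan (Real.pi / m))) = H i := by
    field_simp
  rwa [h2]

lemma f_ball [Finite ι] [Nonempty ι] (m : ℕ) (θ : ι → ℝ) {H : ι → ℝ} (hH : ∀ i, 0 < H i) :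
    ∃ r > 0, Metric.ball (0 : ℂ) r ⊆ FF m θ H := by
  obtain ⟨i0, hi0⟩ := Finite.exists_min H
  refine ⟨H i0, hH i0, fun y hy i j => ?_⟩
  rw [mem_ball_zero_iff] at hy
  refine (Complex.re_le_norm _).trans ?_
  rw [norm_mul, f_norm_ex, one_mul]
  exact hy.le.trans (hi0 i)

lemma f_FF_body [Finite ι] [Nonempty ι] {m : ℕ} (hm : 3 ≤ m) (θ : ι → ℝ) {H : ι → ℝ}
    (hH : ∀ i, 0 < H i) : CmBody m (FF m θ H) where
  convex := f_FF_convex m θ H
  isCompact := by
    obtain ⟨r, a, hra⟩ := f_FF_sub hm θ hH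
    exact ((Rgon_body hm a).isCompact.smul r).of_isClosed_subset (f_FF_closed m θ H) hra
  nonempty := by
    obtain ⟨r, hr, hr'⟩ := f_ball m θ hH
    exact ⟨0, hr' (Metric.mem_ball_self hr)⟩
  rot := f_FF_rot hm θ H

/-- (P6) -/
theorem wulff_exists [Fintype ι] [Nonempty ι] {m : ℕ} (hm : 3 ≤ m) (θ : ι → ℝ) {H : ι → ℝ}
    (hH : ∀ i, 0 < H i) :
    ∃ l : ι → ℝ, (∀ i, 0 ≤ l i) ∧ (∃ i, 0 < l i) ∧ (∀ i, HH m θ l (θ i) ≤ H i) ∧
      (∀ i, 0 < l i → HH m θ l (θ i) = H i) ∧ area (FF m θ H) = m / 2 * BB m θ l l ∧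
      (∀ l' : ι → ℝ, (∀ i, 0 ≤ l' i) → (∀ i, HH m θ l' (θ i) ≤ H i) →
        BB m θ l' l' ≤ BB m θ l l) ∧ FF m θ H = QQ m θ l := by
  obtain ⟨l, hl, hl0, h1, h2, h3⟩ := f_max hm θ hH
  have hB : 0 < BB m θ l l := f_BB_pos hm θ hl hl0
  have hm0 : (0 : ℝ) < m := by
    have : (3 : ℝ) ≤ m := by exact_mod_cast hm
    linarith
  have hmB : 0 < m / 2 * BB m θ l l := by positivity
  have hbody := f_FF_body hm θ hH
  obtain ⟨ρ, hρ, hball⟩ := f_ball m θ hH
  have h0F : (0 : ℂ) ∈ FF m θ H := hball (Metric.mem_ball_self hρ)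
  have hsup_le : ∀ i, hsup (FF m θ H) (θ i) ≤ H i := by
    intro i
    unfold hsup
    refine csSup_le (hbody.nonempty.image _) ?_
    rintro _ ⟨y, hy, rfl⟩
    have := hy i 0
    simpa using this
  have hsup_bdd : ∀ a, BddAbove ((fun y : ℂ => (ex (-a) * y).re) '' FF m θ H) := fun a =>
    (hbody.isCompact.image (by fun_prop)).bddAbove
  have hsup_nn : ∀ i, 0 ≤ hsup (FF m θ H) (θ i) := by
    intro i
    unfold hsup
    exact le_csSup (hsup_bdd _) ⟨0, h0F, by simp⟩
  have hle : area (FF m θ H) ≤ m / 2 * BB m θ l l := by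
    have h4 := mink_X hm hbody θ hl
    have h5 : ∑ i, l i * hsup (FF m θ H) (θ i) ≤ ∑ i, l i * H i :=
      Finset.sum_le_sum fun i _ => mul_le_mul_of_nonneg_left (hsup_le i) (hl i)
    rw [← h3] at h5
    have h6 : 0 ≤ ∑ i, l i * hsup (FF m θ H) (θ i) :=
      Finset.sum_nonneg fun i _ => mul_nonneg (hl i) (hsup_nn i)
    have h7 : (m / 2 * ∑ i, l i * hsup (FF m θ H) (θ i)) ^ 2 ≤ (m / 2 * BB m θ l l) ^ 2 := by
      refine pow_le_pow_left₀ (by positivity) ?_ 2
      exact mul_le_mul_of_nonneg_left h5 (by positivity)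
    have h8 : area (FF m θ H) * (m / 2 * BB m θ l l) ≤
        (m / 2 * BB m θ l l) * (m / 2 * BB m θ l l) := by
      rw [← sq (m / 2 * BB m θ l l)]
      exact h4.trans h7
    exact le_of_mul_le_mul_right h8 hmB
  have hQbody := QQ_body hm θ l
  have hsub : QQ m θ l ⊆ FF m θ H := by
    intro y hy i j
    have h4 : (ex (-(θ i + 2 * Real.pi * j / m)) * y).re ≤
        hsup (QQ m θ l) (θ i + 2 * Real.pi * j / m) := by
      unfold hsup
      exact le_csSup (hQbody.isCompact.image (by fun_prop)).bddAbove ⟨y, hy, rfl⟩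
    rw [hsup_QQ hm θ hl] at h4
    have h5 : HH m θ l (θ i + 2 * Real.pi * j / m) = HH m θ l (θ i) := by
      unfold HH
      refine Finset.sum_congr rfl fun k _ => ?_
      rw [show θ i + 2 * Real.pi * j / m - θ k = θ i - θ k + 2 * Real.pi * j / m by ring,
        f_kap_per hm]
    rw [h5] at h4
    exact h4.trans (h1 i)
  have hfinF : volume (FF m θ H) ≠ ⊤ := hbody.isCompact.measure_lt_top.ne
  have hfinQ : volume (QQ m θ l) ≠ ⊤ := hQbody.isCompact.measure_lt_top.ne
  have haQ := area_QQ hm θ hl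
  have hge : area (QQ m θ l) ≤ area (FF m θ H) :=
    ENNReal.toReal_mono hfinF (measure_mono hsub)
  have harea : area (FF m θ H) = m / 2 * BB m θ l l := le_antisymm hle (haQ ▸ hge)
  refine ⟨l, hl, hl0, h1, h2, harea, ?_, ?_⟩
  · intro l' hl' h4
    have h5 := mink_BB hm θ hl hl'
    have h6 : BB m θ l l' ≤ BB m θ l l := by
      rw [f_BB_HH hm θ l l', h3]
      exact Finset.sum_le_sum fun i _ => mul_le_mul_of_nonneg_left (h4 i) (hl i)
    have h7 : 0 ≤ BB m θ l l' := by
      unfold BB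
      exact Finset.sum_nonneg fun i _ => Finset.sum_nonneg fun k _ =>
        mul_nonneg (mul_nonneg (hl _) (hl' _)) (f_kap_pos hm _).le
    have h8 : BB m θ l l * BB m θ l' l' ≤ BB m θ l l * BB m θ l l := by
      rw [← sq (BB m θ l l)]
      exact h5.trans (pow_le_pow_left₀ h7 h6 2)
    exact le_of_mul_le_mul_left h8 hB
  · refine Set.Subset.antisymm ?_ hsub
    intro y hy
    by_contra hyQ
    have hint : (interior (FF m θ H)).Nonempty :=
      ⟨0, mem_interior.2 ⟨_, hball, Metric.isOpen_ball, Metric.mem_ball_self hρ⟩⟩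
    have hcl : y ∈ closure (interior (FF m θ H)) := by
      rw [(f_FF_convex m θ H).closure_interior_eq_closure_of_nonempty_interior hint]
      exact subset_closure hy
    have hopen : IsOpen (QQ m θ l)ᶜ := hQbody.isCompact.isClosed.isOpen_compl
    obtain ⟨z, hz1, hz2⟩ := mem_closure_iff.1 hcl _ hopen hyQ
    have hU : IsOpen ((QQ m θ l)ᶜ ∩ interior (FF m θ H)) := hopen.inter isOpen_interior
    have hpos : 0 < volume ((QQ m θ l)ᶜ ∩ interior (FF m θ H)) :=
      hU.measure_pos volume ⟨z, hz1, hz2⟩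
    have hzero : volume (FF m θ H \ QQ m θ l) = 0 := by
      rw [measure_diff hsub hQbody.isCompact.measurableSet.nullMeasurableSet hfinQ]
      have h4 : volume (FF m θ H) = volume (QQ m θ l) := by
        rw [← ENNReal.toReal_eq_toReal_iff' hfinF hfinQ]
        exact harea.trans haQ.symm
      rw [h4, tsub_self]
    have hle2 : volume ((QQ m θ l)ᶜ ∩ interior (FF m θ H)) ≤ volume (FF m θ H \ QQ m θ l) :=
      measure_mono fun w hw => ⟨interior_subset hw.2, hw.1⟩
    rw [hzero] at hle2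
    exact absurd hpos (not_lt.2 hle2)

end wulffF

end Vale.Agent.P227.Rot
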