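import Vale.Agent.P227.Rot.StripsA
import Vale.Agent.P227.Rot.Alg
import Vale.Agent.P227.Rot.Wulff

open MeasureTheory Set
open scoped Pointwise ENNReal

namespace Vale.Agent.P227.Rot

/-! G: concavity of the area of systems of strips -/

section

variable {ι : Type} [Fintype ι]

theorem xg_BB_HH (m : ℕ) (θ l : ι → ℝ) : BB m θ l l = ∑ i, l i * HH m θ l (θ i) := by
  unfold BB HH
  refine Finset.sum_congr rfl fun i _ => ?_
  rw [Finset.mul_sum]
  exact Finset.sum_congr rfl fun k _ => by ring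

theorem xg_HH_pos {m : ℕ} (hm : 3 ≤ m) (θ : ι → ℝ) {l : ι → ℝ} (hl : ∀ i, 0 ≤ l i)
    (hl0 : ∃ i, 0 < l i) (a : ℝ) : 0 < HH m θ l a := by
  obtain ⟨k, hk⟩ := hl0
  exact Finset.sum_pos' (fun i _ => mul_nonneg (hl i) (kap_pos hm _).le)
    ⟨k, Finset.mem_univ _, mul_pos hk (kap_pos hm _)⟩

theorem xg_BB_pos {m : ℕ} (hm : 3 ≤ m) (θ : ι → ℝ) {l : ι → ℝ} (hl : ∀ i, 0 ≤ l i)
    (hl0 : ∃ i, 0 < l i) : 0 < BB m θ l l := by
  rw [xg_BB_HH]
  obtain ⟨k, hk⟩ := hl0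
  exact Finset.sum_pos' (fun i _ => mul_nonneg (hl i) (xg_HH_pos hm θ hl ⟨k, hk⟩ _).le)
    ⟨k, Finset.mem_univ _, mul_pos hk (xg_HH_pos hm θ hl ⟨k, hk⟩ _)⟩

theorem xg_HH_period {m : ℕ} (hm : 3 ≤ m) (θ l : ι → ℝ) (a : ℝ) :
    HH m θ l (a + Real.pi + Real.pi) = HH m θ l a := by
  unfold HH
  refine Finset.sum_congr rfl fun i _ => ?_
  have : a + Real.pi + Real.pi - θ i = a - θ i + 2 * Real.pi := by ring
  rw [this, kap_add_two_pi hm]

/-- Monotonicity of the support values. -/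
theorem xg_scale {m : ℕ} (hm : 3 ≤ m) (θ : ι → ℝ) {l l' H H' : ι → ℝ} (hl : ∀ i, 0 ≤ l i)
    (hl' : ∀ i, 0 ≤ l' i) (h : FF m θ H = QQ m θ l) (h' : FF m θ H' = QQ m θ l') {s : ℝ}
    (hs : 0 < s) (hH : ∀ i, s * H i ≤ H' i) (a : ℝ) : s * HH m θ l a ≤ HH m θ l' a := by
  rw [← hsup_QQ hm θ hl, ← hsup_QQ hm θ hl', mul_comm, ← le_div_iff₀ hs]
  have hb := QQ_body hm θ l
  have hb' := QQ_body hm θ l'
  unfold hsup
  refine csSup_le (hb.nonempty.image _) ?_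
  rintro _ ⟨y, hy, rfl⟩
  simp only
  rw [le_div_iff₀ hs]
  have hy' : (s : ℂ) * y ∈ QQ m θ l' := by
    rw [← h] at hy
    rw [← h']
    intro i j
    have h1 := hy i j
    have h2 : (ex (-(θ i + 2 * Real.pi * j / m)) * ((s : ℂ) * y)).re =
        s * (ex (-(θ i + 2 * Real.pi * j / m)) * y).re := by
      rw [mul_left_comm, Complex.re_ofReal_mul]
    rw [h2]
    exact (mul_le_mul_of_nonneg_left h1 hs.le).trans (hH i)
  have hbdd : BddAbove ((fun y : ℂ => (ex (-a) * y).re) '' QQ m θ l') :=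
    (hb'.isCompact.image (by fun_prop)).bddAbove
  have h3 : (ex (-a) * ((s : ℂ) * y)).re ≤ sSup ((fun y : ℂ => (ex (-a) * y).re) '' QQ m θ l') :=
    le_csSup hbdd ⟨_, hy', rfl⟩
  rw [mul_left_comm, Complex.re_ofReal_mul] at h3
  linarith

end

section

variable {κ : Type}

/-- The half widths. -/
noncomputable def xgr (r₀ r₁ : κ → ℝ) (t : ℝ) (i : κ) : ℝ := r₀ i ^ (1 - t) * r₁ i ^ t

theorem xgr_pos {r₀ r₁ : κ → ℝ} (h0 : ∀ i, 0 < r₀ i) (h1 : ∀ i, 0 < r₁ i) (t : ℝ) (i : κ) :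
    0 < xgr r₀ r₁ t i := mul_pos (Real.rpow_pos_of_pos (h0 i) _) (Real.rpow_pos_of_pos (h1 i) _)

theorem xgr_exp {r₀ r₁ : κ → ℝ} (h0 : ∀ i, 0 < r₀ i) (h1 : ∀ i, 0 < r₁ i) (t t' : ℝ) (i : κ) :
    xgr r₀ r₁ t' i = xgr r₀ r₁ t i *
      Real.exp ((t' - t) * (Real.log (r₁ i) - Real.log (r₀ i))) := by
  unfold xgr
  rw [Real.rpow_def_of_pos (h0 i), Real.rpow_def_of_pos (h1 i), Real.rpow_def_of_pos (h0 i),
    Real.rpow_def_of_pos (h1 i), ← Real.exp_add, ← Real.exp_add, ← Real.exp_add]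
  congr 1
  ring

theorem xgr_ge {r₀ r₁ : κ → ℝ} {i : κ} {b : ℝ} (hb : 0 ≤ b) (h0 : b ≤ r₀ i) (h1 : b ≤ r₁ i)
    (hb0 : 0 < b) {t : ℝ} (ht0 : 0 ≤ t) (ht1 : t ≤ 1) : b ≤ xgr r₀ r₁ t i := by
  have e : b = b ^ (1 - t) * b ^ t := by
    rw [← Real.rpow_add hb0]
    norm_num
  rw [e]
  unfold xgr
  exact mul_le_mul (Real.rpow_le_rpow hb h0 (by linarith)) (Real.rpow_le_rpow hb h1 ht0)
    (Real.rpow_nonneg hb _) (Real.rpow_nonneg (hb.trans h0) _)

/-- Normals. -/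
noncomputable def xgT (θ : κ → ℝ) : κ ⊕ κ → ℝ := Sum.elim θ fun i => θ i + Real.pi

/-- Support values. -/
noncomputable def xgH (c r : κ → ℝ) : κ ⊕ κ → ℝ :=
  Sum.elim (fun i => r i + c i) fun i => r i - c i

/-- The two copies. -/
def xgp (r : κ → ℝ) : κ ⊕ κ → ℝ := Sum.elim r r

/-- Sum of opposite support values. -/
theorem xg_width [Fintype κ] {m : ℕ} (hm : 3 ≤ m) (θ c r : κ → ℝ) {l : κ ⊕ κ → ℝ}
    (h : ∀ i, HH m (xgT θ) l (xgT θ i) ≤ xgH c r i) (i : κ ⊕ κ) :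
    HH m (xgT θ) l (xgT θ i) + HH m (xgT θ) l (xgT θ i + Real.pi) ≤ 2 * xgp r i := by
  rcases i with i | i
  · have h1 := h (Sum.inl i)
    have h2 := h (Sum.inr i)
    have e : xgT θ (Sum.inl i) + Real.pi = xgT θ (Sum.inr i) := rfl
    rw [e]
    simp only [xgH, xgp, Sum.elim_inl, Sum.elim_inr] at h1 h2 ⊢
    linarith
  · have h1 := h (Sum.inl i)
    have h2 := h (Sum.inr i)
    have e : HH m (xgT θ) l (xgT θ (Sum.inr i) + Real.pi) =
        HH m (xgT θ) l (xgT θ (Sum.inl i)) := xg_HH_period hm _ _ _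
    rw [e]
    simp only [xgH, xgp, Sum.elim_inl, Sum.elim_inr] at h1 h2 ⊢
    linarith

/-- The constants. -/
theorem xg_const [Fintype κ] [Nonempty κ] {c r₀ r₁ : κ → ℝ} (h0 : ∀ i, |c i| < r₀ i) (h1 : ∀ i, |c i| < r₁ i) :
    ∃ δ Φ : ℝ, 0 < δ ∧ δ ≤ 1 ∧ 0 < Φ ∧ (∀ i, |Real.log (r₁ i) - Real.log (r₀ i)| ≤ Φ) ∧
      ∀ t, 0 ≤ t → t ≤ 1 → ∀ i, |c i| ≤ (1 - δ) * xgr r₀ r₁ t i := by
  classical
  -- the minimum of the two half widths
  have p0 : ∀ i, 0 < r₀ i := fun i => (abs_nonneg _).trans_lt (h0 i)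
  have p1 : ∀ i, 0 < r₁ i := fun i => (abs_nonneg _).trans_lt (h1 i)
  have pm : ∀ i, 0 < min (r₀ i) (r₁ i) := fun i => lt_min (p0 i) (p1 i)
  obtain ⟨i0, -, hi0⟩ := Finset.exists_min_image (Finset.univ : Finset κ)
    (fun i => 1 - |c i| / min (r₀ i) (r₁ i)) Finset.univ_nonempty
  obtain ⟨i1, -, hi1⟩ := Finset.exists_max_image (Finset.univ : Finset κ)
    (fun i => |Real.log (r₁ i) - Real.log (r₀ i)|) Finset.univ_nonempty
  refine ⟨1 - |c i0| / min (r₀ i0) (r₁ i0), |Real.log (r₁ i1) - Real.log (r₀ i1)| + 1, ?_, ?_, ?_,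
    fun i => ?_, fun t ht0 ht1 i => ?_⟩
  · have : |c i0| / min (r₀ i0) (r₁ i0) < 1 := by
      rw [div_lt_one (pm i0)]
      exact lt_min (h0 i0) (h1 i0)
    linarith
  · have : 0 ≤ |c i0| / min (r₀ i0) (r₁ i0) := div_nonneg (abs_nonneg _) (pm i0).le
    linarith
  · positivity
  · have := hi1 i (Finset.mem_univ _)
    linarith
  · have e1 := hi0 i (Finset.mem_univ _)
    have e2 : |c i| / min (r₀ i) (r₁ i) ≤ |c i0| / min (r₀ i0) (r₁ i0) := by linarith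
    have e3 : min (r₀ i) (r₁ i) ≤ xgr r₀ r₁ t i :=
      xgr_ge (pm i).le (min_le_left _ _) (min_le_right _ _) (pm i) ht0 ht1
    have e4 : |c i| = |c i| / min (r₀ i) (r₁ i) * min (r₀ i) (r₁ i) := by
      rw [div_mul_cancel₀ _ (pm i).ne']
    rw [e4, sub_sub_cancel]
    exact mul_le_mul e2 e3 (pm i).le (div_nonneg (abs_nonneg _) (pm i0).le)

/-- (P7) for the positive case. -/
theorem xg_main [Fintype κ] [Nonempty κ] {m : ℕ} (hm : 3 ≤ m) (ho : Odd m)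
    (θ c : κ → ℝ) {r₀ r₁ : κ → ℝ} (h0 : ∀ i, |c i| < r₀ i) (h1 : ∀ i, |c i| < r₁ i) {t : ℝ}
    (ht0 : 0 ≤ t) (ht1 : t ≤ 1) :
    ∃ N : ℝ → ℝ, (∀ t, 0 ≤ t → t ≤ 1 → 0 < N t ∧ area (SS m θ c (xgr r₀ r₁ t)) = m / 2 * N t) ∧
      (1 - t) * Real.log (N 0) + t * Real.log (N 1) ≤ Real.log (N t) := by
  obtain ⟨δ, Φ, hδ, hδ1, hΦ, hφ, hc⟩ := xg_const h0 h1
  have p0 : ∀ i, 0 < r₀ i := fun i => (abs_nonneg _).trans_lt (h0 i)
  have p1 : ∀ i, 0 < r₁ i := fun i => (abs_nonneg _).trans_lt (h1 i)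
  have hr : ∀ t i, 0 < xgp (xgr r₀ r₁ t) i := by
    rintro t (i | i)
    · exact xgr_pos p0 p1 t i
    · exact xgr_pos p0 p1 t i
  have hH1 : ∀ t, 0 ≤ t → t ≤ 1 → ∀ i, δ * xgp (xgr r₀ r₁ t) i ≤ xgH c (xgr r₀ r₁ t) i := by
    rintro t a b (i | i)
    · have := abs_le.1 (hc t a b i)
      simp only [xgp, xgH, Sum.elim_inl]
      linarith
    · have := abs_le.1 (hc t a b i)
      simp only [xgp, xgH, Sum.elim_inr]
      linarith
  have hH2 : ∀ t, 0 ≤ t → t ≤ 1 → ∀ i, xgH c (xgr r₀ r₁ t) i ≤ 2 * xgp (xgr r₀ r₁ t) i := by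
    rintro t a b (i | i)
    · have := abs_le.1 (hc t a b i)
      have h2 := mul_pos hδ (xgr_pos p0 p1 t i)
      simp only [xgp, xgH, Sum.elim_inl]
      linarith
    · have := abs_le.1 (hc t a b i)
      have h2 := mul_pos hδ (xgr_pos p0 p1 t i)
      simp only [xgp, xgH, Sum.elim_inr]
      linarith
  have hHpos : ∀ t, 0 ≤ t → t ≤ 1 → ∀ i, 0 < xgH c (xgr r₀ r₁ t) i := fun t a b i =>
    (mul_pos hδ (hr t i)).trans_le (hH1 t a b i)
  -- the Wulff shapes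
  have hw : ∀ t, ∃ l : κ ⊕ κ → ℝ, 0 ≤ t → t ≤ 1 → (∀ i, 0 ≤ l i) ∧ (∃ i, 0 < l i) ∧
      (∀ i, HH m (xgT θ) l (xgT θ i) ≤ xgH c (xgr r₀ r₁ t) i) ∧
      (∀ i, 0 < l i → HH m (xgT θ) l (xgT θ i) = xgH c (xgr r₀ r₁ t) i) ∧
      area (FF m (xgT θ) (xgH c (xgr r₀ r₁ t))) = m / 2 * BB m (xgT θ) l l ∧
      FF m (xgT θ) (xgH c (xgr r₀ r₁ t)) = QQ m (xgT θ) l := by
    intro t
    by_cases hh : 0 ≤ t ∧ t ≤ 1
    · obtain ⟨l, a1, a2, a3, a4, a5, -, a7⟩ := wulff_exists hm (xgT θ) (hHpos t hh.1 hh.2)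
      exact ⟨l, fun _ _ => ⟨a1, a2, a3, a4, a5, a7⟩⟩
    · exact ⟨0, fun a b => absurd ⟨a, b⟩ hh⟩
  choose l hl using hw
  set N : ℝ → ℝ := fun t => BB m (xgT θ) (l t) (l t) with hN
  have hNpos : ∀ t, 0 ≤ t → t ≤ 1 → 0 < N t := fun t a b =>
    xg_BB_pos hm _ (hl t a b).1 (hl t a b).2.1
  refine ⟨N, fun t a b => ⟨hNpos t a b, ?_⟩, ?_⟩
  · rw [SS_eq_FF]
    exact (hl t a b).2.2.2.2.1
  -- the sums
  have hsum : ∀ t, 0 ≤ t → t ≤ 1 → ∑ i, l t i * xgH c (xgr r₀ r₁ t) i = N t := by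
    intro t a b
    rw [hN]
    simp only
    rw [xg_BB_HH]
    refine Finset.sum_congr rfl fun i _ => ?_
    rcases ((hl t a b).1 i).eq_or_lt with e | e
    · rw [← e, zero_mul, zero_mul]
    · rw [(hl t a b).2.2.2.1 i e]
  set φ : κ ⊕ κ → ℝ := xgp fun i => Real.log (r₁ i) - Real.log (r₀ i) with hφd
  have hφ' : ∀ i, |φ i| ≤ Φ := by
    rintro (i | i)
    · exact hφ i
    · exact hφ i
  set K : ℝ := 2 * Φ / δ with hK
  have hKpos : 0 < K := by rw [hK]; positivity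
  set L : ℝ → ℝ := fun t => 2 / N t * ∑ i, l t i * xgp (xgr r₀ r₁ t) i * φ i with hL
  refine concave_of_cubic_loc (a := fun t => Real.log (N t)) (L := L) (M := K)
    (C := 58 * K ^ 3 + 3 * Φ ^ 3 / δ) (δ := 1 / (16 * K)) (by positivity) (fun t a b => ?_)
    (fun t t' a b a' b' hd => ?_) ht0 ht1
  · -- the bound of `L`
    have e1 : |∑ i, l t i * xgp (xgr r₀ r₁ t) i * φ i| ≤ Φ / δ * N t := by
      rw [← hsum t a b, Finset.mul_sum]
      refine (Finset.abs_sum_le_sum_abs _ _).trans (Finset.sum_le_sum fun i _ => ?_)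
      have hli := (hl t a b).1 i
      have hri := hr t i
      rw [abs_mul, abs_of_nonneg (mul_nonneg hli hri.le)]
      calc l t i * xgp (xgr r₀ r₁ t) i * |φ i| ≤ l t i * xgp (xgr r₀ r₁ t) i * Φ :=
            mul_le_mul_of_nonneg_left (hφ' i) (mul_nonneg hli hri.le)
        _ = Φ / δ * (l t i * (δ * xgp (xgr r₀ r₁ t) i)) := by field_simp
        _ ≤ Φ / δ * (l t i * xgH c (xgr r₀ r₁ t) i) :=
            mul_le_mul_of_nonneg_left (mul_le_mul_of_nonneg_left (hH1 t a b i) hli)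
              (by positivity)
    have hNt := hNpos t a b
    rw [hL]
    simp only
    rw [abs_mul, abs_of_pos (by positivity : 0 < 2 / N t)]
    calc 2 / N t * |∑ i, l t i * xgp (xgr r₀ r₁ t) i * φ i| ≤ 2 / N t * (Φ / δ * N t) :=
          mul_le_mul_of_nonneg_left e1 (by positivity)
      _ = K := by
          rw [hK]
          field_simp
  · -- one step
    have hNt := hNpos t a b
    have hd' : K * |t' - t| ≤ 1 / 16 := by
      rw [le_div_iff₀ (by positivity)] at hd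
      linarith
    have hexp : ∀ i, xgH c (xgr r₀ r₁ t') i - xgH c (xgr r₀ r₁ t) i =
        xgp (xgr r₀ r₁ t) i * (Real.exp ((t' - t) * φ i) - 1) := by
      rintro (i | i)
      · have := xgr_exp p0 p1 t t' i
        simp only [xgp, xgH, Sum.elim_inl, hφd]
        rw [this]
        ring
      · have := xgr_exp p0 p1 t t' i
        simp only [xgp, xgH, Sum.elim_inr, hφd]
        rw [this]
        ring
    have hs : 0 < 1 - K * |t' - t| := by linarith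
    have hsc : ∀ i, (1 - K * |t' - t|) * xgH c (xgr r₀ r₁ t) i ≤ xgH c (xgr r₀ r₁ t') i := by
      intro i
      have e1 := hexp i
      have e2 : |(t' - t) * φ i| ≤ Φ * |t' - t| := by
        rw [abs_mul, mul_comm]
        exact mul_le_mul_of_nonneg_right (hφ' i) (abs_nonneg _)
      have e3 : Φ * |t' - t| ≤ 1 / 32 := by
        have f1 : K * |t' - t| * δ = 2 * (Φ * |t' - t|) := by
          rw [hK]
          field_simp
        have f2 : K * |t' - t| * δ ≤ 1 / 16 * 1 := mul_le_mul hd' hδ1 hδ.le (by norm_num)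
        linarith
      have e4 := Real.abs_exp_sub_one_le (x := (t' - t) * φ i) (by linarith)
      have e5 : -(2 * (Φ * |t' - t|)) ≤ Real.exp ((t' - t) * φ i) - 1 := by
        have := (abs_le.1 e4).1
        linarith
      have hri := hr t i
      have e6 : -(K * |t' - t|) * xgH c (xgr r₀ r₁ t) i ≤
          xgp (xgr r₀ r₁ t) i * (Real.exp ((t' - t) * φ i) - 1) := by
        calc -(K * |t' - t|) * xgH c (xgr r₀ r₁ t) i
            ≤ -(K * |t' - t|) * (δ * xgp (xgr r₀ r₁ t) i) :=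
              mul_le_mul_of_nonpos_left (hH1 t a b i) (by
                have : 0 ≤ K * |t' - t| := by positivity
                linarith)
          _ = xgp (xgr r₀ r₁ t) i * (-(2 * (Φ * |t' - t|))) := by
              rw [hK]
              field_simp
          _ ≤ _ := mul_le_mul_of_nonneg_left e5 hri.le
      linarith
    have hstep := xg_step (N := N t) (N' := N t') (l := l t)
      (g := fun i => HH m (xgT θ) (l t') (xgT θ i) - HH m (xgT θ) (l t) (xgT θ i))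
      (r := xgp (xgr r₀ r₁ t)) (H := xgH c (xgr r₀ r₁ t)) (φ := φ) (d := t' - t) (K := K)
      (Φ := Φ) (δ := δ) hNt (hNpos t' a' b') (hl t a b).1 (hr t) (hsum t a b) (hH1 t a b)
      (hH2 t a b) hδ hδ1 hφ' hΦ.le hK hd' (fun i hi => ?_) (fun i hi => ?_) ?_
    · exact hstep
    · rw [← hexp i]
      have e1 := (hl t a b).2.2.2.1 i hi
      have e2 := (hl t' a' b').2.2.1 i
      linarith
    · have e1 := xg_scale hm (xgT θ) (hl t a b).1 (hl t' a' b').1 (hl t a b).2.2.2.2.2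
        (hl t' a' b').2.2.2.2.2 hs hsc (xgT θ i)
      have e2 := (hl t a b).2.2.1 i
      have e3 : 0 ≤ K * |t' - t| := by positivity
      nlinarith
    · exact p5 hm ho (xgT θ) (hl t a b).1 (hl t' a' b').1 (hl t a b).2.1 (hr t)
        (fun i _ => xg_width hm θ c (xgr r₀ r₁ t) (hl t a b).2.2.1 i) fun i => rfl

/-- (P7) -/
theorem planar_strips {κ : Type} [Fintype κ] [Nonempty κ] {m : ℕ} (hm : 3 ≤ m) (ho : Odd m)
    (θ c : κ → ℝ) {r₀ r₁ : κ → ℝ} (h0 : ∀ i, 0 < r₀ i) (h1 : ∀ i, 0 < r₁ i) {t : ℝ}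
    (ht0 : 0 < t) (ht1 : t < 1) :
    area (SS m θ c r₀) ^ (1 - t) * area (SS m θ c r₁) ^ t ≤
      area (SS m θ c fun i => r₀ i ^ (1 - t) * r₁ i ^ t) := by
  have hnn : 0 ≤ area (SS m θ c fun i => r₀ i ^ (1 - t) * r₁ i ^ t) := ENNReal.toReal_nonneg
  by_cases c0 : ∀ i, |c i| < r₀ i
  · by_cases c1 : ∀ i, |c i| < r₁ i
    · obtain ⟨N, hN, hlog⟩ := xg_main hm ho θ c c0 c1 ht0.le ht1.le
      obtain ⟨n0, a0⟩ := hN 0 le_rfl zero_le_one
      obtain ⟨n1, a1⟩ := hN 1 zero_le_one le_rfl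
      obtain ⟨nt, at'⟩ := hN t ht0.le ht1.le
      have e0 : xgr r₀ r₁ 0 = r₀ := by
        funext i
        simp [xgr]
      have e1 : xgr r₀ r₁ 1 = r₁ := by
        funext i
        simp [xgr]
      have e2 : (fun i => r₀ i ^ (1 - t) * r₁ i ^ t) = xgr r₀ r₁ t := rfl
      rw [e0] at a0
      rw [e1] at a1
      rw [e2, a0, a1, at']
      have hm0 : (0 : ℝ) < m / 2 := by
        have : (3 : ℝ) ≤ m := by exact_mod_cast hm
        linarith
      rw [Real.mul_rpow hm0.le n0.le, Real.mul_rpow hm0.le n1.le]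
      have e3 : ((m : ℝ) / 2) ^ (1 - t) * ((m : ℝ) / 2) ^ t = m / 2 := by
        rw [← Real.rpow_add hm0]
        norm_num
      have e4 : N 0 ^ (1 - t) * N 1 ^ t ≤ N t := by
        rw [Real.rpow_def_of_pos n0, Real.rpow_def_of_pos n1, ← Real.exp_add,
          ← Real.exp_log nt]
        refine Real.exp_le_exp.2 ?_
        linarith
      calc ((m : ℝ) / 2) ^ (1 - t) * N 0 ^ (1 - t) * (((m : ℝ) / 2) ^ t * N 1 ^ t) =
            (((m : ℝ) / 2) ^ (1 - t) * ((m : ℝ) / 2) ^ t) * (N 0 ^ (1 - t) * N 1 ^ t) := by ring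
        _ = m / 2 * (N 0 ^ (1 - t) * N 1 ^ t) := by rw [e3]
        _ ≤ m / 2 * N t := mul_le_mul_of_nonneg_left e4 hm0.le
    · push Not at c1
      obtain ⟨i, hi⟩ := c1
      rw [xg_area_zero hm hi, Real.zero_rpow ht0.ne', mul_zero]
      exact hnn
  · push Not at c0
    obtain ⟨i, hi⟩ := c0
    rw [xg_area_zero hm hi, Real.zero_rpow (by linarith), zero_mul]
    exact hnn

end

end Vale.Agent.P227.Rot
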