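import Vale.Agent.P227.Rot.Defs

open MeasureTheory Set
open scoped Pointwise ENNReal

namespace Vale.Agent.P227.Rot

/-! G: concavity, the part without Wulff shapes -/

/-- Local form of `concave_of_cubic`. -/
theorem concave_of_cubic_loc {a L : ℝ → ℝ} {M C δ : ℝ} (hδ : 0 < δ)
    (hL : ∀ t, 0 ≤ t → t ≤ 1 → |L t| ≤ M)
    (h : ∀ t t', 0 ≤ t → t ≤ 1 → 0 ≤ t' → t' ≤ 1 → |t' - t| ≤ δ →
      a t' ≤ a t + L t * (t' - t) + C * |t' - t| ^ 3) {t : ℝ} (h0 : 0 ≤ t) (h1 : t ≤ 1) :
    (1 - t) * a 0 + t * a 1 ≤ a t := by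
  by_contra hcon
  push Not at hcon
  have hM : 0 ≤ M := (abs_nonneg _).trans (hL 0 le_rfl zero_le_one)
  -- local Lipschitz bound
  have lip : ∀ x y, 0 ≤ x → x ≤ 1 → 0 ≤ y → y ≤ 1 → |y - x| ≤ δ →
      a y - a x ≤ (M + |C|) * |y - x| := by
    intro x y hx0 hx1 hy0 hy1 hxy
    have e1 := h x y hx0 hx1 hy0 hy1 hxy
    have e2 : L x * (y - x) ≤ M * |y - x| := by
      calc L x * (y - x) ≤ |L x * (y - x)| := le_abs_self _
        _ = |L x| * |y - x| := abs_mul _ _
        _ ≤ M * |y - x| := mul_le_mul_of_nonneg_right (hL x hx0 hx1) (abs_nonneg _)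
    have e3 : |y - x| ≤ 1 := by
      rw [abs_le]
      constructor <;> linarith
    have e4 : C * |y - x| ^ 3 ≤ |C| * |y - x| := by
      calc C * |y - x| ^ 3 ≤ |C| * |y - x| ^ 3 :=
            mul_le_mul_of_nonneg_right (le_abs_self _) (by positivity)
        _ ≤ |C| * |y - x| := by
            refine mul_le_mul_of_nonneg_left ?_ (abs_nonneg _)
            calc |y - x| ^ 3 ≤ |y - x| ^ 1 := pow_le_pow_of_le_one (abs_nonneg _) e3 (by norm_num)
              _ = |y - x| := pow_one _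
    linarith
  have cont : ContinuousOn a (Icc 0 1) := by
    intro x hx
    rw [Metric.continuousWithinAt_iff]
    intro ε hε
    have hK : 0 < M + |C| + 1 := by positivity
    refine ⟨min δ (ε / (M + |C| + 1)), lt_min hδ (by positivity), fun y hy hxy => ?_⟩
    rw [Real.dist_eq] at hxy ⊢
    have h1' : |y - x| ≤ δ := (hxy.trans_le (min_le_left _ _)).le
    have h2' : |y - x| < ε / (M + |C| + 1) := hxy.trans_le (min_le_right _ _)
    have h3' : |y - x| * (M + |C| + 1) < ε := (lt_div_iff₀ hK).1 h2'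
    have e1 := lip x y hx.1 hx.2 hy.1 hy.2 h1'
    have e2 := lip y x hy.1 hy.2 hx.1 hx.2 (by rwa [abs_sub_comm])
    rw [abs_sub_comm x y] at e2
    have h4' := abs_nonneg (y - x)
    rw [abs_lt]
    constructor <;> nlinarith
  -- the function with a strictly concave perturbation
  set lin : ℝ → ℝ := fun s => (1 - s) * a 0 + s * a 1 with hlin
  set D : ℝ := lin t - a t with hD
  have hDpos : 0 < D := by
    rw [hD, hlin]
    simp only
    linarith
  set η : ℝ := D / 2 with hη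
  have hηpos : 0 < η := by positivity
  set q : ℝ → ℝ := fun s => a s - lin s + η * (s * (1 - s)) with hq
  have qc : ContinuousOn q (Icc 0 1) := by
    refine (cont.sub ?_).add ?_
    · exact Continuous.continuousOn (by rw [hlin]; fun_prop)
    · exact Continuous.continuousOn (by fun_prop)
  obtain ⟨x, hx, hmin⟩ := isCompact_Icc.exists_isMinOn ⟨0, by simp⟩ qc
  have hmin' : ∀ y, 0 ≤ y → y ≤ 1 → q x ≤ q y := fun y hy0 hy1 => hmin ⟨hy0, hy1⟩
  have q0 : q 0 = 0 := by simp [hq, hlin]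
  have q1 : q 1 = 0 := by simp [hq, hlin]
  have qt : q t < 0 := by
    have e1 : t * (1 - t) ≤ 1 := by nlinarith
    have e2 : η * (t * (1 - t)) ≤ η := by nlinarith
    have e3 : q t = - D + η * (t * (1 - t)) := by
      rw [hq, hD]
      ring
    rw [e3]
    linarith
  have qx : q x < 0 := (hmin' t h0 h1).trans_lt qt
  have hx0 : 0 < x := by
    rcases hx.1.eq_or_lt with e | e
    · rw [← e, q0] at qx
      exact absurd qx (lt_irrefl _)
    · exact e
  have hx1 : x < 1 := by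
    rcases hx.2.eq_or_lt with e | e
    · rw [e, q1] at qx
      exact absurd qx (lt_irrefl _)
    · exact e
  -- second difference
  obtain ⟨d, hd0, hd1, hd2, hd3, hd4⟩ : ∃ d : ℝ, 0 < d ∧ d ≤ x ∧ d ≤ 1 - x ∧ d ≤ δ ∧
      |C| * d < η := by
    have hC1 : 0 < |C| + 1 := by positivity
    refine ⟨min (min x (1 - x)) (min δ (η / (2 * (|C| + 1)))), ?_, ?_, ?_, ?_, ?_⟩
    · exact lt_min (lt_min hx0 (by linarith)) (lt_min hδ (by positivity))
    · exact (min_le_left _ _).trans (min_le_left _ _)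
    · exact (min_le_left _ _).trans (min_le_right _ _)
    · exact (min_le_right _ _).trans (min_le_left _ _)
    · have e1 : min (min x (1 - x)) (min δ (η / (2 * (|C| + 1)))) ≤ η / (2 * (|C| + 1)) :=
        (min_le_right _ _).trans (min_le_right _ _)
      calc |C| * min (min x (1 - x)) (min δ (η / (2 * (|C| + 1))))
          ≤ (|C| + 1) * (η / (2 * (|C| + 1))) := by
            refine mul_le_mul (by linarith) e1 ?_ (by positivity)
            exact le_min (le_min hx0.le (by linarith)) (le_min hδ.le (by positivity))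
        _ = η / 2 := by field_simp
        _ < η := by linarith
  have f1 := h x (x + d) hx.1 hx.2 (by linarith) (by linarith) (by
    rw [add_sub_cancel_left, abs_of_pos hd0]
    exact hd3)
  have f2 := h x (x - d) hx.1 hx.2 (by linarith) (by linarith) (by
    rw [sub_sub_cancel_left, abs_neg, abs_of_pos hd0]
    exact hd3)
  rw [add_sub_cancel_left, abs_of_pos hd0] at f1
  rw [sub_sub_cancel_left, abs_neg, abs_of_pos hd0] at f2
  have g1 := hmin' (x + d) (by linarith) (by linarith)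
  have g2 := hmin' (x - d) (by linarith) (by linarith)
  have key : q (x + d) + q (x - d) - 2 * q x ≤ 2 * C * d ^ 3 - 2 * η * d ^ 2 := by
    simp only [hq, hlin]
    nlinarith
  have key2 : 0 ≤ 2 * C * d ^ 3 - 2 * η * d ^ 2 := by linarith
  have key3 : 2 * C * d ^ 3 - 2 * η * d ^ 2 < 0 := by
    have e1 : C * d ≤ |C| * d := mul_le_mul_of_nonneg_right (le_abs_self _) hd0.le
    have e2 : 0 < d ^ 2 := by positivity
    nlinarith
  linarith

/-- (P7a) -/
theorem concave_of_cubic {a L : ℝ → ℝ} {M C : ℝ}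
    (hL : ∀ t, 0 ≤ t → t ≤ 1 → |L t| ≤ M)
    (h : ∀ t t', 0 ≤ t → t ≤ 1 → 0 ≤ t' → t' ≤ 1 →
      a t' ≤ a t + L t * (t' - t) + C * |t' - t| ^ 3) {t : ℝ} (h0 : 0 ≤ t) (h1 : t ≤ 1) :
    (1 - t) * a 0 + t * a 1 ≤ a t :=
  concave_of_cubic_loc one_pos hL (fun t t' a1 a2 a3 a4 _ => h t t' a1 a2 a3 a4) h0 h1

/-! Elementary inequalities -/

theorem xg_exp {x : ℝ} (hx : |x| ≤ 1 / 2) :
    4 * Real.exp x - 3 - Real.exp (2 * x) ≤ 2 * x + 3 * |x| ^ 3 := by
  have h1 := Real.exp_bound (x := x) (by linarith) (n := 3) (by norm_num)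
  have h2 := Real.exp_bound (x := 2 * x) (by rw [abs_mul, abs_two]; linarith) (n := 3) (by norm_num)
  have e1 : ∑ i ∈ Finset.range 3, x ^ i / (i.factorial : ℝ) = 1 + x + x ^ 2 / 2 := by
    simp [Finset.sum_range_succ, Nat.factorial]
  have e2 : ∑ i ∈ Finset.range 3, (2 * x) ^ i / (i.factorial : ℝ) = 1 + 2 * x + 2 * x ^ 2 := by
    simp [Finset.sum_range_succ, Nat.factorial]
    ring
  rw [e1] at h1
  rw [e2] at h2
  rw [abs_le] at h1 h2
  have e3 : |2 * x| ^ 3 = 8 * |x| ^ 3 := by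
    rw [abs_mul, abs_two]
    ring
  rw [e3] at h2
  norm_num [Nat.factorial] at h1 h2
  have h3 : 0 ≤ |x| ^ 3 := by positivity
  nlinarith [h1.2, h2.1]

theorem xg_log {X Y e P : ℝ} (he0 : 0 ≤ e) (he : e ≤ 1 / 16) (hX : |X| ≤ 2 * e) (hY0 : 0 ≤ Y)
    (hY : Y ≤ 2 * e ^ 2) (hP : 0 < P) (h : P ≤ 1 + X + X ^ 2 / 2 - Y) :
    Real.log P ≤ X - Y + 58 * e ^ 3 := by
  set w : ℝ := X + X ^ 2 / 2 - Y with hw
  have hX2 := abs_le.1 hX
  have hXX : X ^ 2 ≤ 4 * e ^ 2 := by
    have : |X| ^ 2 ≤ (2 * e) ^ 2 := pow_le_pow_left₀ (abs_nonneg _) hX 2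
    rw [sq_abs] at this
    linarith
  have hX0 : 0 ≤ X ^ 2 := by positivity
  have he2 : e ^ 2 ≤ e / 16 := by nlinarith
  have hw1 : |w| ≤ 3 * e := by
    rw [abs_le]
    constructor <;> rw [hw] <;> nlinarith [hX2.1, hX2.2]
  have hw2 : |w| ≤ 3 / 16 := by linarith
  have h1 := Real.abs_log_sub_add_sum_range_le (x := -w) (by rw [abs_neg]; linarith) 2
  have e1 : ∑ i ∈ Finset.range 2, (-w) ^ (i + 1) / ((i : ℝ) + 1) = -w + w ^ 2 / 2 := by
    simp [Finset.sum_range_succ]
    ring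
  rw [e1, abs_neg, sub_neg_eq_add, abs_le] at h1
  have hw3 : |w| ^ (2 + 1) / (1 - |w|) ≤ 54 * e ^ 3 := by
    rw [div_le_iff₀ (by linarith)]
    have e2 : |w| ^ 3 ≤ (3 * e) ^ 3 := pow_le_pow_left₀ (abs_nonneg _) hw1 3
    have e3 : 0 ≤ e ^ 3 := by positivity
    have e4 : 1 / 2 ≤ 1 - |w| := by linarith
    calc |w| ^ (2 + 1) ≤ 27 * e ^ 3 := by
          have : (3 * e) ^ 3 = 27 * e ^ 3 := by ring
          rw [← this]
          exact e2
      _ = 54 * e ^ 3 * (1 / 2) := by ring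
      _ ≤ 54 * e ^ 3 * (1 - |w|) := mul_le_mul_of_nonneg_left e4 (by positivity)
  have h2 : Real.log P ≤ Real.log (1 + w) := Real.log_le_log hP (by rw [hw]; linarith)
  have h3 : Real.log (1 + w) ≤ w - w ^ 2 / 2 + 54 * e ^ 3 := by linarith [h1.2]
  -- `w - w ^ 2 / 2 ≤ X - Y + 4 e ^ 3`
  have h4 : w - w ^ 2 / 2 = X - Y - X * (X ^ 2 / 2 - Y) - (X ^ 2 / 2 - Y) ^ 2 / 2 := by
    rw [hw]
    ring
  have h5 : |X ^ 2 / 2 - Y| ≤ 2 * e ^ 2 := by
    rw [abs_le]
    constructor <;> nlinarith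
  have h6 : - (X * (X ^ 2 / 2 - Y)) ≤ 4 * e ^ 3 := by
    calc - (X * (X ^ 2 / 2 - Y)) ≤ |X * (X ^ 2 / 2 - Y)| := neg_le_abs _
      _ = |X| * |X ^ 2 / 2 - Y| := abs_mul _ _
      _ ≤ (2 * e) * (2 * e ^ 2) := mul_le_mul hX h5 (abs_nonneg _) (by linarith)
      _ = 4 * e ^ 3 := by ring
  have h7 : 0 ≤ (X ^ 2 / 2 - Y) ^ 2 := by positivity
  linarith

/-- One step. -/
theorem xg_step {ι : Type} [Fintype ι] {N N' : ℝ} {l g r H φ : ι → ℝ} {d K Φ δ : ℝ}
    (hN : 0 < N) (hN' : 0 < N') (hl : ∀ i, 0 ≤ l i) (hr : ∀ i, 0 < r i)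
    (hsum : ∑ i, l i * H i = N) (hH : ∀ i, δ * r i ≤ H i) (hH2 : ∀ i, H i ≤ 2 * r i)
    (hδ : 0 < δ) (hδ1 : δ ≤ 1) (hφ : ∀ i, |φ i| ≤ Φ) (hΦ : 0 ≤ Φ) (hK : K = 2 * Φ / δ)
    (hd : K * |d| ≤ 1 / 16) (hg1 : ∀ i, 0 < l i → g i ≤ r i * (Real.exp (d * φ i) - 1))
    (hg2 : ∀ i, 0 < l i → -(K * |d|) * H i ≤ g i)
    (h5 : N' ≤ N + 2 * (∑ i, l i * g i) + 2 * (∑ i, l i * g i) ^ 2 / N - ∑ i, l i * g i ^ 2 / r i) :
    Real.log N' ≤ Real.log N + 2 / N * (∑ i, l i * r i * φ i) * d +
      (58 * K ^ 3 + 3 * Φ ^ 3 / δ) * |d| ^ 3 := by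
  have hK0 : 0 ≤ K := by rw [hK]; positivity
  set e : ℝ := K * |d| with he
  have he0 : 0 ≤ e := by positivity
  have hΦd : Φ * |d| ≤ 1 / 32 := by
    have e1 : K * |d| * δ = 2 * (Φ * |d|) := by
      rw [hK]
      field_simp
    have e2 : K * |d| * δ ≤ 1 / 16 * 1 := mul_le_mul hd hδ1 hδ.le (by norm_num)
    linarith
  have hH0 : ∀ i, 0 < H i := fun i => (mul_pos hδ (hr i)).trans_le (hH i)
  have hx : ∀ i, |d * φ i| ≤ Φ * |d| := fun i => by
    rw [abs_mul, mul_comm]
    exact mul_le_mul_of_nonneg_right (hφ i) (abs_nonneg _)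
  -- bounds for `g`
  have hga : ∀ i, 0 < l i → |g i| ≤ e * H i := by
    intro i hi
    rw [abs_le]
    refine ⟨by have := hg2 i hi; linarith, (hg1 i hi).trans ?_⟩
    have e1 : Real.exp (d * φ i) - 1 ≤ 2 * |d * φ i| :=
      (le_abs_self _).trans (Real.abs_exp_sub_one_le (by have := hx i; linarith))
    calc r i * (Real.exp (d * φ i) - 1) ≤ r i * (2 * (Φ * |d|)) :=
          mul_le_mul_of_nonneg_left (e1.trans (by have := hx i; linarith)) (hr i).le
      _ = e * (δ * r i) := by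
          rw [he, hK]
          field_simp
      _ ≤ e * H i := mul_le_mul_of_nonneg_left (hH i) he0
  have hlg : ∀ i, |l i * g i| ≤ l i * (e * H i) := by
    intro i
    rw [abs_mul, abs_of_nonneg (hl i)]
    rcases (hl i).eq_or_lt with h0 | h0
    · rw [← h0]
      simp
    · exact mul_le_mul_of_nonneg_left (hga i h0) (hl i)
  set X : ℝ := 2 / N * ∑ i, l i * g i with hX
  set Y : ℝ := 1 / N * ∑ i, l i * g i ^ 2 / r i with hY
  have hX1 : |X| ≤ 2 * e := by
    rw [hX, abs_mul, abs_of_pos (by positivity : 0 < 2 / N)]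
    have e1 : |∑ i, l i * g i| ≤ e * N := by
      calc |∑ i, l i * g i| ≤ ∑ i, |l i * g i| := Finset.abs_sum_le_sum_abs _ _
        _ ≤ ∑ i, l i * (e * H i) := Finset.sum_le_sum fun i _ => hlg i
        _ = e * ∑ i, l i * H i := by
            rw [Finset.mul_sum]
            exact Finset.sum_congr rfl fun i _ => by ring
        _ = e * N := by rw [hsum]
    calc 2 / N * |∑ i, l i * g i| ≤ 2 / N * (e * N) :=
          mul_le_mul_of_nonneg_left e1 (by positivity)
      _ = 2 * e := by field_simp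
  have hY0 : 0 ≤ Y := by
    rw [hY]
    refine mul_nonneg (by positivity) (Finset.sum_nonneg fun i _ => ?_)
    exact div_nonneg (mul_nonneg (hl i) (sq_nonneg _)) (hr i).le
  have hY1 : Y ≤ 2 * e ^ 2 := by
    have e1 : ∑ i, l i * g i ^ 2 / r i ≤ 2 * e ^ 2 * N := by
      rw [← hsum, Finset.mul_sum]
      refine Finset.sum_le_sum fun i _ => ?_
      rcases (hl i).eq_or_lt with h0 | h0
      · rw [← h0]
        simp
      · rw [div_le_iff₀ (hr i)]
        have e2 : g i ^ 2 ≤ (e * H i) ^ 2 := by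
          rw [← sq_abs]
          exact pow_le_pow_left₀ (abs_nonneg _) (hga i h0) 2
        calc l i * g i ^ 2 ≤ l i * (e * H i) ^ 2 := mul_le_mul_of_nonneg_left e2 (hl i)
          _ = e ^ 2 * (l i * H i) * H i := by ring
          _ ≤ e ^ 2 * (l i * H i) * (2 * r i) :=
              mul_le_mul_of_nonneg_left (hH2 i)
                (mul_nonneg (sq_nonneg _) (mul_nonneg (hl i) (hH0 i).le))
          _ = 2 * e ^ 2 * (l i * H i) * r i := by ring
    calc Y ≤ 1 / N * (2 * e ^ 2 * N) := mul_le_mul_of_nonneg_left e1 (by positivity)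
      _ = 2 * e ^ 2 := by field_simp
  have hP : N' / N ≤ 1 + X + X ^ 2 / 2 - Y := by
    rw [div_le_iff₀ hN]
    refine h5.trans (le_of_eq ?_)
    rw [hX, hY]
    field_simp
  have h1 := xg_log he0 hd hX1 hY0 hY1 (div_pos hN' hN) hP
  rw [Real.log_div hN'.ne' hN.ne'] at h1
  -- `X - Y`
  have h2 : X - Y ≤ 2 / N * (∑ i, l i * r i * φ i) * d + 3 * Φ ^ 3 / δ * |d| ^ 3 := by
    have e0 : X - Y = 1 / N * ∑ i, l i * (2 * g i - g i ^ 2 / r i) := by
      rw [hX, hY, ← sub_eq_zero]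
      have : ∑ i, l i * (2 * g i - g i ^ 2 / r i) =
          2 * (∑ i, l i * g i) - ∑ i, l i * g i ^ 2 / r i := by
        rw [Finset.mul_sum, ← Finset.sum_sub_distrib]
        exact Finset.sum_congr rfl fun i _ => by ring
      rw [this]
      ring
    have e1 : ∀ i, l i * (2 * g i - g i ^ 2 / r i) ≤
        l i * r i * (2 * (d * φ i) + 3 * (Φ * |d|) ^ 3) := by
      intro i
      rcases (hl i).eq_or_lt with h0 | h0
      · rw [← h0]
        simp
      · rw [mul_assoc]
        refine mul_le_mul_of_nonneg_left ?_ (hl i)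
        set x : ℝ := d * φ i with hxd
        have hxa := hx i
        rw [← hxd] at hxa
        set b : ℝ := r i * (Real.exp x - 1) with hb
        have hri := hr i
        have hgb : g i ≤ b := hg1 i h0
        have hbr : b ≤ r i := by
          have e2 : Real.exp x - 1 ≤ 2 * |x| :=
            (le_abs_self _).trans (Real.abs_exp_sub_one_le (by linarith))
          have e3 : Real.exp x - 1 ≤ 1 := by linarith
          rw [hb]
          nlinarith
        have e4 : 2 * g i - g i ^ 2 / r i ≤ 2 * b - b ^ 2 / r i := by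
          have : 2 * b - b ^ 2 / r i - (2 * g i - g i ^ 2 / r i) =
              (b - g i) * (2 * r i - b - g i) / r i := by
            field_simp
            ring
          have : 0 ≤ (b - g i) * (2 * r i - b - g i) / r i :=
            div_nonneg (mul_nonneg (by linarith) (by linarith)) hri.le
          linarith
        have e5 : 2 * b - b ^ 2 / r i = r i * (4 * Real.exp x - 3 - Real.exp (2 * x)) := by
          have : Real.exp (2 * x) = Real.exp x ^ 2 := by
            rw [← Real.exp_nat_mul]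
            norm_num
          rw [this, hb]
          field_simp
          ring
        have e6 := xg_exp (x := x) (by linarith)
        have e7 : |x| ^ 3 ≤ (Φ * |d|) ^ 3 := pow_le_pow_left₀ (abs_nonneg _) hxa 3
        calc 2 * g i - g i ^ 2 / r i ≤ 2 * b - b ^ 2 / r i := e4
          _ = r i * (4 * Real.exp x - 3 - Real.exp (2 * x)) := e5
          _ ≤ r i * (2 * x + 3 * (Φ * |d|) ^ 3) :=
              mul_le_mul_of_nonneg_left (by linarith) hri.le
    have e2 : ∑ i, l i * r i ≤ N / δ := by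
      rw [le_div_iff₀ hδ, ← hsum, Finset.sum_mul]
      refine Finset.sum_le_sum fun i _ => ?_
      have := mul_le_mul_of_nonneg_left (hH i) (hl i)
      linarith
    rw [e0]
    calc 1 / N * ∑ i, l i * (2 * g i - g i ^ 2 / r i)
        ≤ 1 / N * ∑ i, l i * r i * (2 * (d * φ i) + 3 * (Φ * |d|) ^ 3) :=
          mul_le_mul_of_nonneg_left (Finset.sum_le_sum fun i _ => e1 i) (by positivity)
      _ = 2 / N * (∑ i, l i * r i * φ i) * d + 1 / N * (3 * (Φ * |d|) ^ 3) * ∑ i, l i * r i := by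
          have : ∑ i, l i * r i * (2 * (d * φ i) + 3 * (Φ * |d|) ^ 3) =
              2 * d * (∑ i, l i * r i * φ i) + 3 * (Φ * |d|) ^ 3 * ∑ i, l i * r i := by
            rw [Finset.mul_sum, Finset.mul_sum, ← Finset.sum_add_distrib]
            exact Finset.sum_congr rfl fun i _ => by ring
          rw [this]
          ring
      _ ≤ 2 / N * (∑ i, l i * r i * φ i) * d + 1 / N * (3 * (Φ * |d|) ^ 3) * (N / δ) := by
          refine add_le_add_right (mul_le_mul_of_nonneg_left e2 (by positivity)) _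
      _ = 2 / N * (∑ i, l i * r i * φ i) * d + 3 * Φ ^ 3 / δ * |d| ^ 3 := by
          field_simp
  have h3 : e ^ 3 = K ^ 3 * |d| ^ 3 := by
    rw [he]
    ring
  rw [h3] at h1
  nlinarith

/-! Strips -/

/-- Intersection of the rotated strips with normals `θ i + 2 π j / m`, centres `c i` and
half widths `r i`. -/
def SS {κ : Type} (m : ℕ) (θ c r : κ → ℝ) : Set ℂ :=
  {y | ∀ i, ∀ j : ℕ, |(ex (-(θ i + 2 * Real.pi * j / m)) * y).re - c i| ≤ r i}

theorem xg_ex_add (a b : ℝ) : ex (a + b) = ex a * ex b := by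
  unfold ex
  rw [← Complex.exp_add]
  congr 1
  push_cast
  ring

theorem xg_ex_neg_pi (a : ℝ) : ex (-(a + Real.pi)) = -ex (-a) := by
  have h : ex (-Real.pi) = -1 := by
    unfold ex
    push_cast
    rw [neg_mul, Complex.exp_neg, Complex.exp_pi_mul_I]
    norm_num
  have h2 : -(a + Real.pi) = -a + -Real.pi := by ring
  rw [h2, xg_ex_add, h]
  ring

theorem xg_ex_re (a : ℝ) : (ex a).re = Real.cos a := by
  unfold ex
  rw [Complex.exp_ofReal_mul_I_re]

theorem xg_ex_im (a : ℝ) : (ex a).im = Real.sin a := by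
  unfold ex
  rw [Complex.exp_ofReal_mul_I_im]

theorem xg_ex_ne (a : ℝ) : ex a ≠ 0 := Complex.exp_ne_zero _

theorem SS_eq_FF {κ : Type} (m : ℕ) (θ c r : κ → ℝ) :
    SS m θ c r = FF m (Sum.elim θ fun i => θ i + Real.pi)
      (Sum.elim (fun i => r i + c i) fun i => r i - c i) := by
  ext y
  simp only [SS, FF, mem_ofPred_eq]
  constructor
  · rintro h (i | i) j
    · have h1 := (abs_le.1 (h i j)).2
      simp only [Sum.elim_inl]
      linarith
    · have h1 := (abs_le.1 (h i j)).1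
      simp only [Sum.elim_inr]
      have h2 : -(θ i + Real.pi + 2 * Real.pi * j / m) =
          -(θ i + 2 * Real.pi * j / m + Real.pi) := by ring
      rw [h2, xg_ex_neg_pi, neg_mul, Complex.neg_re]
      linarith
  · intro h i j
    have h1 := h (Sum.inl i) j
    have h3 := h (Sum.inr i) j
    simp only [Sum.elim_inl] at h1
    simp only [Sum.elim_inr] at h3
    have h2 : -(θ i + Real.pi + 2 * Real.pi * j / m) =
        -(θ i + 2 * Real.pi * j / m + Real.pi) := by ring
    rw [h2, xg_ex_neg_pi, neg_mul, Complex.neg_re] at h3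
    rw [abs_le]
    constructor <;> linarith

theorem xg_pi_div {m : ℕ} (hm : 3 ≤ m) : 0 < 2 * Real.pi / m ∧ 2 * Real.pi / m < Real.pi := by
  have hm' : (3 : ℝ) ≤ m := by exact_mod_cast hm
  have hp := Real.pi_pos
  refine ⟨by positivity, ?_⟩
  rw [div_lt_iff₀ (by linarith)]
  nlinarith

theorem xg_sum {m : ℕ} (hm : 3 ≤ m) (z : ℂ) :
    ∑ j ∈ Finset.range m, (ex (-(2 * Real.pi * j / m)) * z).re = 0 := by
  have hm' : (3 : ℝ) ≤ m := by exact_mod_cast hm
  set ζ : ℂ := ex (-(2 * Real.pi / m)) with hζ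
  have h1 : ∀ j : ℕ, ex (-(2 * Real.pi * j / m)) = ζ ^ j := by
    intro j
    rw [hζ]
    unfold ex
    rw [← Complex.exp_nat_mul]
    congr 1
    push_cast
    ring
  have h2 : ζ ^ m = 1 := by
    rw [← h1]
    have : -(2 * Real.pi * m / m) = -(2 * Real.pi) := by
      field_simp
    rw [this]
    unfold ex
    have h3 : ((-(2 * Real.pi) : ℝ) : ℂ) * Complex.I = -(2 * Real.pi * Complex.I) := by
      push_cast
      ring
    rw [h3, Complex.exp_neg, Complex.exp_two_pi_mul_I]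
    norm_num
  have h3 : ζ ≠ 1 := by
    intro h
    have h4 := congrArg Complex.im h
    rw [hζ, xg_ex_im, Complex.one_im, Real.sin_neg, neg_eq_zero] at h4
    have h5 := xg_pi_div hm
    exact (Real.sin_pos_of_pos_of_lt_pi h5.1 h5.2).ne' h4
  have h4 : ∑ j ∈ Finset.range m, ζ ^ j = 0 := by
    have h5 := geom_sum_mul ζ m
    rw [h2, sub_self] at h5
    exact (mul_eq_zero.1 h5).resolve_right (sub_ne_zero.2 h3)
  have h5 : ∑ j ∈ Finset.range m, (ex (-(2 * Real.pi * j / m)) * z).re =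
      ((∑ j ∈ Finset.range m, ζ ^ j) * z).re := by
    rw [Finset.sum_mul, Complex.re_sum]
    exact Finset.sum_congr rfl fun j _ => by rw [h1]
  rw [h5, h4, zero_mul, Complex.zero_re]

/-- If all rotated values have one sign the point is `0`. -/
theorem xg_zero {m : ℕ} (hm : 3 ≤ m) {z : ℂ} (h : ∀ j : ℕ, 0 ≤ (ex (-(2 * Real.pi * j / m)) * z).re) :
    z = 0 := by
  have h1 := (Finset.sum_eq_zero_iff_of_nonneg fun j _ => h j).1 (xg_sum hm z)
  have h2 := h1 0 (Finset.mem_range.2 (by omega))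
  have h3 := h1 1 (Finset.mem_range.2 (by omega))
  have h4 : z.re = 0 := by
    have : ex (-(2 * Real.pi * (0 : ℕ) / m)) = 1 := by
      unfold ex
      simp
    rw [this, one_mul] at h2
    exact h2
  rw [Complex.mul_re, h4, mul_zero, zero_sub, neg_eq_zero, xg_ex_im, Real.sin_neg] at h3
  have h5 := xg_pi_div hm
  have h6 : Real.sin (2 * Real.pi * (1 : ℕ) / m) ≠ 0 := by
    have : 2 * Real.pi * (1 : ℕ) / m = 2 * Real.pi / m := by
      norm_num
    rw [this]
    exact (Real.sin_pos_of_pos_of_lt_pi h5.1 h5.2).ne'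
  have h7 : z.im = 0 := by
    rcases mul_eq_zero.1 h3 with h8 | h8
    · exact absurd (neg_eq_zero.1 h8) h6
    · exact h8
  exact Complex.ext h4 h7

theorem xg_area_zero {κ : Type} {m : ℕ} (hm : 3 ≤ m) {θ c r : κ → ℝ} {i : κ} (h : r i ≤ |c i|) :
    area (SS m θ c r) = 0 := by
  have h1 : SS m θ c r ⊆ {0} := by
    intro y hy
    have e : ∀ j : ℕ, ex (-(θ i + 2 * Real.pi * j / m)) * y =
        ex (-(2 * Real.pi * j / m)) * (ex (-θ i) * y) := by
      intro j
      have : -(θ i + 2 * Real.pi * j / m) = -(2 * Real.pi * j / m) + -θ i := by ring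
      rw [this, xg_ex_add, mul_assoc]
    have key : ex (-θ i) * y = 0 := by
      rcases le_or_gt 0 (c i) with hc | hc
      · rw [abs_of_nonneg hc] at h
        refine xg_zero hm fun j => ?_
        rw [← e]
        have := (abs_le.1 (hy i j)).1
        linarith
      · rw [abs_of_neg hc] at h
        have h2 : -(ex (-θ i) * y) = 0 := by
          refine xg_zero hm fun j => ?_
          rw [mul_neg, ← e, Complex.neg_re]
          have := (abs_le.1 (hy i j)).2
          linarith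
        exact neg_eq_zero.1 h2
    exact (mul_eq_zero.1 key).resolve_left (xg_ex_ne _)
  unfold area
  rw [measure_mono_null h1 (measure_singleton 0)]
  rfl

end Vale.Agent.P227.Rot
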