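import Vale.Agent.P227.Rot.Strips
import Vale.Agent.P227.T1.PL

open MeasureTheory Set
open scoped Pointwise ENNReal

namespace Vale.Agent.P227.Rot

/-! Part H: from the plane to three dimensions. -/

/-- (P8a) planar systems `|Re (conj p_i · ω^j y) + c_i| ≤ h_i`, `p_i = 0` allowed. -/
def PS {κ : Type} (m : ℕ) (p : κ → ℂ) (c h : κ → ℝ) : Set ℂ :=
  {y | ∀ i, ∀ j : ℕ, |((starRingEnd ℂ) (p i) * (ex (2 * Real.pi * j / m) * y)).re + c i| ≤ h i}

theorem ex_add (a b : ℝ) : ex (a + b) = ex a * ex b := by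
  unfold ex; rw [← Complex.exp_add]; congr 1; push_cast; ring

theorem ex_two_pi_mul (n : ℕ) : ex (2 * Real.pi * n) = 1 := by
  unfold ex
  rw [Complex.exp_eq_one_iff]
  exact ⟨n, by push_cast; ring⟩

theorem norm_ex (a : ℝ) : ‖ex a‖ = 1 := by
  unfold ex; exact Complex.norm_exp_ofReal_mul_I a

theorem re_ex_mul (a : ℝ) (z : ℂ) : (ex a * z).re = Real.cos a * z.re - Real.sin a * z.im := by
  unfold ex
  rw [Complex.exp_mul_I, ← Complex.ofReal_cos, ← Complex.ofReal_sin]
  simp [Complex.cos_ofReal_re, Complex.sin_ofReal_re]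

theorem conj_eq (p : ℂ) : (starRingEnd ℂ) p = (‖p‖ : ℂ) * ex (-Complex.arg p) := by
  conv_lhs => rw [← Complex.norm_mul_exp_arg_mul_I p]
  rw [map_mul, Complex.conj_ofReal, ← Complex.exp_conj]
  unfold ex
  simp

/-- reindexing the rotations -/
theorem ex_flip {m : ℕ} (hm : 0 < m) (a : ℝ) (j : ℕ) :
    ex (-(a + 2 * Real.pi * ((m - 1) * j : ℕ) / m)) = ex (-a + 2 * Real.pi * j / m) := by
  have hm' : (m : ℝ) ≠ 0 := by positivity
  have h1 : -(a + 2 * Real.pi * ((m - 1) * j : ℕ) / m) + 2 * Real.pi * j =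
      -a + 2 * Real.pi * j / m := by
    rw [Nat.cast_mul, Nat.cast_sub hm]
    field_simp
    push_cast
    ring
  rw [← h1, ex_add, ex_two_pi_mul, mul_one]

theorem ex_flip' {m : ℕ} (hm : 0 < m) (a : ℝ) (j : ℕ) :
    ex (-a + 2 * Real.pi * ((m - 1) * j : ℕ) / m) = ex (-(a + 2 * Real.pi * j / m)) := by
  have hm' : (m : ℝ) ≠ 0 := by positivity
  have h1 : -a + 2 * Real.pi * ((m - 1) * j : ℕ) / m =
      -(a + 2 * Real.pi * j / m) + 2 * Real.pi * j := by
    rw [Nat.cast_mul, Nat.cast_sub hm]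
    field_simp
    push_cast
    ring
  rw [h1, ex_add, ex_two_pi_mul, mul_one]

theorem PS_eq {κ : Type} {m : ℕ} (hm : 0 < m) (p : κ → ℂ) (c h : κ → ℝ)
    (h0 : ∀ i, p i = 0 → |c i| ≤ h i) :
    PS m p c h = SS m (fun i : {i // p i ≠ 0} => Complex.arg (p i)) (fun i => -c i / ‖p i‖)
      (fun i => h i / ‖p i‖) := by
  have key : ∀ (i : κ), p i ≠ 0 → ∀ (j : ℕ) (y : ℂ),
      (|((starRingEnd ℂ) (p i) * (ex (2 * Real.pi * j / m) * y)).re + c i| ≤ h i ↔
        |(ex (-Complex.arg (p i) + 2 * Real.pi * j / m) * y).re - -c i / ‖p i‖| ≤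
          h i / ‖p i‖) := by
    intro i hi j y
    have hp : 0 < ‖p i‖ := norm_pos_iff.2 hi
    have h1 : ((starRingEnd ℂ) (p i) * (ex (2 * Real.pi * j / m) * y)).re + c i =
        ‖p i‖ * ((ex (-Complex.arg (p i) + 2 * Real.pi * j / m) * y).re - -c i / ‖p i‖) := by
      rw [conj_eq, ex_add, mul_assoc, Complex.re_ofReal_mul, mul_assoc]
      field_simp
      ring
    rw [h1, abs_mul, abs_of_pos hp, le_div_iff₀ hp, mul_comm]
  ext y
  simp only [PS, SS, mem_ofPred_eq, Subtype.forall]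
  constructor
  · intro hy i hi j
    have := (key i hi _ y).1 (hy i ((m - 1) * j))
    rwa [ex_flip' hm] at this
  · intro hy i j
    by_cases hi : p i = 0
    · rw [hi]; simpa using h0 i hi
    · rw [key i hi]
      have := hy i hi ((m - 1) * j)
      rwa [ex_flip hm] at this

theorem SS_bdd {κ : Type} [Nonempty κ] {m : ℕ} (hm : 3 ≤ m) (θ c r : κ → ℝ) :
    volume (SS m θ c r) ≠ ⊤ := by
  obtain ⟨i⟩ := ‹Nonempty κ›
  set a : ℝ := 2 * Real.pi / m with ha
  have hm' : (3 : ℝ) ≤ m := by exact_mod_cast hm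
  have ha0 : 0 < a := by have := Real.pi_pos; positivity
  have ha1 : a < Real.pi := by
    rw [ha, div_lt_iff₀ (by linarith)]
    nlinarith [Real.pi_pos]
  have hsin : 0 < Real.sin a := Real.sin_pos_of_pos_of_lt_pi ha0 ha1
  set M : ℝ := |c i| + r i with hM
  refine ((isBounded_iff_forall_norm_le.2 ⟨M + 2 * M / Real.sin a, fun y hy => ?_⟩ :
    Bornology.IsBounded (SS m θ c r)).measure_lt_top).ne
  have h1 := hy i 0
  have h2 := hy i 1
  set z : ℂ := ex (-θ i) * y with hz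
  have hzy : ‖z‖ = ‖y‖ := by rw [hz, norm_mul, norm_ex, one_mul]
  have e1 : (ex (-(θ i + 2 * Real.pi * (0 : ℕ) / m)) * y).re = z.re := by
    rw [hz]; norm_num
  have e2 : (ex (-(θ i + 2 * Real.pi * (1 : ℕ) / m)) * y).re =
      Real.cos a * z.re + Real.sin a * z.im := by
    have : -(θ i + 2 * Real.pi * (1 : ℕ) / m) = -a + -θ i := by rw [ha]; push_cast; ring
    rw [this, ex_add, mul_assoc, ← hz, re_ex_mul, Real.cos_neg, Real.sin_neg]
    ring
  rw [e1] at h1
  rw [e2] at h2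
  have h3 : |z.re| ≤ M := by
    have := abs_sub_abs_le_abs_sub z.re (c i)
    rw [hM]; linarith
  have h4 : |Real.cos a * z.re + Real.sin a * z.im| ≤ M := by
    have := abs_sub_abs_le_abs_sub (Real.cos a * z.re + Real.sin a * z.im) (c i)
    rw [hM]; linarith
  have h5 : |Real.sin a * z.im| ≤ 2 * M := by
    have h6 : Real.sin a * z.im = (Real.cos a * z.re + Real.sin a * z.im) - Real.cos a * z.re := by
      ring
    rw [h6]
    have h7 : |Real.cos a * z.re| ≤ M := by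
      rw [abs_mul]
      calc |Real.cos a| * |z.re| ≤ 1 * |z.re| := by
            gcongr; exact Real.abs_cos_le_one a
        _ ≤ M := by linarith
    have := abs_sub (Real.cos a * z.re + Real.sin a * z.im) (Real.cos a * z.re)
    linarith
  rw [abs_mul, abs_of_pos hsin] at h5
  have h8 : |z.im| ≤ 2 * M / Real.sin a := by rw [le_div_iff₀ hsin]; linarith
  rw [← hzy]
  have := Complex.norm_le_abs_re_add_abs_im z
  linarith

theorem planar_ps {κ : Type} [Fintype κ] {m : ℕ} (hm : 3 ≤ m) (ho : Odd m) (p : κ → ℂ)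
    (c : κ → ℝ) {h k : κ → ℝ} (hh : ∀ i, 0 < h i) (hk : ∀ i, 0 < k i) {t : ℝ}
    (ht0 : 0 < t) (ht1 : t < 1) :
    volume (PS m p c h) ^ (1 - t) * volume (PS m p c k) ^ t ≤
      volume (PS m p c fun i => h i ^ (1 - t) * k i ^ t) := by
  classical
  have ht1' : 0 < 1 - t := by linarith
  have hm0 : 0 < m := by omega
  have hempty : ∀ h : κ → ℝ, (¬ ∀ i, p i = 0 → |c i| ≤ h i) → volume (PS m p c h) = 0 := by
    intro h hn
    push Not at hn
    obtain ⟨i, hi, hi'⟩ := hn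
    have : PS m p c h = ∅ := by
      rw [Set.eq_empty_iff_forall_notMem]
      intro y hy
      have := hy i 0
      rw [hi] at this
      simp only [map_zero, zero_mul, Complex.zero_re, zero_add] at this
      linarith
    rw [this, measure_empty]
  by_cases h1 : ∀ i, p i = 0 → |c i| ≤ h i
  swap
  · rw [hempty h h1, ENNReal.zero_rpow_of_pos ht1', zero_mul]; exact zero_le
  by_cases h2 : ∀ i, p i = 0 → |c i| ≤ k i
  swap
  · rw [hempty k h2, ENNReal.zero_rpow_of_pos ht0, mul_zero]; exact zero_le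
  have h3 : ∀ i, p i = 0 → |c i| ≤ h i ^ (1 - t) * k i ^ t := by
    intro i hi
    rcases (abs_nonneg (c i)).eq_or_lt with h0 | h0
    · rw [← h0]
      have := Real.rpow_pos_of_pos (hh i) (1 - t)
      have := Real.rpow_pos_of_pos (hk i) t
      positivity
    · calc |c i| = |c i| ^ (1 - t) * |c i| ^ t := by
            rw [← Real.rpow_add h0, sub_add_cancel, Real.rpow_one]
        _ ≤ h i ^ (1 - t) * k i ^ t :=
            mul_le_mul (Real.rpow_le_rpow h0.le (h1 i hi) ht1'.le)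
              (Real.rpow_le_rpow h0.le (h2 i hi) ht0.le) (Real.rpow_nonneg h0.le t)
              (Real.rpow_nonneg (hh i).le _)
  rcases isEmpty_or_nonempty {i // p i ≠ 0} with he | hne
  · have huniv : PS m p c (fun i => h i ^ (1 - t) * k i ^ t) = univ := by
      rw [PS_eq hm0 p c _ h3]
      ext y
      simp [SS]
    rw [huniv]
    have : volume (univ : Set ℂ) = ⊤ := by simp
    rw [this]
    exact le_top
  · rw [PS_eq hm0 p c _ h1, PS_eq hm0 p c _ h2, PS_eq hm0 p c _ h3]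
    have hpos : ∀ i : {i // p i ≠ 0}, 0 < ‖p i‖ := fun i => norm_pos_iff.2 i.2
    have hm1 := planar_strips hm ho (fun i : {i // p i ≠ 0} => Complex.arg (p i))
      (fun i => -c i / ‖p i‖) (r₀ := fun i => h i / ‖p i‖) (r₁ := fun i => k i / ‖p i‖)
      (fun i => div_pos (hh i) (hpos i)) (fun i => div_pos (hk i) (hpos i)) ht0 ht1
    have hr : (fun i : {i // p i ≠ 0} => (h i / ‖p i‖) ^ (1 - t) * (k i / ‖p i‖) ^ t) =
        fun i : {i // p i ≠ 0} => (h i ^ (1 - t) * k i ^ t) / ‖p i‖ := by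
      funext i
      rw [Real.div_rpow (hh i).le (hpos i).le, Real.div_rpow (hk i).le (hpos i).le,
        div_mul_div_comm, ← Real.rpow_add (hpos i), sub_add_cancel, Real.rpow_one]
    rw [hr] at hm1
    unfold area at hm1
    have f0 := SS_bdd hm (fun i : {i // p i ≠ 0} => Complex.arg (p i))
      (fun i => -c i / ‖p i‖) (fun i => h i / ‖p i‖)
    have f1 := SS_bdd hm (fun i : {i // p i ≠ 0} => Complex.arg (p i))
      (fun i => -c i / ‖p i‖) (fun i => k i / ‖p i‖)
    have f2 := SS_bdd hm (fun i : {i // p i ≠ 0} => Complex.arg (p i))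
      (fun i => -c i / ‖p i‖) (fun i => (h i ^ (1 - t) * k i ^ t) / ‖p i‖)
    rw [← ENNReal.toReal_le_toReal _ f2, ENNReal.toReal_mul, ← ENNReal.toReal_rpow,
      ← ENNReal.toReal_rpow]
    · exact hm1
    · exact ENNReal.mul_ne_top (ENNReal.rpow_ne_top_of_nonneg ht1'.le f0)
        (ENNReal.rpow_ne_top_of_nonneg ht0.le f1)

/-- (P8b) slabs in `ℂ × ℝ`. -/
def Slab {κ : Type} (m : ℕ) (p : κ → ℂ) (c h : κ → ℝ) : Set (ℂ × ℝ) :=
  {x | ∀ i, ∀ j : ℕ,
    |((starRingEnd ℂ) (p i) * (ex (2 * Real.pi * j / m) * x.1)).re + c i * x.2| ≤ h i}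

theorem isClosed_Slab {κ : Type} (m : ℕ) (p : κ → ℂ) (c h : κ → ℝ) :
    IsClosed (Slab m p c h) := by
  have : Slab m p c h = ⋂ i, ⋂ j : ℕ, {x : ℂ × ℝ |
      |((starRingEnd ℂ) (p i) * (ex (2 * Real.pi * j / m) * x.1)).re + c i * x.2| ≤ h i} := by
    ext x; simp [Slab]
  rw [this]
  exact isClosed_iInter fun i => isClosed_iInter fun j =>
    isClosed_le (by fun_prop) continuous_const

/-- The section at height `s`. -/
def Sec {κ : Type} (m : ℕ) (p : κ → ℂ) (c h : κ → ℝ) (s : ℝ) : Set ℂ :=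
  {y | (y, s) ∈ Slab m p c h}

theorem measurable_sec {κ : Type} (m : ℕ) (p : κ → ℂ) (c h : κ → ℝ) :
    Measurable fun s : ℝ => volume (Sec m p c h s) :=
  measurable_measure_prodMk_right (isClosed_Slab m p c h).measurableSet

theorem sec_pos {κ : Type} (m : ℕ) (p : κ → ℂ) (c h : κ → ℝ) {s : ℝ} (hs : 0 < s) :
    volume (Sec m p c h s) = ENNReal.ofReal (s ^ 2) * volume (PS m p c fun i => h i / s) := by
  have h1 : Sec m p c h s = s • PS m p c fun i => h i / s := by
    ext y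
    rw [mem_smul_set_iff_inv_smul_mem₀ hs.ne']
    simp only [Sec, Slab, PS, mem_ofPred_eq]
    refine forall_congr' fun i => forall_congr' fun j => ?_
    have h2 : ((starRingEnd ℂ) (p i) * (ex (2 * Real.pi * j / m) * s⁻¹ • y)).re + c i =
        (((starRingEnd ℂ) (p i) * (ex (2 * Real.pi * j / m) * y)).re + c i * s) / s := by
      have h3 : (starRingEnd ℂ) (p i) * (ex (2 * Real.pi * j / m) * s⁻¹ • y) =
          s⁻¹ • ((starRingEnd ℂ) (p i) * (ex (2 * Real.pi * j / m) * y)) := by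
        simp only [Complex.real_smul]; ring
      rw [h3, Complex.smul_re, smul_eq_mul]
      field_simp
    rw [h2, abs_div, abs_of_pos hs, div_le_div_iff_of_pos_right hs]
  rw [h1, Measure.addHaar_smul, Complex.finrank_real_complex, abs_of_nonneg (by positivity)]

theorem sec_neg {κ : Type} (m : ℕ) (p : κ → ℂ) (c h : κ → ℝ) (s : ℝ) :
    volume (Sec m p c h (-s)) = volume (Sec m p c h s) := by
  have h1 : Sec m p c h (-s) = - Sec m p c h s := by
    ext y
    rw [Set.mem_neg]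
    simp only [Sec, Slab, mem_ofPred_eq]
    refine forall_congr' fun i => forall_congr' fun j => ?_
    have h2 : ((starRingEnd ℂ) (p i) * (ex (2 * Real.pi * j / m) * -y)).re + c i * s =
        -(((starRingEnd ℂ) (p i) * (ex (2 * Real.pi * j / m) * y)).re + c i * -s) := by
      have h3 : (starRingEnd ℂ) (p i) * (ex (2 * Real.pi * j / m) * -y) =
          -((starRingEnd ℂ) (p i) * (ex (2 * Real.pi * j / m) * y)) := by ring
      rw [h3, Complex.neg_re]; ring
    rw [h2, abs_neg]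
  rw [h1, Measure.measure_neg]

theorem vol_Slab {κ : Type} (m : ℕ) (p : κ → ℂ) (c h : κ → ℝ) :
    volume (Slab m p c h) = 2 * ∫⁻ s in Ioi (0 : ℝ), volume (Sec m p c h s) := by
  have h1 : volume (Slab m p c h) = ∫⁻ s : ℝ, volume (Sec m p c h s) := by
    rw [Measure.volume_eq_prod,
      Measure.prod_apply_symm (isClosed_Slab m p c h).measurableSet]
    rfl
  have h2 : ∫⁻ s in Iic (0 : ℝ), volume (Sec m p c h s) =
      ∫⁻ s in Ioi (0 : ℝ), volume (Sec m p c h s) := by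
    rw [setLIntegral_congr (Iio_ae_eq_Iic (a := (0 : ℝ)) (μ := volume)).symm]
    have h3 := (Measure.measurePreserving_neg (volume : Measure ℝ)).setLIntegral_comp_preimage
      (s := Iio (0 : ℝ)) measurableSet_Iio (measurable_sec m p c h)
    rw [← h3]
    have h4 : (Neg.neg ⁻¹' Iio (0 : ℝ)) = Ioi 0 := by ext; simp
    rw [h4]
    exact lintegral_congr fun s => sec_neg m p c h s
  rw [h1, ← lintegral_add_compl _ (measurableSet_Ioi : MeasurableSet (Ioi (0 : ℝ))),
    compl_Ioi, h2, two_mul]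

theorem slab_ineq {κ : Type} [Fintype κ] {m : ℕ} (hm : 3 ≤ m) (ho : Odd m) (p : κ → ℂ)
    (c : κ → ℝ) {h k : κ → ℝ} (hh : ∀ i, 0 < h i) (hk : ∀ i, 0 < k i) {t : ℝ}
    (ht0 : 0 < t) (ht1 : t < 1) :
    volume (Slab m p c h) ^ (1 - t) * volume (Slab m p c k) ^ t ≤
      volume (Slab m p c fun i => h i ^ (1 - t) * k i ^ t) := by
  have ht1' : 0 < 1 - t := by linarith
  have h1 := Vale.Agent.P227.T1.pl_mul ht0 ht1 (fun s => volume (Sec m p c h s))
    (fun s => volume (Sec m p c k s))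
    (fun s => volume (Sec m p c (fun i => h i ^ (1 - t) * k i ^ t) s))
    (measurable_sec m p c h) (measurable_sec m p c k) (measurable_sec m p c _) (by
      intro x y hx hy
      have hxy : 0 < x ^ (1 - t) * y ^ t := by positivity
      rw [sec_pos m p c h hx, sec_pos m p c k hy, sec_pos m p c _ hxy,
        ENNReal.mul_rpow_of_nonneg _ _ ht1'.le, ENNReal.mul_rpow_of_nonneg _ _ ht0.le,
        mul_mul_mul_comm]
      have h2 := planar_ps hm ho p c (h := fun i => h i / x) (k := fun i => k i / y)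
        (fun i => div_pos (hh i) hx) (fun i => div_pos (hk i) hy) ht0 ht1
      have h3 : (fun i => (h i / x) ^ (1 - t) * (k i / y) ^ t) =
          fun i => h i ^ (1 - t) * k i ^ t / (x ^ (1 - t) * y ^ t) := by
        funext i
        rw [Real.div_rpow (hh i).le hx.le, Real.div_rpow (hk i).le hy.le, div_mul_div_comm]
      have h4 : ENNReal.ofReal (x ^ 2) ^ (1 - t) * ENNReal.ofReal (y ^ 2) ^ t =
          ENNReal.ofReal ((x ^ (1 - t) * y ^ t) ^ 2) := by
        rw [ENNReal.ofReal_rpow_of_pos (by positivity), ENNReal.ofReal_rpow_of_pos (by positivity),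
          ← ENNReal.ofReal_mul (by positivity)]
        congr 1
        rw [← Real.rpow_natCast x 2, ← Real.rpow_natCast y 2, ← Real.rpow_mul hx.le,
          ← Real.rpow_mul hy.le, mul_pow, ← Real.rpow_natCast, ← Real.rpow_natCast,
          ← Real.rpow_mul hx.le, ← Real.rpow_mul hy.le]
        congr 2 <;> ring
      rw [h3] at h2
      rw [h4]
      gcongr)
  rw [vol_Slab, vol_Slab, vol_Slab, ENNReal.mul_rpow_of_nonneg _ _ ht1'.le,
    ENNReal.mul_rpow_of_nonneg _ _ ht0.le, mul_mul_mul_comm,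
    ← ENNReal.rpow_add _ _ (by norm_num) (by norm_num), sub_add_cancel, ENNReal.rpow_one]
  gcongr

/-- Support function in `ℂ × ℝ`. -/
noncomputable def h3 (K : Set (ℂ × ℝ)) (q : ℂ × ℝ) : ℝ :=
  sSup ((fun x : ℂ × ℝ => ((starRingEnd ℂ) q.1 * x.1).re + q.2 * x.2) '' K)

theorem continuous_form :
    Continuous ↿(fun (q x : ℂ × ℝ) => ((starRingEnd ℂ) q.1 * x.1).re + q.2 * x.2) := by
  have : Continuous fun z : (ℂ × ℝ) × (ℂ × ℝ) =>
      ((starRingEnd ℂ) z.1.1 * z.2.1).re + z.1.2 * z.2.2 := by fun_prop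
  exact this

theorem continuous_h3 {K : Set (ℂ × ℝ)} (hK : IsCompact K) : Continuous (h3 K) :=
  hK.continuous_sSup continuous_form

theorem le_h3 {K : Set (ℂ × ℝ)} (hK : IsCompact K) (q : ℂ × ℝ) {x : ℂ × ℝ} (hx : x ∈ K) :
    ((starRingEnd ℂ) q.1 * x.1).re + q.2 * x.2 ≤ h3 K q :=
  le_csSup (hK.image (by fun_prop)).bddAbove (mem_image_of_mem _ hx)

theorem h3_pos {K : Set (ℂ × ℝ)} (hK : IsCompact K) (iK : (interior K).Nonempty)
    (sK : ∀ x ∈ K, -x ∈ K) {q : ℂ × ℝ} (hq : q ≠ 0) : 0 < h3 K q := by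
  obtain ⟨x₀, hx₀⟩ := iK
  have h1 : ∀ᶠ e : ℝ in nhds 0, x₀ + e • q ∈ interior K := by
    have hc : Continuous fun e : ℝ => x₀ + e • q := by fun_prop
    have : (fun e : ℝ => x₀ + e • q) 0 ∈ interior K := by simpa using hx₀
    exact hc.continuousAt.eventually (isOpen_interior.mem_nhds this)
  obtain ⟨ε, hε, hball⟩ := Metric.eventually_nhds_iff.1 h1
  have e1 : x₀ + (ε / 2) • q ∈ K := interior_subset (hball (by
    rw [dist_zero_right, Real.norm_eq_abs, abs_of_pos (by linarith)]; linarith))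
  have e2 : x₀ + (-(ε / 2)) • q ∈ K := interior_subset (hball (by
    rw [dist_zero_right, Real.norm_eq_abs, abs_neg, abs_of_pos (by linarith)]; linarith))
  have f1 := le_h3 hK q e1
  have f2 := le_h3 hK q (sK _ e2)
  have hq' : 0 < ‖q.1‖ ^ 2 + q.2 ^ 2 := by
    by_contra hn
    have g1 : ‖q.1‖ ^ 2 = 0 := by nlinarith [sq_nonneg q.2, sq_nonneg ‖q.1‖]
    have g2 : q.2 ^ 2 = 0 := by nlinarith [sq_nonneg q.2, sq_nonneg ‖q.1‖]
    exact hq (Prod.ext (norm_eq_zero.1 (pow_eq_zero_iff two_ne_zero |>.1 g1))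
      (pow_eq_zero_iff two_ne_zero |>.1 g2))
  have g : ((starRingEnd ℂ) q.1 * q.1).re = ‖q.1‖ ^ 2 := by
    rw [mul_comm, Complex.mul_conj, Complex.ofReal_re, Complex.normSq_eq_norm_sq]
  have f3 : (((starRingEnd ℂ) q.1 * (x₀ + (ε / 2) • q).1).re + q.2 * (x₀ + (ε / 2) • q).2) +
      (((starRingEnd ℂ) q.1 * (-(x₀ + (-(ε / 2)) • q)).1).re +
        q.2 * (-(x₀ + (-(ε / 2)) • q)).2) = ε * (‖q.1‖ ^ 2 + q.2 ^ 2) := by
    rw [← g]
    simp only [Prod.fst_add, Prod.snd_add, Prod.fst_neg, Prod.snd_neg, Prod.smul_fst,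
      Prod.smul_snd, Complex.real_smul, smul_eq_mul, mul_add, mul_neg, Complex.add_re,
      Complex.neg_re, neg_mul, Complex.ofReal_neg, neg_add, neg_neg]
    have : ((starRingEnd ℂ) q.1 * (((ε / 2 : ℝ) : ℂ) * q.1)).re =
        ε / 2 * ((starRingEnd ℂ) q.1 * q.1).re := by
      rw [← Complex.re_ofReal_mul]; congr 1; ring
    rw [this]
    ring
  have f4 : 0 < ε * (‖q.1‖ ^ 2 + q.2 ^ 2) := by positivity
  linarith

theorem rot_mem {m : ℕ} {K : Set (ℂ × ℝ)}
    (rK : ∀ x ∈ K, (ex (2 * Real.pi / m) * x.1, x.2) ∈ K) (j : ℕ) :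
    ∀ x ∈ K, (ex (2 * Real.pi * j / m) * x.1, x.2) ∈ K := by
  induction j with
  | zero => intro x hx; simpa [ex] using hx
  | succ j ih =>
    intro x hx
    have h1 := rK _ (ih x hx)
    have h2 : (2 * Real.pi * ((j + 1 : ℕ) : ℝ) / m) = 2 * Real.pi / m + 2 * Real.pi * j / m := by
      push_cast; ring
    rw [h2, ex_add, mul_assoc]
    exact h1

theorem subset_Slab {κ : Type} {m : ℕ} {K : Set (ℂ × ℝ)} (hK : IsCompact K)
    (sK : ∀ x ∈ K, -x ∈ K) (rK : ∀ x ∈ K, (ex (2 * Real.pi / m) * x.1, x.2) ∈ K)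
    (q : κ → ℂ × ℝ) : K ⊆ Slab m (fun i => (q i).1) (fun i => (q i).2) fun i => h3 K (q i) := by
  intro x hx i j
  have h1 := rot_mem rK j x hx
  rw [abs_le]
  have h2 := le_h3 hK (q i) h1
  have h3 := le_h3 hK (q i) (sK _ h1)
  simp only [Prod.fst_neg, Prod.snd_neg, mul_neg, Complex.neg_re] at h2 h3
  constructor
  · linarith
  · exact h2

/-- (P8c) -/
theorem rot_bodies {m : ℕ} (hm : 3 ≤ m) (ho : Odd m) {K L : Set (ℂ × ℝ)}
    (cK : Convex ℝ K) (cL : Convex ℝ L) (hK : IsCompact K) (hL : IsCompact L)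
    (iK : (interior K).Nonempty) (iL : (interior L).Nonempty)
    (sK : ∀ x ∈ K, -x ∈ K) (sL : ∀ x ∈ L, -x ∈ L)
    (rK : ∀ x ∈ K, (ex (2 * Real.pi / m) * x.1, x.2) ∈ K)
    (rL : ∀ x ∈ L, (ex (2 * Real.pi / m) * x.1, x.2) ∈ L) {t : ℝ} (ht0 : 0 < t) (ht1 : t < 1) :
    volume K ^ (1 - t) * volume L ^ t ≤
      volume {x : ℂ × ℝ | ∀ q : ℂ × ℝ, q ≠ 0 →
        ((starRingEnd ℂ) q.1 * x.1).re + q.2 * x.2 ≤ h3 K q ^ (1 - t) * h3 L q ^ t} := by
  classical
  have ht1' : 0 < 1 - t := by linarith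
  -- the dense sequence
  have : Nonempty {q : ℂ × ℝ // q ≠ 0} := ⟨⟨(1, 0), by simp⟩⟩
  let d : ℕ → {q : ℂ × ℝ // q ≠ 0} := TopologicalSpace.denseSeq _
  have hd : DenseRange d := TopologicalSpace.denseRange_denseSeq _
  let q : ℕ → ℂ × ℝ := fun n => if n = 0 then (1, 0) else if n = 1 then (0, 1) else (d (n - 2)).1
  have hq0 : ∀ n, q n ≠ 0 := by
    intro n
    simp only [q]
    split_ifs
    · simp
    · simp
    · exact (d (n - 2)).2
  let H : ℂ × ℝ → ℝ := fun q => h3 K q ^ (1 - t) * h3 L q ^ t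
  have hH : ContinuousOn H {q | q ≠ 0} := by
    intro x hx
    refine ContinuousAt.continuousWithinAt ?_
    exact ((continuous_h3 hK).continuousAt.rpow_const (Or.inl (h3_pos hK iK sK hx).ne')).mul
      ((continuous_h3 hL).continuousAt.rpow_const (Or.inl (h3_pos hL iL sL hx).ne'))
  let SN : ℕ → Set (ℂ × ℝ) := fun N => Slab m (fun i : Fin (N + 2) => (q i).1)
    (fun i => (q i).2) fun i => H (q i)
  have hanti : Antitone SN := by
    intro N N' hN x hx i j
    exact hx ⟨i, by omega⟩ j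
  have hle : ∀ N, volume K ^ (1 - t) * volume L ^ t ≤ volume (SN N) := by
    intro N
    refine le_trans ?_ (slab_ineq hm ho (fun i : Fin (N + 2) => (q i).1) (fun i => (q i).2)
      (h := fun i => h3 K (q i)) (k := fun i => h3 L (q i)) (fun i => h3_pos hK iK sK (hq0 i))
      (fun i => h3_pos hL iL sL (hq0 i)) ht0 ht1)
    gcongr
    · exact subset_Slab hK sK rK fun i : Fin (N + 2) => q i
    · exact subset_Slab hL sL rL fun i : Fin (N + 2) => q i
  have hfin : volume (SN 0) ≠ ⊤ := by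
    have h1 : SN 0 ⊆ (SS m (fun _ : Unit => 0) (fun _ => 0) fun _ => H (q 0)) ×ˢ
        Icc (-(H (q 1))) (H (q 1)) := by
      intro x hx
      refine ⟨fun i j => ?_, ?_⟩
      · have h2 := hx ⟨0, by norm_num⟩ ((m - 1) * j)
        have h3 := ex_flip' (by omega : 0 < m) 0 j
        rw [neg_zero, zero_add] at h3
        simp only [q, if_true, map_one, one_mul, zero_mul, add_zero, h3] at h2
        simpa [q] using h2
      · have h2 := hx ⟨1, by norm_num⟩ 0
        simp only [q, one_ne_zero, if_false, if_true, map_zero, zero_mul, Complex.zero_re,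
          zero_add, one_mul] at h2
        exact abs_le.1 h2
    refine ((measure_mono h1).trans_lt ?_).ne
    rw [Measure.volume_eq_prod, Measure.prod_prod]
    exact ENNReal.mul_lt_top (SS_bdd hm _ _ _).lt_top (by simp)
  have hlim : Filter.Tendsto (fun N => volume (SN N)) Filter.atTop (nhds (volume (⋂ N, SN N))) :=
    tendsto_measure_iInter_atTop
      (fun N => (isClosed_Slab _ _ _ _).measurableSet.nullMeasurableSet) hanti ⟨0, hfin⟩
  refine (ge_of_tendsto' hlim hle).trans (measure_mono ?_)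
  intro x hx q' hq'
  have hx' : ∀ n, ((starRingEnd ℂ) (q n).1 * x.1).re + (q n).2 * x.2 ≤ H (q n) := by
    intro n
    have h1 := (mem_iInter.1 hx n) ⟨n, by omega⟩ 0
    have h2 : ex (2 * Real.pi * (0 : ℕ) / m) = 1 := by simp [ex]
    rw [h2, one_mul] at h1
    exact (abs_le.1 h1).2
  have hcl : IsClosed {y : {q : ℂ × ℝ // q ≠ 0} |
      ((starRingEnd ℂ) y.1.1 * x.1).re + y.1.2 * x.2 ≤ H y.1} := by
    refine isClosed_le (by fun_prop) ?_
    exact hH.comp_continuous continuous_subtype_val fun y => y.2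
  have hall : (univ : Set {q : ℂ × ℝ // q ≠ 0}) ⊆ {y : {q : ℂ × ℝ // q ≠ 0} |
      ((starRingEnd ℂ) y.1.1 * x.1).re + y.1.2 * x.2 ≤ H y.1} := by
    rw [← hd.closure_range]
    refine closure_minimal ?_ hcl
    rintro _ ⟨n, rfl⟩
    have h1 := hx' (n + 2)
    have h2 : q (n + 2) = (d n).1 := by simp [q]
    rw [h2] at h1
    exact h1
  exact hall (mem_univ (⟨q', hq'⟩ : {q : ℂ × ℝ // q ≠ 0}))

end Vale.Agent.P227.Rot
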