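import Vale.Agent.P227.Rot.SymD
import Vale.Agent.P227.Final.Bridge
import Vale.Agent.P227.Rot.Three

open MeasureTheory Set
open scoped Pointwise ENNReal NNReal

namespace Vale.Agent.P227.Rot

open Vale.Agent.P227.Final (E)

lemma sym_scale (T : E 3 ≃L[ℝ] ℂ × ℝ) :
    ∃ c : ℝ≥0∞, c ≠ 0 ∧ c ≠ ∞ ∧ ∀ S : Set (E 3), volume (T '' S) = c * volume S := by
  have h0 : (volume : Measure (ℂ × ℝ)).IsAddHaarMeasure := by
    rw [Measure.volume_eq_prod]
    infer_instance
  have h1 : (Measure.map T.symm (volume : Measure (ℂ × ℝ))).IsAddHaarMeasure :=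
    T.symm.isAddHaarMeasure_map _
  have h2 := Measure.isAddLeftInvariant_eq_smul (Measure.map T.symm (volume : Measure (ℂ × ℝ)))
    (volume : Measure (E 3))
  set c := Measure.addHaarScalarFactor (Measure.map T.symm (volume : Measure (ℂ × ℝ)))
    (volume : Measure (E 3)) with hc
  refine ⟨c, ?_, ENNReal.coe_ne_top, ?_⟩
  · have := Measure.addHaarScalarFactor_pos_of_isAddHaarMeasure
      (Measure.map T.symm (volume : Measure (ℂ × ℝ))) (volume : Measure (E 3))
    exact_mod_cast this.ne'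
  · intro S
    have h3 : volume (T '' S) = (Measure.map T.symm (volume : Measure (ℂ × ℝ))) S := by
      have := T.symm.toHomeomorph.toMeasurableEquiv.map_apply (μ := volume) S
      rw [show (Measure.map T.symm (volume : Measure (ℂ × ℝ))) S =
        volume (T.symm ⁻¹' S) from this]
      congr 1
      exact T.image_eq_preimage_symm S
    rw [h3, h2]
    rfl

/-- The rotation case. -/
theorem sym_rot_case (K L : Set (E 3)) (hK : Final.SymConvexBody K) (hL : Final.SymConvexBody L)
    (T : E 3 ≃L[ℝ] ℂ × ℝ) {m : ℕ} (hm : 3 ≤ m) (ho : Odd m)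
    (rK : ∀ x ∈ T '' K, (ex (2 * Real.pi / m) * x.1, x.2) ∈ T '' K)
    (rL : ∀ x ∈ T '' L, (ex (2 * Real.pi / m) * x.1, x.2) ∈ T '' L)
    {t : ℝ} (h0 : 0 < t) (h1 : t < 1) :
    (volume : Measure (E 3)) K ^ (1 - t) * (volume : Measure (E 3)) L ^ t ≤
      (volume : Measure (E 3)) (Final.logComb t K L) := by
  obtain ⟨c, hc0, hc1, hc⟩ := sym_scale T
  set v : E 3 → ℂ × ℝ := fun u => (⟨inner ℝ (T.symm (1, 0)) u, inner ℝ (T.symm (Complex.I, 0)) u⟩,
    inner ℝ (T.symm (0, 1)) u) with hv
  have hdot : ∀ x u : E 3, ((starRingEnd ℂ) (v u).1 * (T x).1).re + (v u).2 * (T x).2 =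
      inner ℝ x u := by
    intro x u
    have hx : x = (T x).1.re • T.symm (1, 0) + (T x).1.im • T.symm (Complex.I, 0) +
        (T x).2 • T.symm (0, 1) := by
      apply T.injective
      simp only [map_add, map_smul, ContinuousLinearEquiv.apply_symm_apply]
      refine Prod.ext (Complex.ext ?_ ?_) ?_ <;> simp
    conv_rhs => rw [hx]
    rw [inner_add_left, inner_add_left, inner_smul_left, inner_smul_left, inner_smul_left]
    simp only [hv, Complex.mul_re, Complex.conj_re, Complex.conj_im, conj_trivial]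
    ring
  have hv0 : ∀ u : E 3, ‖u‖ = 1 → v u ≠ 0 := by
    intro u hu h
    have h3 := hdot u u
    rw [h, real_inner_self_eq_norm_sq, hu] at h3
    simp at h3
  have hsup : ∀ (S : Set (E 3)) u, h3 (T '' S) (v u) = Final.supportFn S u := by
    intro S u
    unfold h3 Final.supportFn
    rw [image_image]
    congr 1
    apply image_congr
    intro x _
    exact hdot x u
  have hconv : ∀ S : Set (E 3), Convex ℝ S → Convex ℝ (T '' S) := fun S hS =>
    hS.is_linear_image (T : E 3 →ₗ[ℝ] ℂ × ℝ).isLinear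
  have hcomp : ∀ S : Set (E 3), IsCompact S → IsCompact (T '' S) := fun S hS =>
    hS.image T.continuous
  have hint : ∀ S : Set (E 3), (interior S).Nonempty → (interior (T '' S)).Nonempty := by
    intro S hS
    have : T '' interior S = interior (T '' S) := T.toHomeomorph.image_interior S
    rw [← this]
    exact hS.image _
  have hsym : ∀ S : Set (E 3), (∀ x ∈ S, -x ∈ S) → ∀ y ∈ T '' S, -y ∈ T '' S := by
    rintro S hS _ ⟨x, hx, rfl⟩
    exact ⟨-x, hS x hx, by simp⟩
  have key := rot_bodies hm ho (hconv K hK.convex) (hconv L hL.convex)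
    (hcomp K hK.isCompact) (hcomp L hL.isCompact) (hint K hK.nonempty_interior)
    (hint L hL.nonempty_interior) (hsym K hK.symm) (hsym L hL.symm) rK rL h0 h1
  have hincl : {x : ℂ × ℝ | ∀ q : ℂ × ℝ, q ≠ 0 →
        ((starRingEnd ℂ) q.1 * x.1).re + q.2 * x.2 ≤
          h3 (T '' K) q ^ (1 - t) * h3 (T '' L) q ^ t} ⊆ T '' (Final.logComb t K L) := by
    intro y hy
    refine ⟨T.symm y, ?_, by simp⟩
    intro u hu
    have := hy (v u) (hv0 u hu)
    show inner ℝ (T.symm y) u ≤ _
    rw [← hdot, T.apply_symm_apply]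
    simpa only [hsup] using this
  have key2 := le_trans key (measure_mono hincl)
  rw [hc, hc, hc, ENNReal.mul_rpow_of_nonneg _ _ (by linarith),
    ENNReal.mul_rpow_of_nonneg _ _ h0.le, mul_mul_mul_comm, ← ENNReal.rpow_add _ _ hc0 hc1] at key2
  simp only [sub_add_cancel, ENNReal.rpow_one] at key2
  exact (ENNReal.mul_le_mul_iff_right hc0 hc1).1 key2

lemma sym_logComb_zero {K : Set (E 3)} (hK : Final.SymConvexBody K) (L : Set (E 3)) :
    K ⊆ Final.logComb 0 K L := by
  intro x hx u _
  simp only [sub_zero, Real.rpow_one, Real.rpow_zero, mul_one]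
  exact le_csSup (hK.isCompact.image (by unfold Final.ip; fun_prop)).bddAbove ⟨x, hx, rfl⟩

lemma sym_logComb_one (K : Set (E 3)) {L : Set (E 3)} (hL : Final.SymConvexBody L) :
    L ⊆ Final.logComb 1 K L := by
  intro x hx u _
  simp only [sub_self, Real.rpow_one, Real.rpow_zero, one_mul]
  exact le_csSup (hL.isCompact.image (by unfold Final.ip; fun_prop)).bddAbove ⟨x, hx, rfl⟩

/-- Main theorem. -/
theorem main_rot (K L : Set (E 3)) (hK : Final.SymConvexBody K) (hL : Final.SymConvexBody L)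
    (A : E 3 →ₗ[ℝ] E 3) (hAK : A '' K = K) (hAL : A '' L = L) (h1 : A ≠ LinearMap.id)
    (h2 : A ≠ -LinearMap.id) (t : ℝ) (ht0 : 0 ≤ t) (ht1 : t ≤ 1) :
    Final.evol K ^ (1 - t) * Final.evol L ^ t ≤ Final.evol (Final.logComb t K L) := by
  rcases symmetry_dichotomy hK hL A hAK hAL h1 h2 with ⟨v, w, hvK, hvL⟩ | ⟨T, m, hm, ho, hr, hr'⟩
  · exact Final.part3 1 v w K L hK hL hvK hvL t ht0 ht1
  have hfin : volume (Final.logComb t K L) ≠ ⊤ :=
    (Vale.Agent.P227.logComb_facts (by omega) (Final.scb hK) (Final.scb hL) ht0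
      ht1).1.isCompact.measure_lt_top.ne
  have hmain : (volume : Measure (E 3)) K ^ (1 - t) * (volume : Measure (E 3)) L ^ t ≤
      (volume : Measure (E 3)) (Final.logComb t K L) := by
    rcases ht0.eq_or_lt with h0 | h0
    · subst h0
      rw [sub_zero, ENNReal.rpow_one, ENNReal.rpow_zero, mul_one]
      exact measure_mono (sym_logComb_zero hK L)
    rcases ht1.eq_or_lt with h1 | h1
    · subst h1
      rw [sub_self, ENNReal.rpow_one, ENNReal.rpow_zero, one_mul]
      exact measure_mono (sym_logComb_one K hL)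
    exact sym_rot_case K L hK hL T hm ho hr hr' h0 h1
  have h3 := ENNReal.toReal_mono hfin hmain
  rw [ENNReal.toReal_mul, ← ENNReal.toReal_rpow, ← ENNReal.toReal_rpow] at h3
  exact h3

end Vale.Agent.P227.Rot
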