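import Vale.Agent.P227.Rot.Defs
import Vale.Agent.P227.Final.Defs

open MeasureTheory Set Matrix
open scoped Pointwise ENNReal MatrixOrder

namespace Vale.Agent.P227.Rot

lemma posDef_factor {n : ℕ} {M : Matrix (Fin n) (Fin n) ℝ} (hM : M.PosDef) :
    ∃ N : Matrix (Fin n) (Fin n) ℝ, IsUnit N.det ∧ M = N * Nᵀ := by
  obtain ⟨y, hy⟩ := CStarAlgebra.nonneg_iff_eq_star_mul_self.mp hM.posSemidef.nonneg
  refine ⟨yᵀ, ?_, ?_⟩
  · have h1 : IsUnit M.det := (Matrix.isUnit_iff_isUnit_det _).1 hM.isUnit
    rw [hy, Matrix.det_mul] at h1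
    rw [Matrix.det_transpose]
    exact isUnit_of_mul_isUnit_right h1
  · rw [hy, Matrix.transpose_transpose, Matrix.star_eq_conjTranspose,
      Matrix.conjTranspose_eq_transpose_of_trivial]

/-- Second moments. -/
noncomputable def mom {n : ℕ} (K : Set (EuclideanSpace ℝ (Fin n))) : Matrix (Fin n) (Fin n) ℝ :=
  Matrix.of fun i j => ∫ z in K, z i * z j

lemma mom_posDef {n : ℕ} {K : Set (EuclideanSpace ℝ (Fin n))} (hK : IsCompact K)
    (iK : (interior K).Nonempty) : (mom K).PosDef := by
  have hint : ∀ i j, IntegrableOn (fun z : EuclideanSpace ℝ (Fin n) => z i * z j) K volume :=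
    fun i j => (by fun_prop : Continuous fun z : EuclideanSpace ℝ (Fin n) =>
      z i * z j).continuousOn.integrableOn_compact hK
  apply Matrix.PosDef.of_dotProduct_mulVec_pos
  · ext i j
    simp [mom, mul_comm]
  · intro x hx
    have h1 : star x ⬝ᵥ (mom K *ᵥ x) = ∫ z in K, (∑ i, z i * x i) ^ 2 := by
      have : ∀ z : EuclideanSpace ℝ (Fin n), (∑ i, z i * x i) ^ 2 =
          ∑ i, ∑ j, (x i * x j) * (z i * z j) := by
        intro z
        rw [sq, Finset.sum_mul_sum]
        refine Finset.sum_congr rfl fun i _ => Finset.sum_congr rfl fun j _ => ?_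
        ring
      simp_rw [this]
      rw [integral_finsetSum]
      · simp only [dotProduct, mulVec, mom, Finset.mul_sum, star_trivial, Matrix.of_apply]
        refine Finset.sum_congr rfl fun i _ => ?_
        rw [integral_finsetSum]
        · refine Finset.sum_congr rfl fun j _ => ?_
          rw [integral_const_mul]
          ring
        · intro j _
          exact (hint i j).const_mul _
      · intro i _
        exact integrable_finsetSum _ fun j _ => (hint i j).const_mul _
    rw [h1, setIntegral_pos_iff_support_of_nonneg_ae]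
    · have hop : IsOpen (Function.support fun z : EuclideanSpace ℝ (Fin n) =>
          (∑ i, z i * x i) ^ 2) := by
        exact (by fun_prop : Continuous fun z : EuclideanSpace ℝ (Fin n) =>
          (∑ i, z i * x i) ^ 2).isOpen_support
      obtain ⟨p, hp⟩ := iK
      have hne : ((Function.support fun z : EuclideanSpace ℝ (Fin n) =>
          (∑ i, z i * x i) ^ 2) ∩ interior K).Nonempty := by
        by_contra hcon
        rw [Set.not_nonempty_iff_eq_empty] at hcon
        have hz : ∀ z ∈ interior K, ∑ i, z i * x i = 0 := by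
          intro z hz
          by_contra h
          have : z ∈ (Function.support fun z : EuclideanSpace ℝ (Fin n) =>
            (∑ i, z i * x i) ^ 2) ∩ interior K := ⟨pow_ne_zero 2 h, hz⟩
          rw [hcon] at this
          exact this
        set X : EuclideanSpace ℝ (Fin n) := WithLp.toLp 2 x with hX
        have hc : Continuous fun r : ℝ => p + r • X := by fun_prop
        have hnh : ∀ᶠ r : ℝ in nhds 0, p + r • X ∈ interior K := by
          apply hc.continuousAt.eventually
          simp only [zero_smul, add_zero]
          exact isOpen_interior.mem_nhds hp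
        obtain ⟨r, hr, hr0⟩ : ∃ r : ℝ, p + r • X ∈ interior K ∧ r ≠ 0 := by
          have h3 : ∀ᶠ r : ℝ in nhdsWithin 0 {0}ᶜ, p + r • X ∈ interior K ∧ r ≠ 0 :=
            (hnh.filter_mono nhdsWithin_le_nhds).and self_mem_nhdsWithin
          exact h3.exists
        have h4 := hz _ hr
        have h5 := hz _ hp
        have h6 : ∑ i, (p + r • X) i * x i = (∑ i, p i * x i) + r * ∑ i, x i * x i := by
          rw [Finset.mul_sum, ← Finset.sum_add_distrib]
          refine Finset.sum_congr rfl fun i _ => ?_
          simp [hX]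
          ring
        rw [h6, h5, zero_add, mul_eq_zero] at h4
        have h7 := h4.resolve_left hr0
        apply hx
        funext i
        have h8 := (Finset.sum_eq_zero_iff_of_nonneg (fun i _ => mul_self_nonneg (x i))).1 h7 i
          (Finset.mem_univ i)
        simpa using h8
      refine ((hop.inter isOpen_interior).measure_pos volume hne).trans_le ?_
      exact measure_mono (Set.inter_subset_inter_right _ interior_subset)
    · exact Filter.Eventually.of_forall fun z => sq_nonneg _
    · have : ∀ z : EuclideanSpace ℝ (Fin n), (∑ i, z i * x i) ^ 2 =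
          (∑ i, z i * x i) ^ 2 := fun z => rfl
      exact (by fun_prop : Continuous fun z : EuclideanSpace ℝ (Fin n) =>
          (∑ i, z i * x i) ^ 2).continuousOn.integrableOn_compact hK

lemma abs_det_of_image {n : ℕ} {K : Set (EuclideanSpace ℝ (Fin n))} (hK : IsCompact K)
    (iK : (interior K).Nonempty) (A : EuclideanSpace ℝ (Fin n) →ₗ[ℝ] EuclideanSpace ℝ (Fin n))
    (hA : A '' K = K) : |LinearMap.det A| = 1 := by
  have h := Measure.addHaar_image_linearMap (volume : Measure (EuclideanSpace ℝ (Fin n))) A K
  rw [hA] at h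
  have h0 : volume K ≠ 0 := by
    have := isOpen_interior.measure_pos volume iK
    exact (this.trans_le (measure_mono interior_subset)).ne'
  have h1 : volume K ≠ ⊤ := hK.measure_lt_top.ne
  have h2 : ENNReal.ofReal |LinearMap.det A| * volume K = 1 * volume K := by
    rw [one_mul]
    exact h.symm
  have h3 := (ENNReal.mul_left_inj h0 h1).1 h2
  rw [← ENNReal.ofReal_one] at h3
  exact (ENNReal.ofReal_eq_ofReal_iff (abs_nonneg _) zero_le_one).1 h3

lemma mom_invariant {n : ℕ} {K : Set (EuclideanSpace ℝ (Fin n))} (hK : IsCompact K)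
    (A : EuclideanSpace ℝ (Fin n) →ₗ[ℝ] EuclideanSpace ℝ (Fin n))
    (hdet : |LinearMap.det A| = 1) (hA : A '' K = K) :
    Matrix.toEuclideanLin.symm A * mom K * (Matrix.toEuclideanLin.symm A)ᵀ = mom K := by
  set B := Matrix.toEuclideanLin.symm A with hB
  have hAB : ∀ z : EuclideanSpace ℝ (Fin n), ∀ i, (A z) i = ∑ j, B i j * z j := by
    intro z i
    have : A = Matrix.toEuclideanLin B := by rw [hB]; simp
    rw [this]
    simp [Matrix.mulVec, dotProduct]
  have hint : ∀ i j, IntegrableOn (fun z : EuclideanSpace ℝ (Fin n) => z i * z j) K volume :=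
    fun i j => (by fun_prop : Continuous fun z : EuclideanSpace ℝ (Fin n) =>
      z i * z j).continuousOn.integrableOn_compact hK
  have hd0 : LinearMap.det A ≠ 0 := by
    intro h
    rw [h, abs_zero] at hdet
    exact zero_ne_one hdet
  have hmp : MeasurePreserving A (volume : Measure (EuclideanSpace ℝ (Fin n))) volume := by
    refine ⟨(LinearMap.continuous_of_finiteDimensional A).measurable, ?_⟩
    rw [Measure.map_linearMap_addHaar_eq_smul_addHaar _ hd0, abs_inv, hdet]
    simp
  set e : EuclideanSpace ℝ (Fin n) ≃ₗ[ℝ] EuclideanSpace ℝ (Fin n) :=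
    LinearMap.equivOfDetNeZero A hd0 with he
  have heA : ∀ x, e x = A x := fun x => rfl
  have hpre : A ⁻¹' K = K := by
    ext x
    constructor
    · intro hx
      have hx' : A x ∈ A '' K := by rw [hA]; exact hx
      obtain ⟨y, hy, hxy⟩ := hx'
      have : y = x := e.injective hxy
      rwa [← this]
    · intro hx
      have : A x ∈ A '' K := ⟨x, hx, rfl⟩
      rwa [hA] at this
  have hemb : MeasurableEmbedding A :=
    e.toContinuousLinearEquiv.toHomeomorph.measurableEmbedding
  ext i j
  have h1 := hmp.setIntegral_preimage_emb hemb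
    (fun z : EuclideanSpace ℝ (Fin n) => z i * z j) K
  rw [hpre] at h1
  have h2 : (mom K) i j = ∫ z in K, (∑ k, B i k * z k) * (∑ l, B j l * z l) := by
    simp only [mom, Matrix.of_apply]
    rw [← h1]
    simp_rw [hAB]
  rw [h2]
  have h3 : ∀ z : EuclideanSpace ℝ (Fin n), (∑ k, B i k * z k) * (∑ l, B j l * z l) =
      ∑ k, ∑ l, (B i k * B j l) * (z k * z l) := by
    intro z
    rw [Finset.sum_mul_sum]
    refine Finset.sum_congr rfl fun k _ => Finset.sum_congr rfl fun l _ => ?_
    ring
  simp_rw [h3]
  rw [integral_finsetSum]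
  · rw [Matrix.mul_apply]
    simp only [Matrix.mul_apply, Matrix.transpose_apply, Finset.sum_mul]
    rw [Finset.sum_comm]
    refine Finset.sum_congr rfl fun k _ => ?_
    rw [integral_finsetSum]
    · refine Finset.sum_congr rfl fun l _ => ?_
      rw [integral_const_mul]
      simp only [mom, Matrix.of_apply]
      ring
    · intro l _
      exact (hint k l).const_mul _
  · intro k _
    exact integrable_finsetSum _ fun l _ => (hint k l).const_mul _

end Vale.Agent.P227.Rot
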