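import Vale.Agent.P227.Rot.Defs
import Vale.Agent.P227.Final.Defs

open MeasureTheory Set Matrix
open scoped Pointwise ENNReal

namespace Vale.Agent.P227.Rot

lemma det_sub_one_eq_zero {O : Matrix (Fin 3) (Fin 3) ℝ} (hO : O * Oᵀ = 1) (hd : O.det = 1) :
    (O - 1).det = 0 := by
  have h1 : (O - 1).det = (O * (1 - Oᵀ)).det := by
    congr 1
    rw [Matrix.mul_sub, hO, Matrix.mul_one]
  have h2 : (1 - Oᵀ) = (-(O - 1))ᵀ := by
    rw [neg_sub, Matrix.transpose_sub, Matrix.transpose_one]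
  rw [h2, Matrix.det_mul, hd, one_mul, Matrix.det_transpose, Matrix.det_neg] at h1
  simp only [Fintype.card_fin] at h1
  linarith

lemma rot_normal_form {O : Matrix (Fin 3) (Fin 3) ℝ} (hO : O * Oᵀ = 1) (hd : O.det = 1)
    (h1 : O ≠ 1) : ∃ (Q : Matrix (Fin 3) (Fin 3) ℝ) (c s : ℝ), Qᵀ * Q = 1 ∧
      Qᵀ * O * Q = !![c, -s, 0; s, c, 0; 0, 0, 1] ∧ c ^ 2 + s ^ 2 = 1 ∧ c ≠ 1 := by
  obtain ⟨e0, he0, he1⟩ := Matrix.exists_mulVec_eq_zero_iff.2 (det_sub_one_eq_zero hO hd)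
  have hOe0 : O *ᵥ e0 = e0 := by
    rw [Matrix.sub_mulVec, Matrix.one_mulVec, sub_eq_zero] at he1
    exact he1
  set E0 : EuclideanSpace ℝ (Fin 3) := WithLp.toLp 2 e0 with hE0
  have hE0n : E0 ≠ 0 := by
    intro h
    apply he0
    have := congrArg WithLp.ofLp h
    simpa [hE0] using this
  set e : EuclideanSpace ℝ (Fin 3) := (‖E0‖⁻¹ : ℝ) • E0 with he
  have hen : ‖e‖ = 1 := by
    rw [he, norm_smul, norm_inv, norm_norm, inv_mul_cancel₀ (norm_ne_zero_iff.2 hE0n)]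
  have hOe : O *ᵥ e.ofLp = e.ofLp := by
    have : e.ofLp = (‖E0‖⁻¹ : ℝ) • e0 := by simp [he, hE0]
    rw [this, Matrix.mulVec_smul, hOe0]
  obtain ⟨b, hb⟩ := Orthonormal.exists_orthonormalBasis_extension_of_card_eq
    (𝕜 := ℝ) (E := EuclideanSpace ℝ (Fin 3)) (ι := Fin 3) (by simp)
    (v := fun _ => e) (s := {2}) (by
      rw [orthonormal_iff_ite]
      rintro ⟨i, hi⟩ ⟨j, hj⟩
      simp only [Set.mem_singleton_iff] at hi hj
      subst hi hj
      simp [hen])
  have hb2 : b 2 = e := hb 2 rfl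
  set Q : Matrix (Fin 3) (Fin 3) ℝ := Matrix.of fun i j => (b j) i with hQ
  have hQQ : Qᵀ * Q = 1 := by
    ext i j
    rw [Matrix.mul_apply]
    have := orthonormal_iff_ite.1 b.orthonormal i j
    rw [PiLp.inner_apply] at this
    rw [Matrix.one_apply, ← this]
    refine Finset.sum_congr rfl fun k _ => ?_
    simp [hQ, mul_comm]
  have hQQ' : Q * Qᵀ = 1 := mul_eq_one_comm.1 hQQ
  set R := Qᵀ * O * Q with hR
  have hRR : R * Rᵀ = 1 := by
    rw [hR, Matrix.transpose_mul, Matrix.transpose_mul, Matrix.transpose_transpose]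
    calc Qᵀ * O * Q * (Qᵀ * (Oᵀ * Q)) = Qᵀ * O * (Q * Qᵀ) * Oᵀ * Q := by
          simp only [Matrix.mul_assoc]
      _ = Qᵀ * (O * Oᵀ) * Q := by
          rw [hQQ', Matrix.mul_one]
          simp only [Matrix.mul_assoc]
      _ = 1 := by rw [hO, Matrix.mul_one, hQQ]
  have hRd : R.det = 1 := by
    rw [hR, Matrix.det_mul, Matrix.det_mul, hd, mul_one, ← Matrix.det_mul, hQQ, Matrix.det_one]
  have hR2 : ∀ i, R i 2 = if i = 2 then 1 else 0 := by
    intro i
    have hcol : Q.col 2 = e.ofLp := by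
      funext k
      simp [hQ, Matrix.col_apply, hb2]
    have h3 : R.col 2 = (1 : Matrix (Fin 3) (Fin 3) ℝ).col 2 := by
      have h4 : R.col 2 = Qᵀ *ᵥ (O *ᵥ (Q.col 2)) := by
        funext k
        simp only [hR, Matrix.col_apply, Matrix.mul_assoc, Matrix.mul_apply, Matrix.mulVec,
          dotProduct]
      rw [h4, hcol, hOe, ← hcol]
      funext k
      rw [Matrix.col_apply, ← hQQ, Matrix.mul_apply]
      rfl
    have h5 := congrFun h3 i
    rw [Matrix.col_apply, Matrix.col_apply, Matrix.one_apply] at h5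
    exact h5
  have e02 : R 0 2 = 0 := by rw [hR2]; simp
  have e12 : R 1 2 = 0 := by rw [hR2]; simp
  have e22 : R 2 2 = 1 := by rw [hR2]; simp
  have r : ∀ i j, R i 0 * R j 0 + R i 1 * R j 1 + R i 2 * R j 2 =
      if i = j then 1 else 0 := by
    intro i j
    have := congrFun (congrFun hRR i) j
    rw [Matrix.mul_apply, Fin.sum_univ_three, Matrix.one_apply] at this
    exact this
  have r22 := r 2 2
  have r00 := r 0 0
  have r01 := r 0 1
  have r11 := r 1 1
  rw [e22] at r22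
  rw [e02] at r00
  rw [e02] at r01
  rw [e12] at r11
  simp only [if_true] at r22 r00 r11
  rw [if_neg (by decide)] at r01
  have e20 : R 2 0 = 0 := by nlinarith [mul_self_nonneg (R 2 0), mul_self_nonneg (R 2 1)]
  have e21 : R 2 1 = 0 := by nlinarith [mul_self_nonneg (R 2 0), mul_self_nonneg (R 2 1)]
  have hdet : R 0 0 * R 1 1 - R 0 1 * R 1 0 = 1 := by
    rw [Matrix.det_fin_three, e02, e12, e22, e20, e21] at hRd
    linarith
  have e11 : R 1 1 = R 0 0 := by
    linear_combination (- R 1 1) * r00 + R 0 1 * r01 + R 0 0 * hdet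
  have e01 : R 0 1 = - R 1 0 := by
    linear_combination (- R 0 1) * r11 + R 1 1 * r01 - R 1 0 * hdet
  have hcs : R 0 0 ^ 2 + R 1 0 ^ 2 = 1 := by
    rw [e01] at r00
    linarith
  have hRm : R = !![R 0 0, -R 1 0, 0; R 1 0, R 0 0, 0; 0, 0, 1] := by
    ext i j
    fin_cases i <;> fin_cases j <;> simp [e01, e02, e11, e12, e20, e21, e22]
  refine ⟨Q, R 0 0, R 1 0, hQQ, hRm, hcs, ?_⟩
  intro hc
  have hs : R 1 0 = 0 := by
    rw [hc] at hcs
    have : R 1 0 ^ 2 = 0 := by linarith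
    exact pow_eq_zero_iff (two_ne_zero) |>.1 this
  have hR1 : R = 1 := by
    rw [hRm, hc, hs]
    ext i j
    fin_cases i <;> fin_cases j <;> simp
  apply h1
  calc O = (Q * Qᵀ) * O * (Q * Qᵀ) := by rw [hQQ', Matrix.one_mul, Matrix.mul_one]
    _ = Q * R * Qᵀ := by rw [hR]; simp only [Matrix.mul_assoc]
    _ = 1 := by rw [hR1, Matrix.mul_one, hQQ']

end Vale.Agent.P227.Rot
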