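import Vale.Agent.P227.Rot.SymA
import Vale.Agent.P227.Rot.SymB

open MeasureTheory Set Matrix
open scoped Pointwise ENNReal

namespace Vale.Agent.P227.Rot

/-- Coordinates. -/
noncomputable def coordEquiv (P : Matrix (Fin 3) (Fin 3) ℝ) (hP : IsUnit P.det) :
    EuclideanSpace ℝ (Fin 3) ≃ₗ[ℝ] ℂ × ℝ where
  toFun x := (⟨(P *ᵥ x.ofLp) 0, (P *ᵥ x.ofLp) 1⟩, (P *ᵥ x.ofLp) 2)
  map_add' x y := by
    refine Prod.ext (Complex.ext ?_ ?_) ?_ <;> simp [Matrix.mulVec_add]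
  map_smul' r x := by
    refine Prod.ext (Complex.ext ?_ ?_) ?_ <;> simp [Matrix.mulVec_smul]
  invFun z := WithLp.toLp 2 (P⁻¹ *ᵥ ![z.1.re, z.1.im, z.2])
  left_inv x := by
    have : (![(P *ᵥ x.ofLp) 0, (P *ᵥ x.ofLp) 1, (P *ᵥ x.ofLp) 2] : Fin 3 → ℝ) =
        P *ᵥ x.ofLp := by
      funext i
      fin_cases i <;> rfl
    simp only [this, Matrix.mulVec_mulVec, Matrix.nonsing_inv_mul P hP, Matrix.one_mulVec,
      WithLp.toLp_ofLp]
  right_inv z := by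
    have : P *ᵥ (P⁻¹ *ᵥ ![z.1.re, z.1.im, z.2]) = ![z.1.re, z.1.im, z.2] := by
      rw [Matrix.mulVec_mulVec, Matrix.mul_nonsing_inv P hP, Matrix.one_mulVec]
    ext <;> simp [this]

lemma exists_coords {K : Set (EuclideanSpace ℝ (Fin 3))} (hK : IsCompact K)
    (iK : (interior K).Nonempty) (A : EuclideanSpace ℝ (Fin 3) →ₗ[ℝ] EuclideanSpace ℝ (Fin 3))
    (hA : A '' K = K) (h1 : A ≠ LinearMap.id) (h2 : A ≠ -LinearMap.id) :
    ∃ (T : EuclideanSpace ℝ (Fin 3) ≃L[ℝ] ℂ × ℝ) (θ ε : ℝ), (ε = 1 ∨ ε = -1) ∧ ex θ ≠ 1 ∧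
      ∀ x, T (ε • A x) = (ex θ * (T x).1, (T x).2) := by
  have hdet := abs_det_of_image hK iK A hA
  have hM := mom_invariant hK A hdet hA
  set B := Matrix.toEuclideanLin.symm A with hB
  have hAB : A = Matrix.toEuclideanLin B := by rw [hB]; simp
  obtain ⟨N, hN, hMN⟩ := posDef_factor (mom_posDef hK iK)
  rw [hMN] at hM
  have hNi : N⁻¹ * N = 1 := Matrix.nonsing_inv_mul N hN
  have hNi' : N * N⁻¹ = 1 := Matrix.mul_nonsing_inv N hN
  have hNt : Nᵀ * (N⁻¹)ᵀ = 1 := by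
    rw [← Matrix.transpose_mul, hNi, Matrix.transpose_one]
  set O0 := N⁻¹ * B * N with hO0
  have hOO0 : O0 * O0ᵀ = 1 := by
    rw [hO0, Matrix.transpose_mul, Matrix.transpose_mul]
    calc N⁻¹ * B * N * (Nᵀ * (Bᵀ * (N⁻¹)ᵀ)) = N⁻¹ * (B * (N * Nᵀ) * Bᵀ) * (N⁻¹)ᵀ := by
          simp only [Matrix.mul_assoc]
      _ = (N⁻¹ * N) * (Nᵀ * (N⁻¹)ᵀ) := by
          rw [hM]
          simp only [Matrix.mul_assoc]
      _ = 1 := by rw [hNi, hNt, Matrix.one_mul]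
  set ε := O0.det with hε
  have hε2 : ε * ε = 1 := by
    have := congrArg Matrix.det hOO0
    rw [Matrix.det_mul, Matrix.det_transpose, Matrix.det_one] at this
    exact this
  have hε1 : ε = 1 ∨ ε = -1 := mul_self_eq_one_iff.1 hε2
  set O := ε • O0 with hO
  have hOO : O * Oᵀ = 1 := by
    rw [hO, Matrix.transpose_smul, Matrix.smul_mul, Matrix.mul_smul, hOO0, smul_smul, hε2,
      one_smul]
  have hOd : O.det = 1 := by
    rw [hO, Matrix.det_smul, ← hε]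
    simp only [Fintype.card_fin]
    calc ε ^ 3 * ε = (ε * ε) * (ε * ε) := by ring
      _ = 1 := by rw [hε2, one_mul]
  have hNO : N * O0 * N⁻¹ = B := by
    rw [hO0]
    calc N * (N⁻¹ * B * N) * N⁻¹ = (N * N⁻¹) * B * (N * N⁻¹) := by
          simp only [Matrix.mul_assoc]
      _ = B := by rw [hNi', Matrix.one_mul, Matrix.mul_one]
  have hO1 : O ≠ 1 := by
    intro h
    have hO0e : O0 = ε • (1 : Matrix (Fin 3) (Fin 3) ℝ) := by
      rw [← h, hO, smul_smul, hε2, one_smul]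
    have hBe : B = ε • (1 : Matrix (Fin 3) (Fin 3) ℝ) := by
      rw [← hNO, hO0e, Matrix.mul_smul, Matrix.smul_mul, Matrix.mul_one, hNi']
    rcases hε1 with h3 | h3
    · apply h1
      rw [hAB, hBe, h3, one_smul]
      ext x i
      simp
    · apply h2
      rw [hAB, hBe, h3]
      ext x i
      simp
  obtain ⟨Q, c, s, hQQ, hR, hcs, hc1⟩ := rot_normal_form hOO hOd hO1
  have hQQ' : Q * Qᵀ = 1 := mul_eq_one_comm.1 hQQ
  set P := Qᵀ * N⁻¹ with hP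
  have hPu : IsUnit P.det := by
    rw [hP, Matrix.det_mul]
    apply IsUnit.mul
    · have := congrArg Matrix.det hQQ
      rw [Matrix.det_mul, Matrix.det_one] at this
      exact IsUnit.of_mul_eq_one _ this
    · rw [Matrix.det_nonsing_inv]
      exact hN.ringInverse
  have hPB : P * (ε • B) = !![c, -s, 0; s, c, 0; 0, 0, 1] * P := by
    rw [← hR, hP]
    calc Qᵀ * N⁻¹ * (ε • B) = Qᵀ * (ε • (N⁻¹ * B * (N * N⁻¹))) := by
          rw [hNi', Matrix.mul_one, Matrix.mul_smul, Matrix.mul_smul, Matrix.mul_assoc]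
      _ = Qᵀ * O * N⁻¹ := by
          rw [hO, hO0]
          simp only [Matrix.mul_assoc, Matrix.mul_smul, Matrix.smul_mul]
      _ = Qᵀ * O * (Q * Qᵀ) * N⁻¹ := by rw [hQQ', Matrix.mul_one]
      _ = Qᵀ * O * Q * (Qᵀ * N⁻¹) := by simp only [Matrix.mul_assoc]
  set z : ℂ := ⟨c, s⟩ with hz
  have hzn : ‖z‖ = 1 := by
    rw [Complex.norm_eq_sqrt_sq_add_sq]
    simp [hz, hcs]
  have hza : ex z.arg = z := by
    have := Complex.norm_mul_exp_arg_mul_I z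
    rw [hzn, Complex.ofReal_one, one_mul] at this
    exact this
  refine ⟨(coordEquiv P hPu).toContinuousLinearEquiv, z.arg, ε, hε1, ?_, ?_⟩
  · rw [hza]
    intro h
    apply hc1
    have := congrArg Complex.re h
    simpa [hz] using this
  · intro x
    rw [hza]
    have h5 : (ε • A x).ofLp = (ε • B) *ᵥ x.ofLp := by
      rw [hAB]
      simp [Matrix.smul_mulVec]
    have h6 : P *ᵥ (ε • A x).ofLp = !![c, -s, 0; s, c, 0; 0, 0, 1] *ᵥ (P *ᵥ x.ofLp) := by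
      rw [h5, Matrix.mulVec_mulVec, hPB, Matrix.mulVec_mulVec]
    show ((⟨(P *ᵥ (ε • A x).ofLp) 0, (P *ᵥ (ε • A x).ofLp) 1⟩ : ℂ),
        (P *ᵥ (ε • A x).ofLp) 2) =
      (z * (⟨(P *ᵥ x.ofLp) 0, (P *ᵥ x.ofLp) 1⟩ : ℂ), (P *ᵥ x.ofLp) 2)
    rw [h6]
    set y := P *ᵥ x.ofLp with hy
    refine Prod.ext (Complex.ext ?_ ?_) ?_
    · simp [Matrix.mulVec, dotProduct, Fin.sum_univ_three, hz]
      ring
    · simp [Matrix.mulVec, dotProduct, Fin.sum_univ_three, hz]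
      ring
    · simp [Matrix.mulVec, dotProduct, Fin.sum_univ_three]

end Vale.Agent.P227.Rot
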